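import Vale.Agent.P208.MathlibUsed

set_option linter.all false

section

section

/-!
# P208 (Lang-Plaut), gluing module

From bounded, uniformly doubling finite-dimensional Euclidean sets which are harder and harder to
embed, we build one doubling subset of `ℓ²` which embeds into no `ℝ^k`.
-/

namespace Vale.Agent.P208

/-- `X` is doubling with constant at most `lam`: every (closed) ball of `X` is covered by at most
`lam` (closed) balls of half the radius, with centres in `X`. -/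
def DoublingWith {E : Type*} [PseudoMetricSpace E] (lam : ℕ) (X : Set E) : Prop :=
  ∀ x ∈ X, ∀ r : ℝ, 0 < r → ∃ T : Finset E, T.card ≤ lam ∧ (∀ z ∈ T, z ∈ X) ∧
    ∀ y ∈ X, dist y x ≤ r → ∃ z ∈ T, dist y z ≤ r / 2

/-- `X` admits a bi-Lipschitz embedding into `ℝ^k` (with some scale `a > 0` and some finite
distortion `D`). -/
def BiLipEmbeds {E : Type*} [PseudoMetricSpace E] (X : Set E) (k : ℕ) : Prop :=
  ∃ (f : X → EuclideanSpace ℝ (Fin k)) (a D : ℝ), 0 < a ∧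
    ∀ x y : X, a * dist x y ≤ dist (f x) (f y) ∧ dist (f x) (f y) ≤ D * a * dist x y

/-- `X` admits an `(c, 1)`-bi-Lipschitz map into `ℝ^k`. -/
def EmbedsWith {E : Type*} [PseudoMetricSpace E] (c : ℝ) (X : Set E) (k : ℕ) : Prop :=
  ∃ f : E → EuclideanSpace ℝ (Fin k),
    ∀ x ∈ X, ∀ y ∈ X, c * dist x y ≤ dist (f x) (f y) ∧ dist (f x) (f y) ≤ dist x y

theorem DoublingWith.mono {E : Type*} [PseudoMetricSpace E] {l l' : ℕ} {X : Set E}
    (h : DoublingWith l X) (hl : l ≤ l') : DoublingWith l' X := by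
  intro x hx r hr
  obtain ⟨T, h1, h2, h3⟩ := h x hx r hr
  exact ⟨T, h1.trans hl, h2, h3⟩

/-- similarity images preserve doubling -/
theorem DoublingWith.image {E F : Type*} [PseudoMetricSpace E] [PseudoMetricSpace F] {l : ℕ}
    {X : Set E} (h : DoublingWith l X) (φ : E → F) (s : ℝ) (hs : 0 < s)
    (hφ : ∀ x y, dist (φ x) (φ y) = s * dist x y) : DoublingWith l (φ '' X) := by
  classical
  rintro _ ⟨x, hx, rfl⟩ r hr
  obtain ⟨T, h1, h2, h3⟩ := h x hx (r / s) (div_pos hr hs)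
  refine ⟨T.image φ, Finset.card_image_le.trans h1, ?_, ?_⟩
  · intro z hz
    obtain ⟨w, hw, rfl⟩ := Finset.mem_image.1 hz
    exact ⟨w, h2 w hw, rfl⟩
  · rintro _ ⟨y, hy, rfl⟩ hyr
    rw [hφ] at hyr
    obtain ⟨z, hz, hz'⟩ := h3 y hy ((le_div_iff₀ hs).2 (by linarith only [hyr]))
    refine ⟨φ z, Finset.mem_image_of_mem _ hz, ?_⟩
    rw [hφ]
    have := mul_le_mul_of_nonneg_left hz' hs.le
    calc s * dist y z ≤ s * (r / s / 2) := this
      _ = r / 2 := by (clear * - hs hr; field_simp)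

/-- abstract gluing of pieces along a line -/
theorem glue_doubling {H : Type*} [PseudoMetricSpace H] (lam : ℕ) (P : ℕ → Set H) (p : ℕ → H)
    (hne : ∀ j, (P j).Nonempty) (hP : ∀ j, ∀ x ∈ P j, dist x (p j) ≤ 1)
    (hd : ∀ i j, dist (p i) (p j) = |(4 : ℝ) ^ (i + 1) - 4 ^ (j + 1)|)
    (hdoub : ∀ j, DoublingWith lam (P j)) : DoublingWith (max lam 2) (⋃ j, P j) := by
  classical
  intro x hx r hr
  obtain ⟨j, hxj⟩ := Set.mem_iUnion.1 hx
  by_cases hone : ∀ i, ∀ y ∈ P i, dist y x ≤ r → i = j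
  · obtain ⟨T, h1, h2, h3⟩ := hdoub j x hxj r hr
    refine ⟨T, h1.trans (le_max_left _ _), fun z hz => Set.mem_iUnion.2 ⟨j, h2 z hz⟩, ?_⟩
    intro y hy hyr
    obtain ⟨i, hyi⟩ := Set.mem_iUnion.1 hy
    have := hone i y hyi hyr
    subst this
    exact h3 y hyi hyr
  · push Not at hone
    obtain ⟨i₀, y₀, hy₀, hy₀r, hij⟩ := hone
    -- the distance bound
    have key : ∀ i, ∀ y ∈ P i, dist y x ≤ r → i ≠ j → 3 * (4 : ℝ) ^ (max i j) ≤ r + 2 := by
      intro i y hy hyr hne'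
      have h1 : dist (p i) (p j) ≤ r + 2 := by
        have a1 := hP i y hy
        have a2 := hP j x hxj
        have := dist_triangle4 (p i) y x (p j)
        rw [dist_comm (p i) y] at this
        linarith only [hyr, a1, a2, this]
      rw [hd] at h1
      rcases lt_or_gt_of_ne hne' with hlt | hgt
      · rw [max_eq_right hlt.le]
        have h4 : (4 : ℝ) ^ (i + 1) ≤ 4 ^ j := pow_le_pow_right₀ (by norm_num) hlt
        have h5 : (4 : ℝ) ^ (j + 1) = 4 * 4 ^ j := by ring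
        rw [abs_sub_comm] at h1
        have := (le_abs_self _).trans h1
        linarith only [h4, h5, this]
      · rw [max_eq_left hgt.le]
        have h4 : (4 : ℝ) ^ (j + 1) ≤ 4 ^ i := pow_le_pow_right₀ (by norm_num) hgt
        have h5 : (4 : ℝ) ^ (i + 1) = 4 * 4 ^ i := by ring
        have := (le_abs_self _).trans h1
        linarith only [h4, h5, this]
    -- the set of indices meeting the ball is bounded
    have hbdd : ∃ B : ℕ, ∀ i, (∃ y ∈ P i, dist y x ≤ r) → i ≤ B := by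
      obtain ⟨B, hB⟩ := pow_unbounded_of_one_lt (r + 2) (by norm_num : (1 : ℝ) < 4)
      refine ⟨max B j, ?_⟩
      rintro i ⟨y, hy, hyr⟩
      by_contra hcon
      push Not at hcon
      have hij' : i ≠ j := by
        intro h; subst h; exact absurd (le_max_right B i) (not_le.2 hcon)
      have h1 := key i y hy hyr hij'
      have h2 : (4 : ℝ) ^ B ≤ 4 ^ (max i j) :=
        pow_le_pow_right₀ (by norm_num) (((le_max_left B j).trans hcon.le).trans (le_max_left i j))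
      have h3 : (0 : ℝ) < 4 ^ (max i j) := by positivity
      linarith only [hr, hB, h1, h2]
    obtain ⟨B, hB⟩ := hbdd
    -- the largest index
    obtain ⟨I, hI, hImax⟩ : ∃ I, (∃ y ∈ P I, dist y x ≤ r) ∧
        ∀ i, (∃ y ∈ P i, dist y x ≤ r) → i ≤ I := by
      have hex : ∃ n, (∃ y ∈ P n, dist y x ≤ r) := ⟨i₀, y₀, hy₀, hy₀r⟩
      refine ⟨Nat.findGreatest (fun n => ∃ y ∈ P n, dist y x ≤ r) B, ?_, ?_⟩
      · exact Nat.findGreatest_spec (P := fun n => ∃ y ∈ P n, dist y x ≤ r)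
          (hB i₀ ⟨y₀, hy₀, hy₀r⟩) ⟨y₀, hy₀, hy₀r⟩
      · intro i hi
        exact Nat.le_findGreatest (hB i hi) hi
    have hjI : j ≤ I := hImax j ⟨x, hxj, by simpa only [dist_self] using hr.le⟩
    have hi₀I : i₀ ≤ I := hImax i₀ ⟨y₀, hy₀, hy₀r⟩
    have hI3 : 3 * (4 : ℝ) ^ I ≤ r + 2 := by
      rcases eq_or_lt_of_le hjI with h | h
      · have := key i₀ y₀ hy₀ hy₀r hij
        rwa [max_eq_right (hi₀I.trans h.ge), h] at this
      · obtain ⟨y, hy, hyr⟩ := hI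
        have := key I y hy hyr h.ne'
        rwa [max_eq_left h.le] at this
    have hI1 : 1 ≤ I := by
      rcases Nat.eq_zero_or_pos I with h | h
      · exact absurd (by omega : i₀ = j) hij
      · exact h
    have h4I : (4 : ℝ) ≤ 4 ^ I := by
      calc (4 : ℝ) = 4 ^ 1 := by norm_num
        _ ≤ 4 ^ I := pow_le_pow_right₀ (by norm_num) hI1
    obtain ⟨a, ha⟩ := hne I
    obtain ⟨b, hb⟩ := hne 0
    refine ⟨{a, b}, Finset.card_le_two.trans (le_max_right _ _), ?_, ?_⟩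
    · intro z hz
      rcases Finset.mem_insert.1 hz with h | h
      · rw [h]; exact Set.mem_iUnion.2 ⟨I, ha⟩
      · rw [Finset.mem_singleton.1 h]; exact Set.mem_iUnion.2 ⟨0, hb⟩
    · intro y hy hyr
      obtain ⟨i, hyi⟩ := Set.mem_iUnion.1 hy
      have hiI : i ≤ I := hImax i ⟨y, hyi, hyr⟩
      rcases eq_or_lt_of_le hiI with h | h
      · subst h
        refine ⟨a, by simp, ?_⟩
        have := dist_triangle y (p i) a
        have a1 := hP i y hyi
        have a2 := hP i a ha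
        rw [dist_comm (p i) a] at this
        linarith only [hI3, h4I, this, a1, a2]
      · refine ⟨b, by simp, ?_⟩
        have := dist_triangle4 y (p i) (p 0) b
        have a1 := hP i y hyi
        have a2 := hP 0 b hb
        rw [dist_comm (p 0) b] at this
        have h6 : dist (p i) (p 0) ≤ 4 ^ I - 4 := by
          rw [hd]
          have h7 : (4 : ℝ) ^ (i + 1) ≤ 4 ^ I := pow_le_pow_right₀ (by norm_num) h
          have h8 : (4 : ℝ) ≤ 4 ^ (i + 1) := by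
            calc (4 : ℝ) = 4 ^ 1 := by norm_num
              _ ≤ 4 ^ (i + 1) := pow_le_pow_right₀ (by norm_num) (by omega)
          rw [abs_of_nonneg (by simpa only [zero_add, pow_one, sub_nonneg] using h8)]
          simpa only [zero_add, pow_one, tsub_le_iff_right, sub_add_cancel, ge_iff_le] using h7
        linarith only [hI3, h4I, this, a1, a2, h6]

/-- the isometric embedding of `ℝ^m` into `ℓ²` on the first `m` coordinates -/
noncomputable def iota (m : ℕ) (x : EuclideanSpace ℝ (Fin m)) : lp (fun _ : ℕ => ℝ) 2 :=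
  ∑ i : Fin m, x i • lp.single 2 (i : ℕ) (1 : ℝ)

theorem orthonormal_single :
    Orthonormal ℝ (fun i : ℕ => (lp.single 2 i (1 : ℝ) : lp (fun _ : ℕ => ℝ) 2)) := by
  rw [orthonormal_iff_ite]
  intro i j
  rw [lp.inner_single_left]
  by_cases h : i = j
  · subst h; simp only [lp.single_apply, Pi.single_eq_same, inner_self_eq_norm_sq_to_K, norm_one, Real.ringHom_apply, one_pow, ↓reduceIte]
  · simp only [lp.single_apply, ne_eq, h, not_false_eq_true, Pi.single_eq_of_ne, RCLike.inner_apply, Real.ringHom_apply, mul_one, ↓reduceIte]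

theorem dist_iota (m : ℕ) (x y : EuclideanSpace ℝ (Fin m)) :
    dist (iota m x) (iota m y) = dist x y := by
  have horth : Orthonormal ℝ
      (fun i : Fin m => (lp.single 2 (i : ℕ) (1 : ℝ) : lp (fun _ : ℕ => ℝ) 2)) :=
    orthonormal_single.comp _ Fin.val_injective
  rw [dist_eq_norm, dist_eq_norm]
  have h1 : iota m x - iota m y = iota m (x - y) := by
    simp only [iota, PiLp.sub_apply, sub_smul, Finset.sum_sub_distrib]
  rw [h1]
  have h2 : ‖iota m (x - y)‖ ^ 2 = ‖x - y‖ ^ 2 := by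
    rw [← real_inner_self_eq_norm_sq, EuclideanSpace.norm_sq_eq]
    rw [iota, horth.inner_sum]
    simp only [PiLp.sub_apply, Real.ringHom_apply, Real.norm_eq_abs, sq, abs_mul_abs_self]
  exact (sq_eq_sq₀ (norm_nonneg _) (norm_nonneg _)).1 h2

/-- GLUE: uniformly doubling bounded sets `X_{k,c}` in finite dimensional Euclidean spaces without
`(c,1)`-embedding into `ℝ^k` give one doubling subset of `ℓ²` without bi-Lipschitz embedding into
any `ℝ^k`. -/
theorem glue (lam : ℕ)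
    (h : ∀ (k : ℕ) (c : ℝ), 0 < c → ∃ (m : ℕ) (X : Set (EuclideanSpace ℝ (Fin m))),
      Bornology.IsBounded X ∧ X.Nonempty ∧ DoublingWith lam X ∧ ¬ EmbedsWith c X k) :
    ∃ X : Set (lp (fun _ : ℕ => ℝ) 2), (∃ lam' : ℕ, DoublingWith lam' X) ∧
      ∀ k : ℕ, ¬ BiLipEmbeds X k := by
  classical
  have h' : ∀ j : ℕ, ∃ (m : ℕ) (X : Set (EuclideanSpace ℝ (Fin m))) (s : ℝ)
      (x₀ : EuclideanSpace ℝ (Fin m)), x₀ ∈ X ∧ 0 < s ∧ (∀ x ∈ X, s * dist x x₀ ≤ 1) ∧
      DoublingWith lam X ∧ ¬ EmbedsWith (1 / ((j : ℝ) + 1)) X j := by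
    intro j
    obtain ⟨m, X, h1, ⟨x₀, hx₀⟩, h3, h4⟩ := h j (1 / ((j : ℝ) + 1)) (by positivity)
    obtain ⟨R, hR⟩ := (Metric.isBounded_iff_subset_closedBall x₀).1 h1
    refine ⟨m, X, 1 / (|R| + 1), x₀, hx₀, by positivity, ?_, h3, h4⟩
    intro x hx
    have := Metric.mem_closedBall.1 (hR hx)
    rw [one_div, inv_mul_le_iff₀ (by positivity)]
    linarith [le_abs_self R]
  choose m X s x₀ hx₀ hs hbd hdoub hemb using h'
  set e0 : lp (fun _ : ℕ => ℝ) 2 := lp.single 2 0 (1 : ℝ) with he0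
  have he0n : ‖e0‖ = 1 := orthonormal_single.1 0
  set p : ℕ → lp (fun _ : ℕ => ℝ) 2 := fun j => ((4 : ℝ) ^ (j + 1)) • e0 with hp
  set φ : ∀ j, EuclideanSpace ℝ (Fin (m j)) → lp (fun _ : ℕ => ℝ) 2 :=
    fun j x => p j + s j • (iota (m j) x - iota (m j) (x₀ j)) with hφ
  have hφd : ∀ j x y, dist (φ j x) (φ j y) = s j * dist x y := by
    intro j x y
    have : φ j x - φ j y = s j • (iota (m j) x - iota (m j) y) := by
      simp only [hφ]
      rw [add_sub_add_left_eq_sub, ← smul_sub]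
      congr 1
      abel
    rw [dist_eq_norm, this, norm_smul, Real.norm_of_nonneg (hs j).le, ← dist_eq_norm, dist_iota]
  have hφp : ∀ j x, dist (φ j x) (p j) = s j * dist x (x₀ j) := by
    intro j x
    have h1 : p j = φ j (x₀ j) := by simp [hφ]
    conv_lhs => rw [h1]
    rw [hφd]
  have hpd : ∀ i j, dist (p i) (p j) = |(4 : ℝ) ^ (i + 1) - 4 ^ (j + 1)| := by
    intro i j
    rw [dist_eq_norm]
    simp only [hp]
    rw [← sub_smul, norm_smul, he0n, mul_one, Real.norm_eq_abs]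
  refine ⟨⋃ j, φ j '' X j, ⟨max lam 2, ?_⟩, ?_⟩
  · refine glue_doubling lam (fun j => φ j '' X j) p ?_ ?_ hpd ?_
    · exact fun j => ⟨_, x₀ j, hx₀ j, rfl⟩
    · rintro j _ ⟨x, hx, rfl⟩
      rw [hφp]; exact hbd j x hx
    · exact fun j => (hdoub j).image (φ j) (s j) (hs j) (hφd j)
  · rintro k ⟨f, a, D, ha, hf⟩
    obtain ⟨j, hj⟩ := exists_nat_ge (max (k : ℝ) |D|)
    have hkj : k ≤ j := by exact_mod_cast (le_max_left _ _).trans hj
    have hDj : D ≤ (j : ℝ) + 1 := by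
      linarith only [(le_abs_self D).trans ((le_max_right _ _).trans hj)]
    apply hemb j
    have hmem : ∀ x ∈ X j, φ j x ∈ ⋃ j, φ j '' X j :=
      fun x hx => Set.mem_iUnion.2 ⟨j, x, hx, rfl⟩
    -- the isometric inclusion of ℝ^k in ℝ^j
    set ι : EuclideanSpace ℝ (Fin k) → EuclideanSpace ℝ (Fin j) :=
      fun v => WithLp.toLp 2 (fun i : Fin j => if hi : (i : ℕ) < k then v ⟨i, hi⟩ else 0) with hι
    have hιd : ∀ v w, dist (ι v) (ι w) = dist v w := by
      intro v w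
      rw [EuclideanSpace.dist_eq, EuclideanSpace.dist_eq]
      congr 1
      obtain ⟨t, rfl⟩ := Nat.exists_eq_add_of_le hkj
      rw [Fin.sum_univ_add]
      simp only [hι, Fin.val_castAdd, Fin.is_lt, ↓reduceDIte, Fin.eta, Fin.val_natAdd, add_lt_iff_neg_left, not_lt_zero, dist_self, ne_eq, OfNat.ofNat_ne_zero, not_false_eq_true, zero_pow, Finset.sum_const_zero, add_zero]
    set c : ℝ := 1 / (((j : ℝ) + 1) * a * s j) with hc
    have hj1 : (0 : ℝ) < (j : ℝ) + 1 := by (clear * -; positivity)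
    have hsj := hs j
    have hcpos : 0 < c := by (clear * - ha hsj; positivity)
    refine ⟨fun x => if hx : x ∈ X j then c • ι (f ⟨φ j x, hmem x hx⟩) else 0, ?_⟩
    intro x hx y hy
    simp only [hx, hy, dif_pos]
    rw [dist_smul₀, Real.norm_of_nonneg hcpos.le, hιd]
    obtain ⟨h1, h2⟩ := hf ⟨φ j x, hmem x hx⟩ ⟨φ j y, hmem y hy⟩
    have hdd : dist (⟨φ j x, hmem x hx⟩ : ↥(⋃ j, φ j '' X j)) ⟨φ j y, hmem y hy⟩
        = s j * dist x y := by
      rw [Subtype.dist_eq]; exact hφd j x y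
    rw [hdd] at h1 h2
    have hxy : 0 ≤ dist x y := dist_nonneg
    constructor
    · calc 1 / ((j : ℝ) + 1) * dist x y = c * (a * (s j * dist x y)) := by
            rw [hc]; (clear * - ha hsj; field_simp)
        _ ≤ _ := mul_le_mul_of_nonneg_left h1 hcpos.le
    · calc c * dist _ _ ≤ c * (D * a * (s j * dist x y)) :=
            mul_le_mul_of_nonneg_left h2 hcpos.le
        _ ≤ c * (((j : ℝ) + 1) * a * (s j * dist x y)) := by (clear * - hDj ha hsj; gcongr)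
        _ = dist x y := by rw [hc]; (clear * - ha hsj; field_simp)

end Vale.Agent.P208
end
end

section

section

/-! P208: the doubling property in the strong form (closed balls covered by open balls). -/

namespace Vale.Agent.P208

/-- A doubling set is doubling in the strongest sense: every closed ball of `X` is covered by
boundedly many open balls of half the radius with centres in `X`. -/
theorem DoublingWith.strict {E : Type*} [PseudoMetricSpace E] {lam : ℕ} {X : Set E}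
    (h : DoublingWith lam X) : ∀ x ∈ X, ∀ r : ℝ, 0 < r → ∃ T : Finset E, T.card ≤ lam * lam ∧
      (∀ z ∈ T, z ∈ X) ∧ ∀ y ∈ X, dist y x ≤ r → ∃ z ∈ T, dist y z < r / 2 := by
  classical
  intro x hx r hr
  obtain ⟨T, h1, h2, h3⟩ := h x hx r hr
  have h4 : ∀ z : E, ∃ T' : Finset E, T'.card ≤ lam ∧ (∀ u ∈ T', u ∈ X) ∧
      (z ∈ X → ∀ y ∈ X, dist y z ≤ r / 2 → ∃ u ∈ T', dist y u ≤ r / 2 / 2) := by
    intro z
    by_cases hz : z ∈ X
    · obtain ⟨T', a, b, c⟩ := h z hz (r / 2) (by positivity)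
      exact ⟨T', a, b, fun _ => c⟩
    · exact ⟨∅, by simp, by simp, fun h => absurd h hz⟩
  choose T' a b c using h4
  refine ⟨T.biUnion T', ?_, ?_, ?_⟩
  · refine Finset.card_biUnion_le.trans ((Finset.sum_le_sum fun z _ => a z).trans ?_)
    rw [Finset.sum_const, smul_eq_mul]
    exact Nat.mul_le_mul_right _ h1
  · intro u hu
    obtain ⟨z, -, hz⟩ := Finset.mem_biUnion.1 hu
    exact b z u hz
  · intro y hy hyr
    obtain ⟨z, hz, hyz⟩ := h3 y hy hyr
    obtain ⟨u, hu, hyu⟩ := c z (h2 z hz) y hy hyz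
    refine ⟨u, Finset.mem_biUnion.2 ⟨z, hz, hu⟩, ?_⟩
    linarith

end Vale.Agent.P208
end
end

section

section

/-!
# P208: compact and finite versions

Subsets and closures of doubling sets, compactness of the embedding problem, gluing with shrinking
pieces.
-/

open Filter Topology

namespace Vale.Agent.P208

/-- subsets of doubling sets are doubling -/
theorem DoublingWith.subset {E : Type*} [PseudoMetricSpace E] {lam : ℕ} {X Y : Set E}
    (h : DoublingWith lam X) (hYX : Y ⊆ X) : DoublingWith (lam * lam) Y := by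
  classical
  intro y hy r hr
  obtain ⟨T, hT1, hT2, hT3⟩ := h y (hYX hy) r hr
  have h' : ∀ z : E, ∃ T' : Finset E, T'.card ≤ lam ∧ (z ∈ X →
      ∀ u ∈ X, dist u z ≤ r / 2 → ∃ w ∈ T', dist u w ≤ r / 2 / 2) := by
    intro z
    by_cases hz : z ∈ X
    · obtain ⟨T', a1, _, a3⟩ := h z hz (r / 2) (half_pos hr)
      exact ⟨T', a1, fun _ => a3⟩
    · exact ⟨∅, by simp, fun hz' => absurd hz' hz⟩
  choose T' hT'1 hT'2 using h'
  set g : E → E := fun w => if hw : ∃ u ∈ Y, dist u w ≤ r / 4 then hw.choose else y with hg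
  have hgY : ∀ w, g w ∈ Y := by
    intro w
    simp only [hg]
    split_ifs with hw
    · exact hw.choose_spec.1
    · exact hy
  refine ⟨(T.biUnion T').image g, ?_, ?_, ?_⟩
  · refine Finset.card_image_le.trans ((Finset.card_biUnion_le_card_mul _ _ lam ?_).trans ?_)
    · exact fun z _ => hT'1 z
    · exact Nat.mul_le_mul_right _ hT1
  · intro z hz
    obtain ⟨w, _, rfl⟩ := Finset.mem_image.1 hz
    exact hgY w
  · intro u hu hur
    obtain ⟨z, hz, hz'⟩ := hT3 u (hYX hu) hur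
    obtain ⟨w, hw, hw'⟩ := hT'2 z (hT2 z hz) u (hYX hu) hz'
    refine ⟨g w, Finset.mem_image_of_mem _ (Finset.mem_biUnion.2 ⟨z, hz, hw⟩), ?_⟩
    have hex : ∃ u ∈ Y, dist u w ≤ r / 4 := ⟨u, hu, by linarith only [hw']⟩
    have h1 : dist (g w) w ≤ r / 4 := by
      simp only [hg, dif_pos hex]
      exact hex.choose_spec.2
    have h2 := dist_triangle_right u (g w) w
    linarith only [hw', h1, h2]

/-- closures of doubling sets are doubling -/
theorem DoublingWith.closure {E : Type*} [PseudoMetricSpace E] {lam : ℕ} {X : Set E}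
    (h : DoublingWith lam X) : DoublingWith (lam * lam) (closure X) := by
  classical
  intro x hx r hr
  obtain ⟨x', hx', hxx'⟩ := Metric.mem_closure_iff.1 hx (r / 40) (by positivity)
  obtain ⟨T, hT1, hT2, hT3⟩ := h x' hx' (21 / 20 * r) (by positivity)
  have h' : ∀ z : E, ∃ T' : Finset E, T'.card ≤ lam ∧ (∀ w ∈ T', w ∈ X) ∧ (z ∈ X →
      ∀ u ∈ X, dist u z ≤ 21 / 20 * r / 2 → ∃ w ∈ T', dist u w ≤ 21 / 20 * r / 2 / 2) := by
    intro z
    by_cases hz : z ∈ X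
    · obtain ⟨T', a1, a2, a3⟩ := h z hz (21 / 20 * r / 2) (by positivity)
      exact ⟨T', a1, a2, fun _ => a3⟩
    · exact ⟨∅, by simp, by simp, fun hz' => absurd hz' hz⟩
  choose T' hT'1 hT'0 hT'2 using h'
  refine ⟨T.biUnion T', ?_, ?_, ?_⟩
  · refine (Finset.card_biUnion_le_card_mul _ _ lam ?_).trans ?_
    · exact fun z _ => hT'1 z
    · exact Nat.mul_le_mul_right _ hT1
  · intro w hw
    obtain ⟨z, _, hw'⟩ := Finset.mem_biUnion.1 hw
    exact subset_closure (hT'0 z w hw')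
  · intro y hy hyr
    obtain ⟨y', hy', hyy'⟩ := Metric.mem_closure_iff.1 hy (r / 40) (by positivity)
    have h1 : dist y' x' ≤ 21 / 20 * r := by
      have := dist_triangle4 y' y x x'
      rw [dist_comm y' y] at this
      linarith only [hxx', hyr, hyy', this]
    obtain ⟨z, hz, hz'⟩ := hT3 y' hy' h1
    obtain ⟨w, hw, hw'⟩ := hT'2 z (hT2 z hz) y' hy' hz'
    refine ⟨w, Finset.mem_biUnion.2 ⟨z, hz, hw⟩, ?_⟩
    have := dist_triangle y y' w
    linarith only [hr, hyy', hw', this]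

/-- bounded doubling sets are totally bounded -/
theorem DoublingWith.totallyBounded {E : Type*} [PseudoMetricSpace E] {lam : ℕ} {X : Set E}
    (h : DoublingWith lam X) (x₀ : E) (hx₀ : x₀ ∈ X) (R : ℝ) (hR : 0 < R)
    (hX : ∀ x ∈ X, dist x x₀ ≤ R) : TotallyBounded X := by
  classical
  have key : ∀ n : ℕ, ∃ T : Finset E, (∀ z ∈ T, z ∈ X) ∧
      ∀ x ∈ X, ∃ z ∈ T, dist x z ≤ R / 2 ^ n := by
    intro n
    induction n with
    | zero => exact ⟨{x₀}, by simpa using hx₀, fun x hx => ⟨x₀, by simp, by simpa only [pow_zero, div_one] using hX x hx⟩⟩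
    | succ n ih =>
      obtain ⟨T, h1, h2⟩ := ih
      have h' : ∀ z : E, ∃ T' : Finset E, (∀ w ∈ T', w ∈ X) ∧ (z ∈ X →
          ∀ u ∈ X, dist u z ≤ R / 2 ^ n → ∃ w ∈ T', dist u w ≤ R / 2 ^ n / 2) := by
        intro z
        by_cases hz : z ∈ X
        · obtain ⟨T', _, a2, a3⟩ := h z hz (R / 2 ^ n) (by positivity)
          exact ⟨T', a2, fun _ => a3⟩
        · exact ⟨∅, by simp, fun hz' => absurd hz' hz⟩
      choose T' hT'0 hT'2 using h'
      refine ⟨T.biUnion T', ?_, ?_⟩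
      · intro w hw
        obtain ⟨z, _, hw'⟩ := Finset.mem_biUnion.1 hw
        exact hT'0 z w hw'
      · intro x hx
        obtain ⟨z, hz, hz'⟩ := h2 x hx
        obtain ⟨w, hw, hw'⟩ := hT'2 z (h1 z hz) x hx hz'
        refine ⟨w, Finset.mem_biUnion.2 ⟨z, hz, hw⟩, ?_⟩
        rw [pow_succ, ← div_div]
        exact hw'
  rw [Metric.totallyBounded_iff]
  intro ε hε
  obtain ⟨n, hn⟩ := exists_pow_lt_of_lt_one (div_pos hε hR) (by norm_num : (1 / 2 : ℝ) < 1)
  obtain ⟨T, _, h2⟩ := key n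
  refine ⟨T, T.finite_toSet, ?_⟩
  intro x hx
  obtain ⟨z, hz, hz'⟩ := h2 x hx
  refine Set.mem_iUnion₂.2 ⟨z, hz, ?_⟩
  rw [Metric.mem_ball]
  refine lt_of_le_of_lt hz' ?_
  rw [lt_div_iff₀ hR] at hn
  calc R / 2 ^ n = (1 / 2) ^ n * R := by rw [one_div, inv_pow]; ring
    _ < ε := hn

/-- If all finite subsets of `X` embed with fixed constants then so does `X`. -/
theorem embedsWith_of_finite {E : Type*} [PseudoMetricSpace E] (c : ℝ) (X : Set E) (k : ℕ)
    (h : ∀ Y : Set E, Y ⊆ X → Y.Finite → EmbedsWith c Y k) : EmbedsWith c X k := by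
  classical
  rcases X.eq_empty_or_nonempty with rfl | ⟨x₀, hx₀⟩
  · exact h ∅ (le_refl _) Set.finite_empty
  have h' : ∀ Y : Finset E, ∃ f : E → EuclideanSpace ℝ (Fin k), f x₀ = 0 ∧
      ∀ x ∈ X, x ∈ insert x₀ Y → ∀ y ∈ X, y ∈ insert x₀ Y →
        c * dist x y ≤ dist (f x) (f y) ∧ dist (f x) (f y) ≤ dist x y := by
    intro Y
    obtain ⟨f, hf⟩ := h {x | x ∈ X ∧ x ∈ insert x₀ Y} (fun x hx => hx.1)
      ((insert x₀ Y).finite_toSet.subset (fun x hx => hx.2))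
    refine ⟨fun x => f x - f x₀, by simp, ?_⟩
    intro x hx hxY y hy hyY
    have := hf x ⟨hx, hxY⟩ y ⟨hy, hyY⟩
    simpa only [dist_sub_right] using this
  choose f hf0 hf using h'
  set U : Ultrafilter (Finset E) := Ultrafilter.of atTop with hU
  have hUle : (U : Filter (Finset E)) ≤ atTop := Ultrafilter.of_le atTop
  have hmem : ∀ x : E, ∀ᶠ Y in (U : Filter (Finset E)), x ∈ insert x₀ Y := by
    intro x
    refine hUle ?_
    filter_upwards [eventually_ge_atTop ({x} : Finset E)] with Y hY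
    exact Finset.mem_insert_of_mem (hY (Finset.mem_singleton_self x))
  have hlim : ∀ x ∈ X, ∃ l : EuclideanSpace ℝ (Fin k),
      Tendsto (fun Y => f Y x) (U : Filter (Finset E)) (𝓝 l) := by
    intro x hx
    have hb : ∀ᶠ Y in (U : Filter (Finset E)), f Y x ∈ Metric.closedBall
        (0 : EuclideanSpace ℝ (Fin k)) (dist x x₀) := by
      filter_upwards [hmem x] with Y hY
      have := (hf Y x hx hY x₀ hx₀ (Finset.mem_insert_self _ _)).2
      rwa [hf0] at this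
    obtain ⟨l, _, hl⟩ := (isCompact_closedBall (0 : EuclideanSpace ℝ (Fin k))
      (dist x x₀)).ultrafilter_le_nhds (U.map (fun Y => f Y x)) (by
        rw [le_principal_iff]
        exact hb)
    exact ⟨l, hl⟩
  choose! g hg using hlim
  refine ⟨g, ?_⟩
  intro x hx y hy
  have hd := (hg x hx).dist (hg y hy)
  constructor
  · refine ge_of_tendsto hd ?_
    filter_upwards [hmem x, hmem y] with Y h1 h2
    exact (hf Y x hx h1 y hy h2).1
  · refine le_of_tendsto hd ?_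
    filter_upwards [hmem x, hmem y] with Y h1 h2
    exact (hf Y x hx h1 y hy h2).2

end Vale.Agent.P208
end
end

section

section

/-!
# P208: gluing with shrinking pieces, compact and finite versions of the main theorem
-/

namespace Vale.Agent.P208

/-- abstract gluing of shrinking pieces -/
theorem glue_doubling_shrink {H : Type*} [PseudoMetricSpace H] (lam : ℕ) (P : ℕ → Set H)
    (p : ℕ → H) (hP : ∀ j, ∀ x ∈ P j, dist x (p j) ≤ 1 / 50 * (1 / 8 : ℝ) ^ j)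
    (hd : ∀ i j, dist (p i) (p j) = |(1 / 8 : ℝ) ^ i - (1 / 8) ^ j|)
    (hdoub : ∀ j, DoublingWith lam (P j)) : DoublingWith (max lam 2) (⋃ j, P j) := by
  classical
  intro x hx r hr
  obtain ⟨j, hxj⟩ := Set.mem_iUnion.1 hx
  by_cases hone : ∀ i, ∀ y ∈ P i, dist y x ≤ r → i = j
  · obtain ⟨T, h1, h2, h3⟩ := hdoub j x hxj r hr
    refine ⟨T, h1.trans (le_max_left _ _), fun z hz => Set.mem_iUnion.2 ⟨j, h2 z hz⟩, ?_⟩
    intro y hy hyr
    obtain ⟨i, hyi⟩ := Set.mem_iUnion.1 hy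
    have := hone i y hyi hyr
    subst this
    exact h3 y hyi hyr
  · push Not at hone
    obtain ⟨i₀, y₀, hy₀, hy₀r, hij⟩ := hone
    have pw : ∀ a b : ℕ, a < b → (1 / 8 : ℝ) ^ b ≤ 1 / 8 * (1 / 8 : ℝ) ^ a := by
      intro a b hab
      have : (1 / 8 : ℝ) ^ b ≤ (1 / 8) ^ (a + 1) :=
        pow_le_pow_of_le_one (by norm_num) (by norm_num) hab
      rwa [pow_succ, mul_comm] at this
    have pos : ∀ a : ℕ, (0 : ℝ) < (1 / 8) ^ a := fun a => by positivity
    -- `r` is at least `4 / 5` of the scale of `x`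
    have hrj : 4 / 5 * (1 / 8 : ℝ) ^ j ≤ r := by
      have a1 := hP i₀ y₀ hy₀
      have a2 := hP j x hxj
      have a3 := dist_triangle4 (p i₀) y₀ x (p j)
      rw [dist_comm (p i₀) y₀, hd] at a3
      rcases lt_or_gt_of_ne hij with h | h
      · have b1 := pw _ _ h
        have b2 := pos i₀
        have b3 := pos j
        rw [abs_of_nonneg (by linarith only [b1, b3])] at a3
        linarith
      · have b1 := pw _ _ h
        have b2 := pos i₀
        have b3 := pos j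
        rw [abs_of_nonpos (by linarith only [b1, b2])] at a3
        linarith
    -- all pieces meeting the ball have scale at most `12 / 5 * r`
    have hscale : ∀ i, ∀ y ∈ P i, dist y x ≤ r → (1 / 8 : ℝ) ^ i ≤ 12 / 5 * r := by
      intro i y hy hyr
      have a1 := hP i y hy
      have a2 := hP j x hxj
      have a3 := dist_triangle4 (p i) y x (p j)
      rw [dist_comm (p i) y, hd] at a3
      have b3 := pos j
      have b4 := pos i
      have a4 := le_abs_self ((1 / 8 : ℝ) ^ i - (1 / 8) ^ j)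
      linarith
    have hex : ∃ i : ℕ, (1 / 8 : ℝ) ^ i ≤ 12 / 5 * r := ⟨i₀, hscale i₀ y₀ hy₀ hy₀r⟩
    set I := Nat.find hex with hI
    have hI1 : (1 / 8 : ℝ) ^ I ≤ 12 / 5 * r := Nat.find_spec hex
    have hI2 : ∀ i, ∀ y ∈ P i, dist y x ≤ r → I ≤ i := fun i y hy hyr =>
      Nat.find_min' hex (hscale i y hy hyr)
    -- two classes
    have hclass : ∀ (Q : H → Prop), (∀ y y', Q y → Q y' → dist y y' ≤ r / 2) →
        ∃ T : Finset H, T.card ≤ 1 ∧ (∀ z ∈ T, z ∈ ⋃ j, P j) ∧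
          ∀ y ∈ ⋃ j, P j, Q y → ∃ z ∈ T, dist y z ≤ r / 2 := by
      intro Q hQ
      by_cases hne : ∃ y ∈ ⋃ j, P j, Q y
      · obtain ⟨y, hy, hQy⟩ := hne
        exact ⟨{y}, by simp, by simpa only [Finset.mem_singleton, Set.mem_iUnion, forall_eq] using hy, fun y' _ hQ' => ⟨y, by simp, hQ _ _ hQ' hQy⟩⟩
      · push Not at hne
        exact ⟨∅, by simp only [Finset.card_empty, zero_le], by simp, fun y hy hQ' => absurd hQ' (hne y hy)⟩
    obtain ⟨T1, c1, m1, k1⟩ := hclass (fun y => y ∈ P I) (by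
      intro y y' hy hy'
      have a1 := hP I y hy
      have a2 := hP I y' hy'
      have := dist_triangle_right y y' (p I)
      linarith only [hr, hI1, a1, a2, this])
    obtain ⟨T2, c2, m2, k2⟩ := hclass (fun y => ∃ i, I < i ∧ y ∈ P i) (by
      rintro y y' ⟨i, hi, hy⟩ ⟨i', hi', hy'⟩
      have a1 := hP i y hy
      have a2 := hP i' y' hy'
      have b1 := pw _ _ hi
      have b2 := pw _ _ hi'
      have b3 := pos i
      have b4 := pos i'
      have a3 := dist_triangle4 y (p i) (p i') y'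
      rw [hd, dist_comm (p i') y'] at a3
      have a4 : |(1 / 8 : ℝ) ^ i - (1 / 8) ^ i'| ≤ 1 / 8 * (1 / 8 : ℝ) ^ I := by
        rw [abs_le]; constructor <;> linarith only [b1, b4, b2, b3]
      linarith only [hI1, a1, a2, b1, b2, b3, a3, a4])
    refine ⟨T1 ∪ T2, ?_, ?_, ?_⟩
    · calc (T1 ∪ T2).card ≤ T1.card + T2.card := Finset.card_union_le _ _
        _ ≤ 1 + 1 := add_le_add c1 c2
        _ ≤ max lam 2 := le_max_right _ _
    · intro z hz
      rcases Finset.mem_union.1 hz with h | h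
      · exact m1 z h
      · exact m2 z h
    · intro y hy hyr
      obtain ⟨i, hyi⟩ := Set.mem_iUnion.1 hy
      rcases (hI2 i y hyi hyr).eq_or_lt with h | h
      · obtain ⟨z, hz, hz'⟩ := k1 y hy (h ▸ hyi)
        exact ⟨z, Finset.mem_union_left _ hz, hz'⟩
      · obtain ⟨z, hz, hz'⟩ := k2 y hy ⟨i, h, hyi⟩
        exact ⟨z, Finset.mem_union_right _ hz, hz'⟩

theorem BiLipEmbeds.mono {E : Type*} [PseudoMetricSpace E] {X Y : Set E} {k : ℕ}
    (h : BiLipEmbeds Y k) (hXY : X ⊆ Y) : BiLipEmbeds X k := by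
  obtain ⟨f, a, D, ha, hf⟩ := h
  exact ⟨fun x => f ⟨x, hXY x.2⟩, a, D, ha, fun x y => hf ⟨x, hXY x.2⟩ ⟨y, hXY y.2⟩⟩

/-- GLUE, compact version. -/
theorem glue_compact (lam : ℕ)
    (h : ∀ (k : ℕ) (c : ℝ), 0 < c → ∃ (m : ℕ) (X : Set (EuclideanSpace ℝ (Fin m))),
      Bornology.IsBounded X ∧ X.Nonempty ∧ DoublingWith lam X ∧ ¬ EmbedsWith c X k) :
    ∃ X : Set (lp (fun _ : ℕ => ℝ) 2), IsCompact X ∧ (∃ lam' : ℕ, DoublingWith lam' X) ∧
      ∀ k : ℕ, ¬ BiLipEmbeds X k := by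
  classical
  have h' : ∀ j : ℕ, ∃ (m : ℕ) (X : Set (EuclideanSpace ℝ (Fin m))) (s : ℝ)
      (x₀ : EuclideanSpace ℝ (Fin m)), x₀ ∈ X ∧ 0 < s ∧
      (∀ x ∈ X, s * dist x x₀ ≤ 1 / 50 * (1 / 8 : ℝ) ^ j) ∧
      DoublingWith lam X ∧ ¬ EmbedsWith (1 / ((j : ℝ) + 1)) X j := by
    intro j
    obtain ⟨m, X, h1, ⟨x₀, hx₀⟩, h3, h4⟩ := h j (1 / ((j : ℝ) + 1)) (by positivity)
    obtain ⟨R, hR⟩ := (Metric.isBounded_iff_subset_closedBall x₀).1 h1
    have hpos : (0 : ℝ) < 1 / 50 * (1 / 8 : ℝ) ^ j := by positivity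
    refine ⟨m, X, (1 / 50 * (1 / 8 : ℝ) ^ j) / (|R| + 1), x₀, hx₀, by positivity, ?_, h3, h4⟩
    intro x hx
    have h5 := Metric.mem_closedBall.1 (hR hx)
    have h6 : dist x x₀ ≤ |R| + 1 := by linarith only [h5, le_abs_self R]
    rw [div_mul_eq_mul_div, div_le_iff₀ (by (clear * -; positivity))]
    exact mul_le_mul_of_nonneg_left h6 hpos.le
  choose m X s x₀ hx₀ hs hbd hdoub hemb using h'
  set e0 : lp (fun _ : ℕ => ℝ) 2 := lp.single 2 0 (1 : ℝ) with he0
  have he0n : ‖e0‖ = 1 := orthonormal_single.1 0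
  set p : ℕ → lp (fun _ : ℕ => ℝ) 2 := fun j => ((1 / 8 : ℝ) ^ j) • e0 with hp
  set φ : ∀ j, EuclideanSpace ℝ (Fin (m j)) → lp (fun _ : ℕ => ℝ) 2 :=
    fun j x => p j + s j • (iota (m j) x - iota (m j) (x₀ j)) with hφ
  have hφd : ∀ j x y, dist (φ j x) (φ j y) = s j * dist x y := by
    intro j x y
    have : φ j x - φ j y = s j • (iota (m j) x - iota (m j) y) := by
      simp only [hφ]
      rw [add_sub_add_left_eq_sub, ← smul_sub]
      congr 1
      abel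
    rw [dist_eq_norm, this, norm_smul, Real.norm_of_nonneg (hs j).le, ← dist_eq_norm, dist_iota]
  have hφp : ∀ j x, dist (φ j x) (p j) = s j * dist x (x₀ j) := by
    intro j x
    have h1 : p j = φ j (x₀ j) := by simp [hφ]
    conv_lhs => rw [h1]
    rw [hφd]
  have hpd : ∀ i j, dist (p i) (p j) = |(1 / 8 : ℝ) ^ i - (1 / 8) ^ j| := by
    intro i j
    rw [dist_eq_norm]
    simp only [hp]
    rw [← sub_smul, norm_smul, he0n, mul_one, Real.norm_eq_abs]
  have hpo : ∀ j, dist (p j) 0 = (1 / 8 : ℝ) ^ j := by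
    intro j
    rw [dist_zero_right]
    simp only [hp]
    rw [norm_smul, he0n, mul_one, Real.norm_of_nonneg (by positivity)]
  have hP : ∀ j, ∀ x ∈ φ j '' X j, dist x (p j) ≤ 1 / 50 * (1 / 8 : ℝ) ^ j := by
    rintro j _ ⟨x, hx, rfl⟩
    rw [hφp]; exact hbd j x hx
  have hD : DoublingWith (max lam 2) (⋃ j, φ j '' X j) :=
    glue_doubling_shrink lam (fun j => φ j '' X j) p hP hpd
      (fun j => (hdoub j).image (φ j) (s j) (hs j) (hφd j))
  refine ⟨closure (⋃ j, φ j '' X j), ?_, ⟨_, hD.closure⟩, ?_⟩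
  · refine TotallyBounded.isCompact_of_isClosed ?_ isClosed_closure
    refine TotallyBounded.closure ?_
    have hmem0 : φ 0 (x₀ 0) ∈ ⋃ j, φ j '' X j := Set.mem_iUnion.2 ⟨0, _, hx₀ 0, rfl⟩
    refine hD.totallyBounded (φ 0 (x₀ 0)) hmem0 4 (by norm_num) ?_
    have hb : ∀ x ∈ ⋃ j, φ j '' X j, dist x 0 ≤ 2 := by
      intro x hx
      obtain ⟨j, hj⟩ := Set.mem_iUnion.1 hx
      have h1 := hP j x hj
      have h2 := hpo j
      have h3 := dist_triangle x (p j) 0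
      have h4 : (1 / 8 : ℝ) ^ j ≤ 1 := pow_le_one₀ (by norm_num) (by norm_num)
      linarith only [h1, h2, h3, h4]
    intro x hx
    have h1 := hb x hx
    have h2 := hb _ hmem0
    have h3 := dist_triangle_right x (φ 0 (x₀ 0)) 0
    linarith only [h1, h2, h3]
  · intro k hk
    obtain ⟨f, a, D, ha, hf⟩ := hk.mono subset_closure
    obtain ⟨j, hj⟩ := exists_nat_ge (max (k : ℝ) |D|)
    have hkj : k ≤ j := by exact_mod_cast (le_max_left _ _).trans hj
    have hDj : D ≤ (j : ℝ) + 1 := by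
      linarith only [(le_abs_self D).trans ((le_max_right _ _).trans hj)]
    apply hemb j
    have hmem : ∀ x ∈ X j, φ j x ∈ ⋃ j, φ j '' X j :=
      fun x hx => Set.mem_iUnion.2 ⟨j, x, hx, rfl⟩
    set ι : EuclideanSpace ℝ (Fin k) → EuclideanSpace ℝ (Fin j) :=
      fun v => WithLp.toLp 2 (fun i : Fin j => if hi : (i : ℕ) < k then v ⟨i, hi⟩ else 0) with hι
    have hιd : ∀ v w, dist (ι v) (ι w) = dist v w := by
      intro v w
      rw [EuclideanSpace.dist_eq, EuclideanSpace.dist_eq]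
      congr 1
      obtain ⟨t, rfl⟩ := Nat.exists_eq_add_of_le hkj
      rw [Fin.sum_univ_add]
      simp only [hι, Fin.val_castAdd, Fin.is_lt, ↓reduceDIte, Fin.eta, Fin.val_natAdd, add_lt_iff_neg_left, not_lt_zero, dist_self, ne_eq, OfNat.ofNat_ne_zero, not_false_eq_true, zero_pow, Finset.sum_const_zero, add_zero]
    set c : ℝ := 1 / (((j : ℝ) + 1) * a * s j) with hc
    have hj1 : (0 : ℝ) < (j : ℝ) + 1 := by (clear * -; positivity)
    have hsj := hs j
    have hcpos : 0 < c := by (clear * - ha hsj; positivity)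
    refine ⟨fun x => if hx : x ∈ X j then c • ι (f ⟨φ j x, hmem x hx⟩) else 0, ?_⟩
    intro x hx y hy
    simp only [hx, hy, dif_pos]
    rw [dist_smul₀, Real.norm_of_nonneg hcpos.le, hιd]
    obtain ⟨h1, h2⟩ := hf ⟨φ j x, hmem x hx⟩ ⟨φ j y, hmem y hy⟩
    have hdd : dist (⟨φ j x, hmem x hx⟩ : ↥(⋃ j, φ j '' X j)) ⟨φ j y, hmem y hy⟩
        = s j * dist x y := by
      rw [Subtype.dist_eq]; exact hφd j x y
    rw [hdd] at h1 h2
    have hxy : 0 ≤ dist x y := dist_nonneg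
    constructor
    · calc 1 / ((j : ℝ) + 1) * dist x y = c * (a * (s j * dist x y)) := by
            rw [hc]; (clear * - ha hsj; field_simp)
        _ ≤ _ := mul_le_mul_of_nonneg_left h1 hcpos.le
    · calc c * dist _ _ ≤ c * (D * a * (s j * dist x y)) :=
            mul_le_mul_of_nonneg_left h2 hcpos.le
        _ ≤ c * (((j : ℝ) + 1) * a * (s j * dist x y)) := by (clear * - hDj ha hsj; gcongr)
        _ = dist x y := by rw [hc]; (clear * - ha hsj; field_simp)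

/-- `X` embeds into `ℝ^k` with distortion at most `D`. -/
def EmbedsDist {E : Type*} [PseudoMetricSpace E] (X : Set E) (k : ℕ) (D : ℝ) : Prop :=
  ∃ (f : X → EuclideanSpace ℝ (Fin k)) (a : ℝ), 0 < a ∧
    ∀ x y : X, a * dist x y ≤ dist (f x) (f y) ∧ dist (f x) (f y) ≤ D * a * dist x y

/-- Finite version. -/
theorem finite_version (lam : ℕ)
    (h : ∀ (k : ℕ) (c : ℝ), 0 < c → ∃ (m : ℕ) (X : Set (EuclideanSpace ℝ (Fin m))),
      Bornology.IsBounded X ∧ X.Nonempty ∧ DoublingWith lam X ∧ ¬ EmbedsWith c X k) :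
    ∀ (k : ℕ) (D : ℝ), ∃ X : Set (lp (fun _ : ℕ => ℝ) 2), X.Finite ∧
      DoublingWith (lam * lam) X ∧ ¬ EmbedsDist X k D := by
  classical
  intro k D
  have hD1 : (0 : ℝ) < max D 1 := lt_of_lt_of_le one_pos (le_max_right _ _)
  obtain ⟨m, X, -, -, h3, h4⟩ := h k (1 / max D 1) (by positivity)
  have h5 : ∃ Y : Set (EuclideanSpace ℝ (Fin m)), Y ⊆ X ∧ Y.Finite ∧
      ¬ EmbedsWith (1 / max D 1) Y k := by
    by_contra hcon
    push Not at hcon
    exact h4 (embedsWith_of_finite _ X k hcon)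
  obtain ⟨Y, hYX, hYf, hY⟩ := h5
  refine ⟨iota m '' Y, hYf.image _, ?_, ?_⟩
  · exact (h3.subset hYX).image (iota m) 1 one_pos (fun x y => by rw [dist_iota, one_mul])
  · rintro ⟨f, a, ha, hf⟩
    apply hY
    set c : ℝ := 1 / (max D 1 * a) with hc
    have hcpos : 0 < c := by (clear * - ha; positivity)
    refine ⟨fun x => if hx : x ∈ Y then c • f ⟨iota m x, Set.mem_image_of_mem _ hx⟩ else 0, ?_⟩
    intro x hx y hy
    simp only [hx, hy, dif_pos]
    rw [dist_smul₀, Real.norm_of_nonneg hcpos.le]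
    obtain ⟨h1, h2⟩ := hf ⟨iota m x, Set.mem_image_of_mem _ hx⟩
      ⟨iota m y, Set.mem_image_of_mem _ hy⟩
    have hdd : dist (⟨iota m x, Set.mem_image_of_mem _ hx⟩ : ↥(iota m '' Y))
        ⟨iota m y, Set.mem_image_of_mem _ hy⟩ = dist x y := by
      rw [Subtype.dist_eq]; exact dist_iota m x y
    rw [hdd] at h1 h2
    have hxy : 0 ≤ dist x y := dist_nonneg
    constructor
    · calc 1 / max D 1 * dist x y = c * (a * dist x y) := by
            rw [hc]; (clear * - ha; field_simp)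
        _ ≤ _ := mul_le_mul_of_nonneg_left h1 hcpos.le
    · calc c * dist _ _ ≤ c * (D * a * dist x y) :=
            mul_le_mul_of_nonneg_left h2 hcpos.le
        _ ≤ c * (max D 1 * a * dist x y) := by gcongr; exact le_max_left _ _
        _ = dist x y := by rw [hc]; (clear * - ha; field_simp)

end Vale.Agent.P208
end
end

section

section

/-! P208: the abstract movie (input of the time layer, output of the `u`-layer). -/

namespace Vale.Agent.P208

open scoped RealInnerProductSpace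

/-- The absolute covering constant. -/
def covC : ℕ := 10000

/-- A movie: strands `P`, keyframes `c κ : P → E` for `κ ≤ L`, heights `ht κ` of the transitions
`κ → κ + 1`. -/
structure Movie (E : Type) [NormedAddCommGroup E] [InnerProductSpace ℝ E] (P : Type) where
  L : ℕ
  c : ℕ → P → E
  ht : ℕ → ℕ
  p0 : P
  zero : ∀ p, c 0 p = 0
  last : ∀ p, c L p = 0
  base : ∀ κ, c κ p0 = 0
  bound : ∀ κ p, ‖c κ p‖ ≤ 3
  inner_nonneg : ∀ κ < L, ∀ p p', 0 ≤ ⟪c κ p - c κ p', c (κ + 1) p - c (κ + 1) p'⟫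
  cov : ∀ κ < L, ∀ τ : ℝ, 0 ≤ τ → τ ≤ 1 → ∀ (z : E) (R : ℝ), 0 < R →
    ∃ cls : P → Fin covC, ∀ p p',
      ‖(1 - τ) • c κ p + τ • c (κ + 1) p - z‖ ≤ R →
      ‖(1 - τ) • c κ p' + τ • c (κ + 1) p' - z‖ ≤ R → cls p = cls p' →
      ‖((1 - τ) • c κ p + τ • c (κ + 1) p) - ((1 - τ) • c κ p' + τ • c (κ + 1) p')‖ ≤ R / 300

/-- What the time layer provides for a movie. -/
def Movie.Realized {E : Type} [NormedAddCommGroup E] [InnerProductSpace ℝ E] {P : Type}
    (Mv : Movie E P) (F : Type) [NormedAddCommGroup F] (m : ℝ) : Prop :=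
  ∃ G : ℕ → P → F,
    (∀ κ ≤ Mv.L, ∀ p p', m * ‖Mv.c κ p - Mv.c κ p'‖ ≤ ‖G κ p - G κ p'‖ ∧
      ‖G κ p - G κ p'‖ ≤ ‖Mv.c κ p - Mv.c κ p'‖) ∧
    (∀ κ < Mv.L, ∀ p, (∀ κ' < Mv.L, Mv.c κ' p ≠ Mv.c (κ' + 1) p → Mv.ht κ < Mv.ht κ') →
      G (κ + 1) p = G κ p)

end Vale.Agent.P208
end
end

section

section

/-! P208: the key lemma of the `u`-layer. -/

namespace Vale.Agent.P208

open Finset

/-- the trapezoid on `{0, ..., q}` with ramps of length `s` -/
noncomputable def trap (s q : ℕ) (u : ℕ) : ℝ := min 1 (min ((u : ℝ) / s) (((q : ℝ) - u) / s))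

section

variable {F : Type*} [NormedAddCommGroup F] [InnerProductSpace ℝ F]

/-- the recursive configuration: `z i` is a path of `q` steps from `x₀` to `x₁`, passing through
the storage point `y i` at time `s + i` and staying away from the other storage points; every
step of every path carries again a configuration -/
def CF (M s q : ℕ) (m δ : ℝ) : ℕ → ℝ → F → F → Prop
  | 0, Λ, x₀, x₁ => ‖x₁ - x₀‖ ^ 2 ≤ Λ
  | N + 1, Λ, x₀, x₁ => ∃ (y : Fin M → F) (z : Fin M → ℕ → F),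
      (∀ i, z i 0 = x₀ ∧ z i q = x₁) ∧ (∀ i, z i (s + i) = y i) ∧
      (∀ i j, i ≠ j → m * Real.sqrt 2 * δ ≤ ‖z i (s + j) - y j‖ ∧
        ‖z i (s + j) - y j‖ ≤ Real.sqrt 2 * δ) ∧
      ∀ i, ∀ u < q, CF M s q m δ N (Λ + q ^ 2 * δ ^ 2 * (trap s q (u + 1) - trap s q u) ^ 2)
        ((q : ℝ) • z i u) ((q : ℝ) • z i (u + 1))

theorem CF_zero (M s q : ℕ) (m δ Λ : ℝ) (x₀ x₁ : F) :
    CF M s q m δ 0 Λ x₀ x₁ ↔ ‖x₁ - x₀‖ ^ 2 ≤ Λ := Iff.rfl

theorem CF_succ (M s q : ℕ) (m δ Λ : ℝ) (N : ℕ) (x₀ x₁ : F) :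
    CF M s q m δ (N + 1) Λ x₀ x₁ ↔ ∃ (y : Fin M → F) (z : Fin M → ℕ → F),
      (∀ i, z i 0 = x₀ ∧ z i q = x₁) ∧ (∀ i, z i (s + i) = y i) ∧
      (∀ i j, i ≠ j → m * Real.sqrt 2 * δ ≤ ‖z i (s + j) - y j‖ ∧
        ‖z i (s + j) - y j‖ ≤ Real.sqrt 2 * δ) ∧
      ∀ i, ∀ u < q, CF M s q m δ N (Λ + q ^ 2 * δ ^ 2 * (trap s q (u + 1) - trap s q u) ^ 2)
        ((q : ℝ) • z i u) ((q : ℝ) • z i (u + 1)) := Iff.rfl

/-! ### sum of squares of the increments of the trapezoid -/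

theorem trap_left {s q u : ℕ} (hs : 0 < s) (hu : u ≤ s) (hq : 2 * s ≤ q) :
    trap s q u = u / s := by
  unfold trap
  have h1 : (0 : ℝ) < s := by exact_mod_cast hs
  have h2 : (u : ℝ) ≤ s := by exact_mod_cast hu
  have h3 : (2 : ℝ) * s ≤ q := by exact_mod_cast hq
  have h4 : (u : ℝ) / s ≤ ((q : ℝ) - u) / s := div_le_div_of_nonneg_right (by linarith only [h2, h3]) h1.le
  have h5 : (u : ℝ) / s ≤ 1 := (div_le_one h1).2 h2
  rw [min_eq_left h4, min_eq_right h5]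

theorem trap_mid {s q u : ℕ} (hs : 0 < s) (hu : s ≤ u) (hq : u + s ≤ q) :
    trap s q u = 1 := by
  unfold trap
  have h1 : (0 : ℝ) < s := by exact_mod_cast hs
  have h2 : (s : ℝ) ≤ u := by exact_mod_cast hu
  have h3 : (u : ℝ) + s ≤ q := by exact_mod_cast hq
  have h4 : 1 ≤ (u : ℝ) / s := (one_le_div h1).2 h2
  have h5 : 1 ≤ ((q : ℝ) - u) / s := (one_le_div h1).2 (by linarith only [h3])
  exact min_eq_left (le_min h4 h5)

theorem trap_right {s q u : ℕ} (hs : 0 < s) (hu : q ≤ u + s) (_huq : u ≤ q) (hq : 2 * s ≤ q) :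
    trap s q u = ((q : ℝ) - u) / s := by
  unfold trap
  have h1 : (0 : ℝ) < s := by exact_mod_cast hs
  have h2 : (q : ℝ) ≤ u + s := by exact_mod_cast hu
  have h3 : (2 : ℝ) * s ≤ q := by exact_mod_cast hq
  have h4 : ((q : ℝ) - u) / s ≤ (u : ℝ) / s := div_le_div_of_nonneg_right (by linarith only [h2, h3]) h1.le
  have h5 : ((q : ℝ) - u) / s ≤ 1 := (div_le_one h1).2 (by linarith only [h2])
  rw [min_eq_right h4, min_eq_right h5]

theorem sum_trap_sq {s q : ℕ} (hs : 0 < s) (hq : 2 * s ≤ q) :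
    ∑ u ∈ range q, (trap s q (u + 1) - trap s q u) ^ 2 = 2 / (s : ℝ) := by
  have h1 : (0 : ℝ) < s := by exact_mod_cast hs
  obtain ⟨t, rfl⟩ := Nat.exists_eq_add_of_le hq
  have e : 2 * s + t = s + (t + s) := by ring
  rw [e, sum_range_add, sum_range_add]
  rw [← e]
  have s1 : ∑ u ∈ range s, (trap s (2 * s + t) (u + 1) - trap s (2 * s + t) u) ^ 2 =
      ∑ u ∈ range s, (1 / (s : ℝ)) ^ 2 := by
    refine sum_congr rfl fun u hu => ?_
    rw [mem_range] at hu
    have a1 := trap_left (s := s) (q := 2 * s + t) (u := u + 1) hs (by omega) (by omega)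
    have a2 := trap_left (s := s) (q := 2 * s + t) (u := u) hs (by omega) (by omega)
    push_cast at a1
    rw [a1, a2]
    congr 1
    field_simp
    ring
  have s2 : ∑ u ∈ range t, (trap s (2 * s + t) (s + u + 1) - trap s (2 * s + t) (s + u)) ^ 2 =
      0 := by
    refine sum_eq_zero fun u hu => ?_
    rw [mem_range] at hu
    rw [trap_mid hs (by omega) (by omega), trap_mid hs (by omega) (by omega)]
    (clear * -; norm_num)
  have s3 : ∑ u ∈ range s, (trap s (2 * s + t) (s + (t + u) + 1) -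
      trap s (2 * s + t) (s + (t + u))) ^ 2 = ∑ u ∈ range s, (1 / (s : ℝ)) ^ 2 := by
    refine sum_congr rfl fun u hu => ?_
    rw [mem_range] at hu
    have a1 := trap_right (s := s) (q := 2 * s + t) (u := s + (t + u) + 1) hs (by omega)
      (by omega) (by omega)
    have a2 := trap_right (s := s) (q := 2 * s + t) (u := s + (t + u)) hs (by omega)
      (by (clear * - hu; omega)) (by omega)
    push_cast at a1 a2
    rw [a1, a2]
    field_simp
    ring
  have s1' := s1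
  have s2' := s2
  have s3' := s3
  simp only [← add_assoc] at s1' s2' s3' ⊢
  rw [s1', s2', s3', sum_const, card_range, nsmul_eq_mul]
  field_simp
  ring

/-! ### the affine part of a path -/

theorem sum_sq_step (q : ℕ) (hq : 0 < q) (z : ℕ → F) :
    (q : ℝ) * ∑ u ∈ range q, ‖z (u + 1) - z u‖ ^ 2 = ‖z q - z 0‖ ^ 2 +
      q * ∑ u ∈ range q, ‖(z (u + 1) - z u) - (1 / (q : ℝ)) • (z q - z 0)‖ ^ 2 := by
  have hq' : (q : ℝ) ≠ 0 := by exact_mod_cast hq.ne'
  have h1 : ∀ u, ‖(z (u + 1) - z u) - (1 / (q : ℝ)) • (z q - z 0)‖ ^ 2 =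
      ‖z (u + 1) - z u‖ ^ 2 - 2 / q * inner ℝ (z (u + 1) - z u) (z q - z 0) +
        (1 / (q : ℝ)) ^ 2 * ‖z q - z 0‖ ^ 2 := by
    intro u
    rw [norm_sub_sq_real, inner_smul_right, norm_smul, mul_pow, Real.norm_eq_abs, sq_abs]
    ring
  have h2 : ∑ u ∈ range q, inner ℝ (z (u + 1) - z u) (z q - z 0) = ‖z q - z 0‖ ^ 2 := by
    rw [← sum_inner, sum_range_sub, real_inner_self_eq_norm_sq]
  simp only [h1]
  rw [sum_add_distrib, sum_sub_distrib, ← mul_sum, h2, sum_const, card_range, nsmul_eq_mul]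
  field_simp
  ring

omit [InnerProductSpace ℝ F] in
/-- discrete Cauchy-Schwarz -/
theorem norm_sub_sq_le_sum (q : ℕ) (w : ℕ → F) {a b : ℕ} (hab : a ≤ b) (hb : b ≤ q) :
    ‖w b - w a‖ ^ 2 ≤ (b - a : ℕ) * ∑ u ∈ range q, ‖w (u + 1) - w u‖ ^ 2 := by
  have h1 : w b - w a = ∑ u ∈ Ico a b, (w (u + 1) - w u) := (sum_Ico_sub w hab).symm
  have h2 : ‖w b - w a‖ ≤ ∑ u ∈ Ico a b, ‖w (u + 1) - w u‖ := by
    rw [h1]; exact norm_sum_le _ _
  have h3 : (∑ u ∈ Ico a b, ‖w (u + 1) - w u‖) ^ 2 ≤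
      ((Ico a b).card : ℝ) * ∑ u ∈ Ico a b, ‖w (u + 1) - w u‖ ^ 2 :=
    sq_sum_le_card_mul_sum_sq
  have h4 : ∑ u ∈ Ico a b, ‖w (u + 1) - w u‖ ^ 2 ≤ ∑ u ∈ range q, ‖w (u + 1) - w u‖ ^ 2 := by
    refine sum_le_sum_of_subset_of_nonneg ?_ fun _ _ _ => sq_nonneg _
    intro u hu
    rw [mem_Ico] at hu
    exact mem_range.2 (by omega)
  rw [Nat.card_Ico] at h3
  calc ‖w b - w a‖ ^ 2 ≤ (∑ u ∈ Ico a b, ‖w (u + 1) - w u‖) ^ 2 :=
        pow_le_pow_left₀ (norm_nonneg _) h2 2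
    _ ≤ _ := h3
    _ ≤ _ := mul_le_mul_of_nonneg_left h4 (Nat.cast_nonneg _)

omit [InnerProductSpace ℝ F] in
theorem norm_sub_sq_le_sum' (q : ℕ) (w : ℕ → F) {a b K : ℕ} (ha : a ≤ q) (hb : b ≤ q)
    (hab : a ≤ b + K) (hba : b ≤ a + K) :
    ‖w a - w b‖ ^ 2 ≤ K * ∑ u ∈ range q, ‖w (u + 1) - w u‖ ^ 2 := by
  have h0 : 0 ≤ ∑ u ∈ range q, ‖w (u + 1) - w u‖ ^ 2 := sum_nonneg fun _ _ => sq_nonneg _
  rcases le_total a b with h | h
  · rw [norm_sub_rev]
    refine (norm_sub_sq_le_sum q w h hb).trans (mul_le_mul_of_nonneg_right ?_ h0)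
    exact_mod_cast (by omega : b - a ≤ K)
  · refine (norm_sub_sq_le_sum q w h ha).trans (mul_le_mul_of_nonneg_right ?_ h0)
    exact_mod_cast (by omega : a - b ≤ K)

/-! ### the key lemma -/

/-- at most `M - 1` points with mutual distances in `[m δ / 2, 2 δ]` -/
def Packed (F : Type*) [NormedAddCommGroup F] (M : ℕ) (m δ : ℝ) : Prop :=
  ¬ ∃ T : Fin M → F, ∀ i j, i ≠ j → m * δ / 2 ≤ ‖T i - T j‖ ∧ ‖T i - T j‖ ≤ 2 * δ

theorem key_lemma {M s q : ℕ} {m δ : ℝ} (hm : 0 < m) (hm1 : m ≤ 1) (hδ : 0 < δ) (hs : 0 < s)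
    (hq : 2 * s + M = q) (hsM : 16 * (M : ℝ) / m ^ 2 ≤ s) (hpack : Packed F M m δ) :
    ∀ (N : ℕ) (Λ : ℝ) (x₀ x₁ : F), CF M s q m δ N Λ x₀ x₁ →
      (N : ℝ) * (2 * q * δ ^ 2 / s) ≤ Λ - ‖x₁ - x₀‖ ^ 2 := by
  intro N
  induction N with
  | zero =>
    intro Λ x₀ x₁ h
    rw [CF_zero] at h
    simpa only [CharP.cast_eq_zero, zero_mul, sub_nonneg] using h
  | succ N ih =>
    intro Λ x₀ x₁ h
    rw [CF_succ] at h
    obtain ⟨y, z, hz, hzy, hd, hrec⟩ := h
    have hs' : (0 : ℝ) < s := by exact_mod_cast hs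
    have hq0 : 0 < q := by omega
    have hq' : (0 : ℝ) < q := by exact_mod_cast hq0
    -- energy inequality for every path
    have hen : ∀ i : Fin M, (N : ℝ) * (2 * q * δ ^ 2 / s) ≤ Λ - ‖x₁ - x₀‖ ^ 2 +
        2 * q * δ ^ 2 / s - q * ∑ u ∈ range q,
          ‖(z i (u + 1) - z i u) - (1 / (q : ℝ)) • (x₁ - x₀)‖ ^ 2 := by
      intro i
      have h1 : ∑ u ∈ range q, ((N : ℝ) * (2 * q * δ ^ 2 / s)) ≤ ∑ u ∈ range q,
          ((Λ + q ^ 2 * δ ^ 2 * (trap s q (u + 1) - trap s q u) ^ 2) -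
            (q : ℝ) ^ 2 * ‖z i (u + 1) - z i u‖ ^ 2) := by
        refine sum_le_sum fun u hu => ?_
        have h2 := ih _ _ _ (hrec i u (mem_range.1 hu))
        rw [← smul_sub, norm_smul, mul_pow, Real.norm_of_nonneg hq'.le] at h2
        exact h2
      rw [sum_sub_distrib, sum_add_distrib, ← mul_sum, ← mul_sum, ← mul_sum, sum_trap_sq hs (by omega),
        sum_const, sum_const, card_range, nsmul_eq_mul, nsmul_eq_mul] at h1
      have h3 := sum_sq_step q hq0 (z i)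
      rw [(hz i).1, (hz i).2] at h3
      have h4 : (q : ℝ) * ((N : ℝ) * (2 * q * δ ^ 2 / s)) ≤ q * (Λ - ‖x₁ - x₀‖ ^ 2 +
        2 * q * δ ^ 2 / s - q * ∑ u ∈ range q,
          ‖(z i (u + 1) - z i u) - (1 / (q : ℝ)) • (x₁ - x₀)‖ ^ 2) := by
        have e : (q : ℝ) * (Λ - ‖x₁ - x₀‖ ^ 2 + 2 * q * δ ^ 2 / s - q * ∑ u ∈ range q,
          ‖(z i (u + 1) - z i u) - (1 / (q : ℝ)) • (x₁ - x₀)‖ ^ 2) =
          q * Λ + q ^ 2 * δ ^ 2 * (2 / s) - q * (‖x₁ - x₀‖ ^ 2 + q * ∑ u ∈ range q,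
          ‖(z i (u + 1) - z i u) - (1 / (q : ℝ)) • (x₁ - x₀)‖ ^ 2) := by ring
        rw [e, ← h3]
        linarith only [h1]
      exact le_of_mul_le_mul_left h4 hq'
    by_cases hc : ∃ i : Fin M, 4 * δ ^ 2 / s ≤ ∑ u ∈ range q,
        ‖(z i (u + 1) - z i u) - (1 / (q : ℝ)) • (x₁ - x₀)‖ ^ 2
    · obtain ⟨i, hi⟩ := hc
      have h1 := hen i
      have h2 := mul_le_mul_of_nonneg_left hi hq'.le
      have e : (q : ℝ) * (4 * δ ^ 2 / s) = 2 * (2 * q * δ ^ 2 / s) := by ring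
      rw [e] at h2
      push_cast
      linarith only [h1, h2]
    · exfalso
      push Not at hc
      apply hpack
      refine ⟨fun j => y j - x₀ - (((s + j : ℕ) : ℝ) / q) • (x₁ - x₀), fun i j hij => ?_⟩
      -- the path minus its affine part
      set w : ℕ → F := fun u => z i u - x₀ - ((u : ℝ) / q) • (x₁ - x₀) with hw
      have hwstep : ∀ u, w (u + 1) - w u =
          (z i (u + 1) - z i u) - (1 / (q : ℝ)) • (x₁ - x₀) := by
        intro u
        simp only [hw]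
        push_cast
        rw [add_div, add_smul]
        abel
      have hws : ‖w (s + i) - w (s + j)‖ ^ 2 ≤ (m * δ / 2) ^ 2 := by
        have h1 := norm_sub_sq_le_sum' q w (a := s + i) (b := s + j) (K := M)
          (by have := i.2; omega) (by have := j.2; omega) (by have := i.2; omega)
          (by have := j.2; omega)
        simp only [hwstep] at h1
        refine h1.trans ?_
        have h2 := (hc i).le
        have h3 : (0 : ℝ) ≤ M := Nat.cast_nonneg _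
        have h4 := mul_le_mul_of_nonneg_left h2 h3
        refine h4.trans ?_
        have h5 : 16 * (M : ℝ) ≤ s * m ^ 2 := by
          rwa [div_le_iff₀ (by positivity)] at hsM
        rw [mul_div_assoc', div_le_iff₀ hs']
        nlinarith only [h5]
      have hws' : ‖w (s + i) - w (s + j)‖ ≤ m * δ / 2 :=
        le_of_sq_le_sq hws (by positivity)
      have e1 : (y i - x₀ - (((s + i : ℕ) : ℝ) / q) • (x₁ - x₀)) -
          (y j - x₀ - (((s + j : ℕ) : ℝ) / q) • (x₁ - x₀)) =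
          (w (s + i) - w (s + j)) + (z i (s + j) - y j) := by
        simp only [hw, hzy i]
        abel
      rw [e1]
      obtain ⟨hd1, hd2⟩ := hd i j hij
      have hsq1 : (1 : ℝ) ≤ Real.sqrt 2 := by
        rw [show (1 : ℝ) = Real.sqrt 1 by simp]
        exact Real.sqrt_le_sqrt (by norm_num)
      have hsq2 : Real.sqrt 2 ≤ 3 / 2 := by
        rw [Real.sqrt_le_left (by norm_num)]
        norm_num
      have hmδ : 0 < m * δ := mul_pos hm hδ
      constructor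
      · have h1 : ‖z i (s + j) - y j‖ - ‖w (s + i) - w (s + j)‖ ≤
            ‖(w (s + i) - w (s + j)) + (z i (s + j) - y j)‖ := by
          have h2 := norm_sub_norm_le (z i (s + j) - y j) (-(w (s + i) - w (s + j)))
          rw [norm_neg] at h2
          refine h2.trans (le_of_eq ?_)
          congr 1
          abel
        have h3 : m * δ ≤ m * Real.sqrt 2 * δ := by nlinarith only [hsq1, hmδ]
        linarith only [hws', hd1, h1, h3]
      · have h1 := norm_add_le (w (s + i) - w (s + j)) (z i (s + j) - y j)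
        have h2 : m * δ ≤ δ := by nlinarith only [hm1, hδ]
        nlinarith only [hws', hd2, h1, h2, hδ, hsq2]

end

/-- packing bound in finite dimensional spaces -/
theorem exists_packed (F : Type*) [NormedAddCommGroup F] [NormedSpace ℝ F]
    [FiniteDimensional ℝ F] {m : ℝ} (hm : 0 < m) :
    ∃ M₀ : ℕ, ∀ M, M₀ ≤ M → ∀ δ : ℝ, 0 < δ → Packed F M m δ := by
  have := FiniteDimensional.proper_real F
  obtain ⟨t, _, ht, hcov⟩ := (isCompact_closedBall (0 : F) 2).finite_cover_balls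
    (e := m / 4) (by positivity)
  refine ⟨ht.toFinset.card + 2, fun M hM δ hδ => ?_⟩
  rintro ⟨T, hT⟩
  have hM0 : 0 < M := by omega
  let i₀ : Fin M := ⟨0, hM0⟩
  let U : Fin M → F := fun i => δ⁻¹ • (T i - T i₀)
  have hU : ∀ i, U i ∈ Metric.closedBall (0 : F) 2 := by
    intro i
    rw [mem_closedBall_zero_iff]
    simp only [U]
    rw [norm_smul, norm_inv, Real.norm_of_nonneg hδ.le]
    by_cases h : i = i₀
    · simp only [h, sub_self, norm_zero, mul_zero, Nat.ofNat_nonneg]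
    · have := (hT i i₀ h).2
      rw [inv_mul_le_iff₀ hδ]
      linarith only [this]
  have hf : ∀ i, ∃ x ∈ ht.toFinset, U i ∈ Metric.ball x (m / 4) := by
    intro i
    have := hcov (hU i)
    simp only [Set.mem_iUnion] at this
    obtain ⟨x, hx, hx'⟩ := this
    exact ⟨x, ht.mem_toFinset.2 hx, hx'⟩
  choose g hg hg' using hf
  obtain ⟨i, _, j, _, hij, hgij⟩ := Finset.exists_ne_map_eq_of_card_lt_of_maps_to
    (s := Finset.univ) (t := ht.toFinset) (f := g) (by rw [Finset.card_univ, Fintype.card_fin]; omega)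
    (fun i _ => hg i)
  have h1 : dist (U i) (U j) < m / 2 := by
    have a1 := hg' i
    have a2 := hg' j
    rw [Metric.mem_ball] at a1 a2
    rw [← hgij] at a2
    calc dist (U i) (U j) ≤ dist (U i) (g i) + dist (U j) (g i) := dist_triangle_right _ _ _
      _ < m / 2 := by linarith only [a1, a2]
  have h2 := (hT i j hij).1
  rw [dist_eq_norm] at h1
  have h3 : U i - U j = δ⁻¹ • (T i - T j) := by
    simp only [U]
    rw [← smul_sub]
    congr 1
    abel
  rw [h3, norm_smul, norm_inv, Real.norm_of_nonneg hδ.le, inv_mul_lt_iff₀ hδ] at h1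
  nlinarith only [h1, h2]

end Vale.Agent.P208
end
end

section

section

/-! Shared definitions of the time layer. -/

open scoped BigOperators

namespace Vale.Agent.P208

universe u v w

/-- A family of profiles `H p : ℝ → E`: 1-periodic, zero near the integers, affine on the cells of
`(1/n) ℤ`, separated inside the cells, with bounded covering numbers. -/
structure IsPlay {P : Type u} {E : Type v} [NormedAddCommGroup E] [NormedSpace ℝ E] (n : ℕ)
    (v Lip : ℝ) (C4 : ℕ) (H : P → ℝ → E) : Prop where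
  per : ∀ p (y : ℝ) (k : ℤ), H p (y + k) = H p y
  zero : ∀ p (y : ℝ) (k : ℤ), |y - (k : ℝ)| < 1 / 3 → H p y = 0
  bound : ∀ p (y : ℝ), ‖H p y‖ ≤ 3
  affine : ∀ p (i : ℤ), ∃ a b : E, ∀ y ∈ Set.Icc ((i : ℝ) / n) (((i : ℝ) + 1) / n),
    H p y = a + y • b
  sep : ∀ p p' (i : ℤ),
    (∀ y ∈ Set.Icc ((i : ℝ) / n) (((i : ℝ) + 1) / n), H p y = H p' y) ∨
    (∀ y ∈ Set.Icc ((i : ℝ) / n) (((i : ℝ) + 1) / n),
      v * min (y - (i : ℝ) / n) (((i : ℝ) + 1) / n - y) ≤ ‖H p y - H p' y‖)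
  lip : ∀ p (i : ℤ), ∀ y ∈ Set.Icc ((i : ℝ) / n) (((i : ℝ) + 1) / n),
    ∀ y' ∈ Set.Icc ((i : ℝ) / n) (((i : ℝ) + 1) / n), ‖H p y - H p y'‖ ≤ Lip * |y - y'|
  cov : ∀ (y : ℝ) (z : E) (R : ℝ), 0 < R → ∃ col : P → Fin C4, ∀ p p', ‖H p y - z‖ ≤ R →
    ‖H p' y - z‖ ≤ R → col p = col p' → ‖H p y - H p' y‖ ≤ R / 300

/-- The point at time `t` with labels `w`. -/
noncomputable def xpt {P : Type u} {E : Type v} [NormedAddCommGroup E] [NormedSpace ℝ E]
    {W : Type w} [NormedAddCommGroup W] [NormedSpace ℝ W] (n J : ℕ) (eps : ℝ) (H : P → ℝ → E)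
    (e0 : W) (ι : ℕ → E →ₗ[ℝ] W) (t : ℝ) (w : ℕ → P) : W :=
  t • e0 + ∑ j ∈ Finset.range J, ι j ((eps * ((n : ℝ) ^ j)⁻¹) • H (w j) ((n : ℝ) ^ j * t))

end Vale.Agent.P208
end
end

section

section

/-!
# P208: the doubling estimate of the time layer

`xpt t w = t • e₀ + ∑_{j<J} ι_j (ε n⁻ʲ • H_{w_j}(nʲ t))` is doubling with a constant which depends
only on the covering constant of the movie.
-/

namespace Vale.Agent.P208

open Finset

/-! ### Colourings -/

section Col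

/-- `S` can be coloured by `κ` such that two points of the same colour satisfy `D`. -/
def HasCol {ι : Type*} (κ : Type*) (S : Set ι) (D : ι → ι → Prop) : Prop :=
  ∃ col : ι → κ, ∀ i ∈ S, ∀ i' ∈ S, col i = col i' → D i i'

theorem HasCol.comp {ι κ₁ κ₂ : Type*} {S : Set ι} {D : ι → ι → Prop} (c : ι → κ₁)
    (h : ∀ v, HasCol κ₂ {i | i ∈ S ∧ c i = v} D) : HasCol (κ₁ × κ₂) S D := by
  choose col hcol using h
  refine ⟨fun i => (c i, col (c i) i), ?_⟩
  intro i hi i' hi' he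
  simp only [Prod.mk.injEq] at he
  obtain ⟨h1, h2⟩ := he
  refine hcol (c i) i ⟨hi, rfl⟩ i' ⟨hi', h1.symm⟩ ?_
  rw [← h1] at h2
  exact h2

theorem exists_floor_col {ι : Type*} (S : Set ι) (u : ι → ℝ) (K : ℕ) (h : ∀ i ∈ S, |u i| ≤ K) :
    ∃ col : ι → Fin (2 * K + 1), ∀ i ∈ S, ∀ i' ∈ S, col i = col i' → ⌊u i⌋ = ⌊u i'⌋ := by
  refine ⟨fun i => ⟨(⌊u i⌋ + K).toNat % (2 * K + 1), Nat.mod_lt _ (by omega)⟩, ?_⟩
  intro i hi i' hi' he
  have key : ∀ i ∈ S, -(K : ℤ) ≤ ⌊u i⌋ ∧ ⌊u i⌋ ≤ K := by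
    intro i hi
    have h1 := abs_le.1 (h i hi)
    constructor
    · rw [Int.le_floor]
      push_cast
      exact h1.1
    · have h2 : (⌊u i⌋ : ℝ) ≤ K := (Int.floor_le _).trans h1.2
      exact_mod_cast h2
  obtain ⟨a1, a2⟩ := key i hi
  obtain ⟨b1, b2⟩ := key i' hi'
  simp only [Fin.mk.injEq] at he
  rw [Nat.mod_eq_of_lt (by omega), Nat.mod_eq_of_lt (by (clear * - b1 b2; omega))] at he
  (clear * - a1 b1 he; omega)

theorem abs_sub_lt_one_of_floor {a b : ℝ} (h : ⌊a⌋ = ⌊b⌋) : |a - b| < 1 :=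
  Int.abs_sub_lt_one_of_floor_eq_floor h

theorem doublingWith_of_hasCol {ι κ W : Type*} [PseudoMetricSpace W] [Fintype κ] (x : ι → W)
    (h : ∀ i₀ r, 0 < r → HasCol κ {i | dist (x i) (x i₀) ≤ r}
      fun i i' => dist (x i) (x i') ≤ r / 2) :
    DoublingWith (Fintype.card κ) (Set.range x) := by
  classical
  rintro _ ⟨i₀, rfl⟩ r hr
  obtain ⟨col, hcol⟩ := h i₀ r hr
  set S : Finset κ := univ.filter (fun c => ∃ i, dist (x i) (x i₀) ≤ r ∧ col i = c) with hS
  have hpick : ∀ c ∈ S, ∃ i, dist (x i) (x i₀) ≤ r ∧ col i = c := fun c hc => (mem_filter.1 hc).2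
  have : Nonempty ι := ⟨i₀⟩
  choose! pick hp using hpick
  refine ⟨S.image (fun c => x (pick c)), ?_, ?_, ?_⟩
  · exact card_image_le.trans (card_le_univ _)
  · intro z hz
    obtain ⟨c, -, rfl⟩ := mem_image.1 hz
    exact ⟨_, rfl⟩
  · rintro _ ⟨i, rfl⟩ hi
    have hc : col i ∈ S := mem_filter.2 ⟨mem_univ _, i, hi, rfl⟩
    refine ⟨x (pick (col i)), mem_image_of_mem _ hc, ?_⟩
    exact hcol i hi (pick (col i)) (hp _ hc).1 (hp _ hc).2.symm

end Col

/-! ### Geometric sums -/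

section Geom

theorem geom_le_two {n : ℕ} (hn : 2 ≤ n) (J : ℕ) : ∑ j ∈ range J, ((n : ℝ) ^ j)⁻¹ ≤ 2 := by
  refine le_trans (sum_le_sum fun j _ => ?_) (sum_geometric_two_le J)
  rw [one_div, inv_pow]
  have h1 : (2 : ℝ) ≤ n := by exact_mod_cast hn
  exact inv_anti₀ (by positivity) (pow_le_pow_left₀ (by norm_num) h1 j)

theorem small_sum {n : ℕ} (hn : 2 ≤ n) (c : ℝ) (hc : 0 < c) (J : ℕ) : ∀ eps : ℝ, 0 < eps →
    ∑ j ∈ range J, (if eps * ((n : ℝ) ^ j)⁻¹ ≤ c then eps * ((n : ℝ) ^ j)⁻¹ else 0) ≤ 2 * c := by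
  have hn0 : (0 : ℝ) < n := by exact_mod_cast (by omega : 0 < n)
  induction J with
  | zero => intro eps _; simp only [range_zero, sum_empty, Nat.ofNat_pos, mul_nonneg_iff_of_pos_left]; exact hc.le
  | succ J ih =>
    intro eps he
    by_cases h : eps ≤ c
    · calc ∑ j ∈ range (J + 1), (if eps * ((n : ℝ) ^ j)⁻¹ ≤ c then eps * ((n : ℝ) ^ j)⁻¹ else 0)
          ≤ ∑ j ∈ range (J + 1), eps * ((n : ℝ) ^ j)⁻¹ := by
            refine sum_le_sum fun j _ => ?_
            split_ifs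
            · exact le_rfl
            · (clear * - he hn; positivity)
        _ = eps * ∑ j ∈ range (J + 1), ((n : ℝ) ^ j)⁻¹ := by rw [mul_sum]
        _ ≤ eps * 2 := mul_le_mul_of_nonneg_left (geom_le_two hn _) he.le
        _ ≤ 2 * c := by linarith only [h]
    · rw [sum_range_succ']
      simp only [pow_zero, inv_one, mul_one, h, if_false, add_zero]
      have h2 := ih (eps * (n : ℝ)⁻¹) (by positivity)
      refine le_trans (le_of_eq ?_) h2
      refine sum_congr rfl fun j _ => ?_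
      have : eps * ((n : ℝ) ^ (j + 1))⁻¹ = eps * (n : ℝ)⁻¹ * ((n : ℝ) ^ j)⁻¹ := by
        rw [pow_succ, mul_inv]
        ring
      rw [this]

end Geom

/-! ### The playing functions and the blocks -/

section Main

variable {P E W : Type*} [NormedAddCommGroup E] [NormedSpace ℝ E]
  [NormedAddCommGroup W] [NormedSpace ℝ W]

/-- `W` contains a time axis and `J` copies of `E`. -/
structure IsBlocks (J : ℕ) (e₀ : W) (ι : ℕ → E →ₗ[ℝ] W) : Prop where
  ι_le : ∀ j x, ‖ι j x‖ ≤ ‖x‖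
  time_le : ∀ (s : ℝ) (f : ℕ → E), |s| ≤ ‖s • e₀ + ∑ j ∈ range J, ι j (f j)‖
  block_le : ∀ (s : ℝ) (f : ℕ → E), ∀ j < J, ‖f j‖ ≤ ‖s • e₀ + ∑ j ∈ range J, ι j (f j)‖

variable {J n : ℕ} {eps : ℝ} {H : P → ℝ → E} {e₀ : W} {ι : ℕ → E →ₗ[ℝ] W}

theorem xpt_sub (t t' : ℝ) (w w' : ℕ → P) :
    xpt n J eps H e₀ ι t w - xpt n J eps H e₀ ι t' w' = (t - t') • e₀ +
      ∑ j ∈ range J, ι j ((eps * ((n : ℝ) ^ j)⁻¹) •
        (H (w j) ((n : ℝ) ^ j * t) - H (w' j) ((n : ℝ) ^ j * t'))) := by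
  simp only [xpt, smul_sub, map_sub, sum_sub_distrib, sub_smul]
  abel

theorem time_le_dist (hB : IsBlocks J e₀ ι) (t t' : ℝ) (w w' : ℕ → P) :
    |t - t'| ≤ dist (xpt n J eps H e₀ ι t w) (xpt n J eps H e₀ ι t' w') := by
  rw [dist_eq_norm, xpt_sub]
  exact hB.time_le _ _

theorem block_le_dist (hB : IsBlocks J e₀ ι) (heps : 0 < eps) (hn : 0 < n) (t t' : ℝ)
    (w w' : ℕ → P) {j : ℕ} (hj : j < J) :
    eps * ((n : ℝ) ^ j)⁻¹ * ‖H (w j) ((n : ℝ) ^ j * t) - H (w' j) ((n : ℝ) ^ j * t')‖ ≤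
      dist (xpt n J eps H e₀ ι t w) (xpt n J eps H e₀ ι t' w') := by
  rw [dist_eq_norm, xpt_sub]
  have h := hB.block_le (t - t') (fun j => (eps * ((n : ℝ) ^ j)⁻¹) •
        (H (w j) ((n : ℝ) ^ j * t) - H (w' j) ((n : ℝ) ^ j * t'))) j hj
  refine le_trans (le_of_eq ?_) h
  have hn' : (0 : ℝ) < n := by exact_mod_cast hn
  rw [norm_smul, Real.norm_of_nonneg (by (clear * - heps hn; positivity))]

/-- points near an affine curve can be coloured -/
theorem hasCol_of_curve (hB : IsBlocks J e₀ ι) (heps : 0 < eps) (hn : 0 < n) (r : ℝ) (hr : 0 < r)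
    (x₀ : W) (S : Set (ℝ × (ℕ → P))) (α β : ℕ → E)
    (hS : ∀ i ∈ S, dist (xpt n J eps H e₀ ι i.1 i.2) x₀ ≤ r)
    (herr : ∀ i ∈ S, ∑ j ∈ range J, eps * ((n : ℝ) ^ j)⁻¹ *
      ‖H (i.2 j) ((n : ℝ) ^ j * i.1) - (α j + ((n : ℝ) ^ j * i.1) • β j)‖ ≤ r / 25) :
    HasCol (Fin 23) S fun i i' =>
      dist (xpt n J eps H e₀ ι i.1 i.2) (xpt n J eps H e₀ ι i'.1 i'.2) ≤ r / 2 := by
  have hn' : (0 : ℝ) < n := by exact_mod_cast hn
  set γ : ℝ → W := fun t => t • e₀ + ∑ j ∈ range J, ι j ((eps * ((n : ℝ) ^ j)⁻¹) •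
    (α j + ((n : ℝ) ^ j * t) • β j)) with hγ
  have hx : ∀ i ∈ S, ‖xpt n J eps H e₀ ι i.1 i.2 - γ i.1‖ ≤ r / 25 := by
    intro i hi
    refine le_trans ?_ (herr i hi)
    have h1 : xpt n J eps H e₀ ι i.1 i.2 - γ i.1 = ∑ j ∈ range J, ι j ((eps * ((n : ℝ) ^ j)⁻¹) •
        (H (i.2 j) ((n : ℝ) ^ j * i.1) - (α j + ((n : ℝ) ^ j * i.1) • β j))) := by
      simp only [xpt, hγ, smul_sub, map_sub, sum_sub_distrib]
      abel
    rw [h1]
    refine (norm_sum_le _ _).trans (sum_le_sum fun j _ => ?_)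
    refine (hB.ι_le _ _).trans ?_
    rw [norm_smul, Real.norm_of_nonneg (by positivity)]
  -- the direction of the curve
  set b : W := e₀ + ∑ j ∈ range J, ι j ((eps * ((n : ℝ) ^ j)⁻¹) • ((n : ℝ) ^ j • β j)) with hb
  have hγd : ∀ t t', γ t - γ t' = (t - t') • b := by
    intro t t'
    have h1 : ∀ t, γ t = t • b + ∑ j ∈ range J, ι j ((eps * ((n : ℝ) ^ j)⁻¹) • α j) := by
      intro t
      simp only [hγ, hb, smul_add, map_add, sum_add_distrib, smul_sum]
      rw [add_assoc]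
      congr 1
      rw [add_comm]
      congr 1
      refine sum_congr rfl fun j _ => ?_
      rw [← map_smul]
      congr 1
      simp only [smul_smul]
      congr 1
      ring
    rw [h1, h1, sub_smul]
    abel
  rcases S.eq_empty_or_nonempty with rfl | ⟨i₂, hi₂⟩
  · exact ⟨fun _ => 0, fun i hi => absurd hi (Set.notMem_empty _)⟩
  have hpair : ∀ i ∈ S, ∀ i' ∈ S, dist (xpt n J eps H e₀ ι i.1 i.2)
      (xpt n J eps H e₀ ι i'.1 i'.2) ≤ 2 * r := by
    intro i hi i' hi'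
    have := dist_triangle_right (xpt n J eps H e₀ ι i.1 i.2) (xpt n J eps H e₀ ι i'.1 i'.2) x₀
    linarith only [this, hS i hi, hS i' hi']
  have hlen : ∀ i ∈ S, |i.1 - i₂.1| * ‖b‖ ≤ 2.08 * r := by
    intro i hi
    have h1 : |i.1 - i₂.1| * ‖b‖ = ‖γ i.1 - γ i₂.1‖ := by
      rw [hγd, norm_smul, Real.norm_eq_abs]
    rw [h1]
    have h2 : γ i.1 - γ i₂.1 = (xpt n J eps H e₀ ι i.1 i.2 - xpt n J eps H e₀ ι i₂.1 i₂.2)
        - (xpt n J eps H e₀ ι i.1 i.2 - γ i.1) + (xpt n J eps H e₀ ι i₂.1 i₂.2 - γ i₂.1) := by abel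
    rw [h2]
    have h3 := hpair i hi i₂ hi₂
    rw [dist_eq_norm] at h3
    have h4 := norm_add_le ((xpt n J eps H e₀ ι i.1 i.2 - xpt n J eps H e₀ ι i₂.1 i₂.2)
        - (xpt n J eps H e₀ ι i.1 i.2 - γ i.1)) (xpt n J eps H e₀ ι i₂.1 i₂.2 - γ i₂.1)
    have h5 := norm_sub_le (xpt n J eps H e₀ ι i.1 i.2 - xpt n J eps H e₀ ι i₂.1 i₂.2)
        (xpt n J eps H e₀ ι i.1 i.2 - γ i.1)
    have h6 := hx i hi
    have h7 := hx i₂ hi₂
    linarith only [h3, h4, h5, h6, h7]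
  obtain ⟨col, hcol⟩ := exists_floor_col S (fun i => (i.1 - i₂.1) * ‖b‖ / (r / 5)) 11 (by
    intro i hi
    have h1 := hlen i hi
    rw [abs_div, abs_mul, abs_norm, abs_of_pos (by positivity : 0 < r / 5),
      div_le_iff₀ (by positivity)]
    push_cast
    linarith only [hr, h1])
  refine ⟨col, ?_⟩
  intro i hi i' hi' he
  have h1 := abs_sub_lt_one_of_floor (hcol i hi i' hi' he)
  have h2 : |i.1 - i'.1| * ‖b‖ < r / 5 := by
    have h3 : (i.1 - i₂.1) * ‖b‖ / (r / 5) - (i'.1 - i₂.1) * ‖b‖ / (r / 5)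
        = (i.1 - i'.1) * ‖b‖ / (r / 5) := by ring
    rw [h3, abs_div, abs_mul, abs_norm, abs_of_pos (by positivity : 0 < r / 5),
      div_lt_one (by positivity)] at h1
    exact h1
  have h3 : |i.1 - i'.1| * ‖b‖ = ‖γ i.1 - γ i'.1‖ := by
    rw [hγd, norm_smul, Real.norm_eq_abs]
  rw [dist_eq_norm]
  have h4 : xpt n J eps H e₀ ι i.1 i.2 - xpt n J eps H e₀ ι i'.1 i'.2
      = (xpt n J eps H e₀ ι i.1 i.2 - γ i.1) + (γ i.1 - γ i'.1)
        - (xpt n J eps H e₀ ι i'.1 i'.2 - γ i'.1) := by abel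
  rw [h4]
  have h5 := norm_sub_le ((xpt n J eps H e₀ ι i.1 i.2 - γ i.1) + (γ i.1 - γ i'.1))
    (xpt n J eps H e₀ ι i'.1 i'.2 - γ i'.1)
  have h6 := norm_add_le (xpt n J eps H e₀ ι i.1 i.2 - γ i.1) (γ i.1 - γ i'.1)
  have h7 := hx i hi
  have h8 := hx i' hi'
  linarith only [hr, h2, h3, h5, h6, h7, h8]

/-- cells of size `n^{-q}` are contained in the cells of the coarser levels -/
theorem exists_cell (hn : 0 < n) (q : ℕ) (k : ℤ) (j : ℕ) (hj : j < q) :
    ∃ i : ℤ, ∀ t : ℝ, ⌊(n : ℝ) ^ q * t⌋ = k →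
      (n : ℝ) ^ j * t ∈ Set.Icc ((i : ℝ) / n) ((i + 1) / n) := by
  have hn' : (0 : ℝ) < n := by exact_mod_cast hn
  obtain ⟨d, rfl⟩ : ∃ d, q = j + 1 + d := ⟨q - (j + 1), by omega⟩
  have hm : (0 : ℤ) < (n : ℤ) ^ d := by positivity
  refine ⟨k / (n : ℤ) ^ d, fun t ht => ?_⟩
  have h1 : (k : ℝ) ≤ (n : ℝ) ^ (j + 1 + d) * t := by rw [← ht]; exact Int.floor_le _
  have h2 : (n : ℝ) ^ (j + 1 + d) * t < k + 1 := by rw [← ht]; exact Int.lt_floor_add_one _
  have h3 : (k / (n : ℤ) ^ d) * (n : ℤ) ^ d ≤ k := Int.ediv_mul_le _ hm.ne'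
  have h4 : k + 1 ≤ (k / (n : ℤ) ^ d + 1) * (n : ℤ) ^ d := Int.lt_ediv_add_one_mul_self k hm
  have h3' : ((k / (n : ℤ) ^ d : ℤ) : ℝ) * (n : ℝ) ^ d ≤ k := by exact_mod_cast h3
  have h4' : (k : ℝ) + 1 ≤ (((k / (n : ℤ) ^ d : ℤ) : ℝ) + 1) * (n : ℝ) ^ d := by exact_mod_cast h4
  have hd : (0 : ℝ) < (n : ℝ) ^ d := by positivity
  have h5 : (n : ℝ) ^ (j + 1 + d) * t = ((n : ℝ) ^ j * t * n) * (n : ℝ) ^ d := by ring
  constructor
  · rw [div_le_iff₀ hn']
    refine le_of_mul_le_mul_right ?_ hd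
    rw [← h5]
    exact h3'.trans h1
  · rw [le_div_iff₀ hn']
    refine le_of_mul_le_mul_right ?_ hd
    rw [← h5]
    exact h2.le.trans h4'

/-- the colouring on one cell -/
theorem hasCol_cell {v Lip : ℝ} {C4 : ℕ} (hB : IsBlocks J e₀ ι) (hH : IsPlay n v Lip C4 H)
    (hn : 2 ≤ n) (heps : 0 < eps) (hLip : eps * Lip ≤ 1 / 400) (hv1 : eps * v ≤ 1 / 2)
    (hv : 3600 ≤ v) (t₀ : ℝ) (w₀ : ℕ → P) (r : ℝ) (hr : 0 < r) (q : ℕ)
    (hq : 3 * (eps * ((n : ℝ) ^ q)⁻¹) ≤ r / 100) (k : ℤ) :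
    HasCol (Fin C4 × Fin 23) {i : ℝ × (ℕ → P) | dist (xpt n J eps H e₀ ι i.1 i.2)
      (xpt n J eps H e₀ ι t₀ w₀) ≤ r ∧ ⌊(n : ℝ) ^ q * i.1⌋ = k} fun i i' =>
      dist (xpt n J eps H e₀ ι i.1 i.2) (xpt n J eps H e₀ ι i'.1 i'.2) ≤ r / 2 := by
  classical
  have hn0 : 0 < n := by omega
  have hn' : (0 : ℝ) < n := by exact_mod_cast hn0
  have hn1 : (1 : ℝ) ≤ n := by exact_mod_cast hn0
  set x₀ := xpt n J eps H e₀ ι t₀ w₀ with hx₀
  set S : Set (ℝ × (ℕ → P)) := {i : ℝ × (ℕ → P) | dist (xpt n J eps H e₀ ι i.1 i.2) x₀ ≤ r ∧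
    ⌊(n : ℝ) ^ q * i.1⌋ = k} with hSdef
  rcases S.eq_empty_or_nonempty with hSe | ⟨i₁, hi₁⟩
  · obtain ⟨col, -⟩ := hH.cov 0 0 1 one_pos
    rw [hSe]
    exact ⟨fun i => (col (i.2 0), 0), fun i hi => absurd hi (Set.notMem_empty _)⟩
  have hpair : ∀ i ∈ S, ∀ i' ∈ S, dist (xpt n J eps H e₀ ι i.1 i.2)
      (xpt n J eps H e₀ ι i'.1 i'.2) ≤ 2 * r := by
    intro i hi i' hi'
    have := dist_triangle_right (xpt n J eps H e₀ ι i.1 i.2) (xpt n J eps H e₀ ι i'.1 i'.2) x₀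
    linarith only [this, hi.1, hi'.1]
  have htime : ∀ i ∈ S, ∀ i' ∈ S, |i.1 - i'.1| ≤ 2 * r := fun i hi i' hi' =>
    (time_le_dist hB i.1 i'.1 i.2 i'.2).trans (hpair i hi i' hi')
  have hcell : ∀ j, ∃ c : ℤ, j < q → ∀ t : ℝ, ⌊(n : ℝ) ^ q * t⌋ = k →
      (n : ℝ) ^ j * t ∈ Set.Icc ((c : ℝ) / n) ((c + 1) / n) := by
    intro j
    by_cases hj : j < q
    · obtain ⟨c, hc⟩ := exists_cell hn0 q k j hj
      exact ⟨c, fun _ => hc⟩
    · exact ⟨0, fun h => absurd h hj⟩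
  choose c hc using hcell
  have hap : ∀ j, 0 < eps * ((n : ℝ) ^ j)⁻¹ := fun j => by positivity
  set tl : ℕ → ℝ := fun j => 3 * (if eps * ((n : ℝ) ^ j)⁻¹ ≤ r / 300 then
    eps * ((n : ℝ) ^ j)⁻¹ else 0) with htl
  have htl0 : ∀ j, 0 ≤ tl j := by
    intro j
    simp only [htl]
    split_ifs
    · exact mul_nonneg (by norm_num) (hap j).le
    · simp
  have htlsum : ∑ j ∈ range J, tl j ≤ r / 50 := by
    simp only [htl]
    rw [← mul_sum]
    have := small_sum hn (r / 300) (by positivity) J eps heps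
    linarith only [this]
  have htlb : ∀ j p y, eps * ((n : ℝ) ^ j)⁻¹ ≤ r / 300 →
      eps * ((n : ℝ) ^ j)⁻¹ * ‖H p y‖ ≤ tl j := by
    intro j p y h
    simp only [htl, if_pos h]
    have := mul_le_mul_of_nonneg_left (hH.bound p y) (hap j).le
    (clear * - this; linarith)
  have hsmall : ∀ j, q ≤ j → eps * ((n : ℝ) ^ j)⁻¹ ≤ r / 300 := by
    intro j hj
    have h1 : eps * ((n : ℝ) ^ j)⁻¹ ≤ eps * ((n : ℝ) ^ q)⁻¹ := by
      refine mul_le_mul_of_nonneg_left ?_ heps.le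
      exact inv_anti₀ (by positivity) (pow_le_pow_right₀ hn1 hj)
    linarith only [hq, h1]
  by_cases hA : ∀ j, j < q → j < J → ∀ i ∈ S, ∀ i' ∈ S,
      ∀ y ∈ Set.Icc ((c j : ℝ) / n) ((c j + 1) / n), H (i.2 j) y = H (i'.2 j) y
  · -- all levels agree
    obtain ⟨c4, -⟩ := hH.cov 0 0 1 one_pos
    have haff : ∀ j, ∃ ab : E × E, (j < q → ∀ y ∈ Set.Icc ((c j : ℝ) / n) ((c j + 1) / n),
        H (i₁.2 j) y = ab.1 + y • ab.2) ∧ (¬ j < q → ab = 0) := by
      intro j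
      by_cases hj : j < q
      · obtain ⟨a, b, hab⟩ := hH.affine (i₁.2 j) (c j)
        exact ⟨(a, b), fun _ => hab, fun h => absurd hj h⟩
      · exact ⟨0, fun h => absurd h hj, fun _ => rfl⟩
    choose ab hab1 hab2 using haff
    obtain ⟨col, hcol⟩ := hasCol_of_curve hB heps hn0 r hr x₀ S (fun j => (ab j).1)
      (fun j => (ab j).2) (fun i hi => hi.1) (by
        intro i hi
        refine (sum_le_sum (g := tl) fun j hj => ?_).trans (htlsum.trans (by linarith only [hr]))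
        rw [mem_range] at hj
        by_cases hjq : j < q
        · rw [hA j hjq hj i hi i₁ hi₁ _ (hc j hjq _ hi.2), hab1 j hjq _ (hc j hjq _ hi.2)]
          simpa only [sub_self, norm_zero, mul_zero] using htl0 j
        · rw [hab2 j hjq]
          simp only [Prod.fst_zero, Prod.snd_zero, smul_zero, add_zero, sub_zero]
          exact htlb j _ _ (hsmall j (not_lt.1 hjq)))
    exact ⟨fun i => (c4 (i.2 0), col i), fun i hi i' hi' he =>
      hcol i hi i' hi' (Prod.mk.inj he).2⟩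
  · -- the first level where two members differ
    push Not at hA
    have hex : ∃ j, j < q ∧ j < J ∧ ∃ i ∈ S, ∃ i' ∈ S,
      ∃ y ∈ Set.Icc ((c j : ℝ) / n) ((c j + 1) / n), H (i.2 j) y ≠ H (i'.2 j) y := hA
    obtain ⟨hjq, hjJ, i₂, hi₂, i₃, hi₃, y', hy', hne⟩ := Nat.find_spec hex
    have hmin : ∀ j < Nat.find hex, ∀ i ∈ S, ∀ i' ∈ S,
        ∀ y ∈ Set.Icc ((c j : ℝ) / n) ((c j + 1) / n), H (i.2 j) y = H (i'.2 j) y := by
      intro j hj i hi i' hi' y hy
      by_contra hcon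
      exact Nat.find_min hex hj ⟨hj.trans hjq, hj.trans hjJ, i, hi, i', hi', y, hy, hcon⟩
    generalize Nat.find hex = j₀ at hjq hjJ i₂ i₃ y' hy' hne hmin
    set a₀ := eps * ((n : ℝ) ^ j₀)⁻¹ with ha₀
    have ha₀p : 0 < a₀ := hap j₀
    have ha₀n : a₀ * (n : ℝ) ^ j₀ = eps := by
      rw [ha₀]; field_simp
    have hcS : ∀ i ∈ S, (n : ℝ) ^ j₀ * i.1 ∈ Set.Icc ((c j₀ : ℝ) / n) ((c j₀ + 1) / n) :=
      fun i hi => hc j₀ hjq _ hi.2
    have hlipS : ∀ i ∈ S, ∀ i' ∈ S, ∀ p,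
        a₀ * ‖H p ((n : ℝ) ^ j₀ * i.1) - H p ((n : ℝ) ^ j₀ * i'.1)‖ ≤ r / 200 := by
      intro i hi i' hi' p
      have h1 := hH.lip p (c j₀) _ (hcS i hi) _ (hcS i' hi')
      have h2 : |(n : ℝ) ^ j₀ * i.1 - (n : ℝ) ^ j₀ * i'.1| = (n : ℝ) ^ j₀ * |i.1 - i'.1| := by
        rw [← mul_sub, abs_mul, abs_of_pos (by positivity : (0 : ℝ) < (n : ℝ) ^ j₀)]
      rw [h2] at h1
      have h3 := mul_le_mul_of_nonneg_left h1 ha₀p.le
      have h4 : a₀ * (Lip * ((n : ℝ) ^ j₀ * |i.1 - i'.1|)) = (eps * Lip) * |i.1 - i'.1| := by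
        rw [← ha₀n]; ring
      rw [h4] at h3
      have h5 := mul_le_mul_of_nonneg_right hLip (abs_nonneg (i.1 - i'.1))
      have h6 := htime i hi i' hi'
      linarith only [h3, h5, h6]
    have hsep : ∀ y ∈ Set.Icc ((c j₀ : ℝ) / n) ((c j₀ + 1) / n),
        v * min (y - c j₀ / n) ((c j₀ + 1) / n - y) ≤ ‖H (i₂.2 j₀) y - H (i₃.2 j₀) y‖ := by
      rcases hH.sep (i₂.2 j₀) (i₃.2 j₀) (c j₀) with h | h
      · exact absurd (h y' hy') hne
      · exact h
    -- members are near a multiple of `n^{-(j₀+1)}`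
    have hnear : ∀ i ∈ S, ∃ m : ℤ, a₀ * v * |(n : ℝ) ^ j₀ * i.1 - m / n| ≤ 4 * r := by
      intro i hi
      have b1 := (block_le_dist hB heps hn0 i₂.1 i₃.1 i₂.2 i₃.2 hjJ).trans (hpair i₂ hi₂ i₃ hi₃)
      rw [← ha₀] at b1
      have b2 := hlipS i₂ hi₂ i₃ hi₃ (i₃.2 j₀)
      have b3 := hsep _ (hcS i₂ hi₂)
      have b4 : ‖H (i₂.2 j₀) ((n : ℝ) ^ j₀ * i₂.1) - H (i₃.2 j₀) ((n : ℝ) ^ j₀ * i₂.1)‖ ≤
          ‖H (i₂.2 j₀) ((n : ℝ) ^ j₀ * i₂.1) - H (i₃.2 j₀) ((n : ℝ) ^ j₀ * i₃.1)‖ +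
          ‖H (i₃.2 j₀) ((n : ℝ) ^ j₀ * i₂.1) - H (i₃.2 j₀) ((n : ℝ) ^ j₀ * i₃.1)‖ := by
        have := norm_sub_le (H (i₂.2 j₀) ((n : ℝ) ^ j₀ * i₂.1) - H (i₃.2 j₀) ((n : ℝ) ^ j₀ * i₃.1))
          (H (i₃.2 j₀) ((n : ℝ) ^ j₀ * i₂.1) - H (i₃.2 j₀) ((n : ℝ) ^ j₀ * i₃.1))
        refine le_trans (le_of_eq ?_) this
        congr 1
        abel
      have b5 : a₀ * (v * min ((n : ℝ) ^ j₀ * i₂.1 - c j₀ / n)
          ((c j₀ + 1) / n - (n : ℝ) ^ j₀ * i₂.1)) ≤ 2 * r + r / 200 := by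
        have := mul_le_mul_of_nonneg_left (b3.trans b4) ha₀p.le
        rw [mul_add] at this
        linarith only [b1, b2, this]
      have b6 : a₀ * v * |(n : ℝ) ^ j₀ * i.1 - (n : ℝ) ^ j₀ * i₂.1| ≤ r := by
        have h2 : |(n : ℝ) ^ j₀ * i.1 - (n : ℝ) ^ j₀ * i₂.1| = (n : ℝ) ^ j₀ * |i.1 - i₂.1| := by
          rw [← mul_sub, abs_mul, abs_of_pos (by positivity : (0 : ℝ) < (n : ℝ) ^ j₀)]
        rw [h2]
        have h4 : a₀ * v * ((n : ℝ) ^ j₀ * |i.1 - i₂.1|) = (eps * v) * |i.1 - i₂.1| := by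
          rw [← ha₀n]; ring
        rw [h4]
        have h5 := mul_le_mul_of_nonneg_right hv1 (abs_nonneg (i.1 - i₂.1))
        have h6 := htime i hi i₂ hi₂
        linarith only [h5, h6]
      have hav : 0 < a₀ * v := mul_pos ha₀p (by linarith only [hv])
      have hmem := hcS i₂ hi₂
      rcases le_total ((n : ℝ) ^ j₀ * i₂.1 - c j₀ / n)
          ((c j₀ + 1) / n - (n : ℝ) ^ j₀ * i₂.1) with h | h
      · rw [min_eq_left h] at b5
        refine ⟨c j₀, ?_⟩
        have h7 : |(n : ℝ) ^ j₀ * i.1 - c j₀ / n| ≤ |(n : ℝ) ^ j₀ * i.1 - (n : ℝ) ^ j₀ * i₂.1| +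
            ((n : ℝ) ^ j₀ * i₂.1 - c j₀ / n) := by
          have := abs_add_le ((n : ℝ) ^ j₀ * i.1 - (n : ℝ) ^ j₀ * i₂.1)
            ((n : ℝ) ^ j₀ * i₂.1 - c j₀ / n)
          rw [abs_of_nonneg (sub_nonneg.2 hmem.1)] at this
          simpa only [ge_iff_le, sub_add_sub_cancel] using this
        have h8 := mul_le_mul_of_nonneg_left h7 hav.le
        rw [mul_add] at h8
        nlinarith only [hr, b5, b6, h8]
      · rw [min_eq_right h] at b5
        refine ⟨c j₀ + 1, ?_⟩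
        have h7 : |(n : ℝ) ^ j₀ * i.1 - ((c j₀ + 1 : ℤ) : ℝ) / n| ≤
            |(n : ℝ) ^ j₀ * i.1 - (n : ℝ) ^ j₀ * i₂.1| +
            ((c j₀ + 1) / n - (n : ℝ) ^ j₀ * i₂.1) := by
          have := abs_add_le ((n : ℝ) ^ j₀ * i.1 - (n : ℝ) ^ j₀ * i₂.1)
            (-((c j₀ + 1) / n - (n : ℝ) ^ j₀ * i₂.1))
          rw [abs_neg, abs_of_nonneg (sub_nonneg.2 hmem.2)] at this
          refine le_trans (le_of_eq ?_) this
          congr 1
          push_cast
          ring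
        have h8 := mul_le_mul_of_nonneg_left h7 hav.le
        rw [mul_add] at h8
        nlinarith only [hr, b5, b6, h8]
    -- deeper levels vanish or are small
    have hdeep : ∀ i ∈ S, ∀ j, j₀ < j → H (i.2 j) ((n : ℝ) ^ j * i.1) = 0 ∨
        eps * ((n : ℝ) ^ j)⁻¹ ≤ r / 300 := by
      intro i hi j hj
      obtain ⟨m, hm⟩ := hnear i hi
      obtain ⟨d, rfl⟩ : ∃ d, j = j₀ + 1 + d := ⟨j - (j₀ + 1), by omega⟩
      by_cases hlt : |(n : ℝ) ^ (j₀ + 1 + d) * i.1 - ((m * (n : ℤ) ^ d : ℤ) : ℝ)| < 1 / 3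
      · exact Or.inl (hH.zero _ _ _ hlt)
      · right
        rw [not_lt] at hlt
        have h1 : |(n : ℝ) ^ (j₀ + 1 + d) * i.1 - ((m * (n : ℤ) ^ d : ℤ) : ℝ)| =
            (n : ℝ) ^ (d + 1) * |(n : ℝ) ^ j₀ * i.1 - m / n| := by
          have h0 : (n : ℝ) ^ (j₀ + 1 + d) * i.1 - ((m * (n : ℤ) ^ d : ℤ) : ℝ) =
              (n : ℝ) ^ (d + 1) * ((n : ℝ) ^ j₀ * i.1 - m / n) := by
            push_cast
            field_simp
            ring
          rw [h0, abs_mul, abs_of_pos (by positivity : (0 : ℝ) < (n : ℝ) ^ (d + 1))]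
        rw [h1] at hlt
        have h2 : a₀ = eps * ((n : ℝ) ^ (j₀ + 1 + d))⁻¹ * (n : ℝ) ^ (d + 1) := by
          rw [ha₀, show j₀ + 1 + d = j₀ + (d + 1) by ring, pow_add]
          (clear * - hn heps; field_simp)
        have h3 : eps * ((n : ℝ) ^ (j₀ + 1 + d))⁻¹ * v * (1 / 3) ≤ 4 * r := by
          refine le_trans ?_ hm
          rw [h2]
          have h4 : 0 ≤ eps * ((n : ℝ) ^ (j₀ + 1 + d))⁻¹ * v :=
            mul_nonneg (hap _).le (by linarith only [hv])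
          have := mul_le_mul_of_nonneg_left hlt h4
          refine this.trans (le_of_eq ?_)
          ring
        have h5 := mul_le_mul_of_nonneg_left hv (hap (j₀ + 1 + d)).le
        linarith only [h3, h5]
    -- colour level `j₀`
    have hR0 : 0 < (r + r / 200) / a₀ := by positivity
    obtain ⟨c4, hc4⟩ := hH.cov ((n : ℝ) ^ j₀ * i₁.1) (H (w₀ j₀) ((n : ℝ) ^ j₀ * t₀))
      ((r + r / 200) / a₀) hR0
    have hRS : ∀ i ∈ S, ‖H (i.2 j₀) ((n : ℝ) ^ j₀ * i₁.1) - H (w₀ j₀) ((n : ℝ) ^ j₀ * t₀)‖ ≤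
        (r + r / 200) / a₀ := by
      intro i hi
      rw [le_div_iff₀ ha₀p]
      have h1 := (block_le_dist hB heps hn0 i.1 t₀ i.2 w₀ hjJ).trans hi.1
      rw [← ha₀] at h1
      have h2 := hlipS i₁ hi₁ i hi (i.2 j₀)
      have h3 := norm_add_le (H (i.2 j₀) ((n : ℝ) ^ j₀ * i₁.1) - H (i.2 j₀) ((n : ℝ) ^ j₀ * i.1))
        (H (i.2 j₀) ((n : ℝ) ^ j₀ * i.1) - H (w₀ j₀) ((n : ℝ) ^ j₀ * t₀))
      rw [sub_add_sub_cancel] at h3
      have h4 := mul_le_mul_of_nonneg_left h3 ha₀p.le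
      rw [mul_add] at h4
      linarith only [h1, h2, h4]
    refine HasCol.comp (fun i => c4 (i.2 j₀)) fun u => ?_
    rcases Set.eq_empty_or_nonempty {i | i ∈ S ∧ c4 (i.2 j₀) = u} with he | ⟨i₄, hi₄, hu⟩
    · rw [he]
      exact ⟨fun _ => 0, fun i hi => absurd hi (Set.notMem_empty _)⟩
    have haff : ∀ j, ∃ ab : E × E, (j < j₀ → ∀ y ∈ Set.Icc ((c j : ℝ) / n) ((c j + 1) / n),
        H (i₁.2 j) y = ab.1 + y • ab.2) ∧ (j = j₀ →
        ∀ y ∈ Set.Icc ((c j : ℝ) / n) ((c j + 1) / n), H (i₄.2 j) y = ab.1 + y • ab.2) ∧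
        (j₀ < j → ab = 0) := by
      intro j
      rcases lt_trichotomy j j₀ with hj | hj | hj
      · obtain ⟨a, b, hab⟩ := hH.affine (i₁.2 j) (c j)
        exact ⟨(a, b), fun _ => hab, fun h => absurd h hj.ne, fun h => absurd h hj.asymm⟩
      · obtain ⟨a, b, hab⟩ := hH.affine (i₄.2 j) (c j)
        exact ⟨(a, b), fun h => absurd hj h.ne, fun _ => hab, fun h => absurd hj h.ne'⟩
      · exact ⟨0, fun h => absurd h hj.asymm, fun h => absurd h hj.ne', fun _ => rfl⟩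
    choose ab hab1 hab2 hab3 using haff
    refine hasCol_of_curve hB heps hn0 r hr x₀ _ (fun j => (ab j).1) (fun j => (ab j).2)
      (fun i hi => hi.1.1) ?_
    rintro i ⟨hi, hiu⟩
    have hsum : ∑ j ∈ range J, ((if j = j₀ then 0.0134 * r else 0) + tl j) ≤ r / 25 := by
      rw [sum_add_distrib, sum_ite_eq' (range J) j₀, if_pos (mem_range.2 hjJ)]
      linarith only [hr, htlsum]
    refine (sum_le_sum fun j hj => ?_).trans hsum
    rcases lt_trichotomy j j₀ with h | h | h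
    · rw [hmin j h i hi i₁ hi₁ _ (hc j (h.trans hjq) _ hi.2), hab1 j h _
        (hc j (h.trans hjq) _ hi.2), if_neg h.ne]
      simpa only [sub_self, norm_zero, mul_zero, zero_add] using htl0 j
    · subst h
      rw [if_pos rfl, ← hab2 j rfl _ (hcS i hi)]
      have h1 := hc4 (i.2 j) (i₄.2 j) (hRS i hi) (hRS i₄ hi₄) (hiu.trans hu.symm)
      have h2 := hlipS i hi i₁ hi₁ (i.2 j)
      have h3 := hlipS i₁ hi₁ i hi (i₄.2 j)
      have h4 : ‖H (i.2 j) ((n : ℝ) ^ j * i.1) - H (i₄.2 j) ((n : ℝ) ^ j * i.1)‖ ≤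
          ‖H (i.2 j) ((n : ℝ) ^ j * i.1) - H (i.2 j) ((n : ℝ) ^ j * i₁.1)‖ +
          ‖H (i.2 j) ((n : ℝ) ^ j * i₁.1) - H (i₄.2 j) ((n : ℝ) ^ j * i₁.1)‖ +
          ‖H (i₄.2 j) ((n : ℝ) ^ j * i₁.1) - H (i₄.2 j) ((n : ℝ) ^ j * i.1)‖ := by
        refine le_trans (le_of_eq ?_) (norm_add₃_le (a := H (i.2 j) ((n : ℝ) ^ j * i.1) -
          H (i.2 j) ((n : ℝ) ^ j * i₁.1)) (b := H (i.2 j) ((n : ℝ) ^ j * i₁.1) -
          H (i₄.2 j) ((n : ℝ) ^ j * i₁.1)) (c := H (i₄.2 j) ((n : ℝ) ^ j * i₁.1) -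
          H (i₄.2 j) ((n : ℝ) ^ j * i.1)))
        congr 1
        abel
      have h5 := mul_le_mul_of_nonneg_left h4 ha₀p.le
      rw [mul_add, mul_add] at h5
      have h6 : a₀ * ‖H (i.2 j) ((n : ℝ) ^ j * i₁.1) - H (i₄.2 j) ((n : ℝ) ^ j * i₁.1)‖ ≤
          (r + r / 200) / 300 := by
        have := mul_le_mul_of_nonneg_left h1 ha₀p.le
        refine this.trans (le_of_eq ?_)
        (clear * - ha₀p hr; field_simp)
      have h7 := htl0 j
      rw [← ha₀]
      linarith only [hr, h2, h3, h5, h6, h7]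
    · rw [hab3 j h, if_neg h.ne', zero_add]
      simp only [Prod.fst_zero, Prod.snd_zero, smul_zero, add_zero, sub_zero]
      rcases hdeep i hi j h with h1 | h1
      · rw [h1]
        simpa only [norm_zero, mul_zero] using htl0 j
      · exact htlb j _ _ h1

theorem HasCol.mono {ι' κ : Type*} {S S' : Set ι'} {D : ι' → ι' → Prop} (h : HasCol κ S' D)
    (hS : S ⊆ S') : HasCol κ S D := by
  obtain ⟨col, hcol⟩ := h
  exact ⟨col, fun i hi i' hi' => hcol i (hS hi) i' (hS hi')⟩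

/-- The colouring of a ball. -/
theorem hasCol_ball {v Lip : ℝ} {C4 : ℕ} (hB : IsBlocks J e₀ ι) (hH : IsPlay n v Lip C4 H)
    (hn : 2 ≤ n) (heps : 0 < eps) (heps1 : eps * n ≤ 1 / 1200) (hLip : eps * Lip ≤ 1 / 400)
    (hv1 : eps * v ≤ 1 / 2) (hv : 3600 ≤ v) (t₀ : ℝ) (ht₀ : t₀ ∈ Set.Icc (0 : ℝ) 1)
    (w₀ : ℕ → P) (r : ℝ) (hr : 0 < r) :
    HasCol (Fin 3 × (Fin C4 × Fin 23)) {i : ℝ × (ℕ → P) | i.1 ∈ Set.Icc (0 : ℝ) 1 ∧
      dist (xpt n J eps H e₀ ι i.1 i.2) (xpt n J eps H e₀ ι t₀ w₀) ≤ r} fun i i' =>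
      dist (xpt n J eps H e₀ ι i.1 i.2) (xpt n J eps H e₀ ι i'.1 i'.2) ≤ r / 2 := by
  classical
  have hn0 : 0 < n := by omega
  have hn' : (0 : ℝ) < n := by exact_mod_cast hn0
  have hn2 : (2 : ℝ) ≤ n := by exact_mod_cast hn
  have hex : ∃ q : ℕ, 3 * (eps * ((n : ℝ) ^ q)⁻¹) ≤ r / 100 := by
    obtain ⟨q, hq⟩ := pow_unbounded_of_one_lt (300 * eps / r) (by (clear * - hn2; linarith) : (1 : ℝ) < n)
    refine ⟨q, ?_⟩
    have h1 : (0 : ℝ) < (n : ℝ) ^ q := by positivity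
    rw [div_lt_iff₀ hr] at hq
    rw [← mul_assoc, ← div_eq_mul_inv, div_le_iff₀ h1]
    linarith only [hq]
  obtain ⟨hq, hqmin⟩ := And.intro (Nat.find_spec hex) (fun m => Nat.find_min (m := m) hex)
  generalize Nat.find hex = q at hq hqmin
  set S : Set (ℝ × (ℕ → P)) := {i : ℝ × (ℕ → P) | i.1 ∈ Set.Icc (0 : ℝ) 1 ∧
      dist (xpt n J eps H e₀ ι i.1 i.2) (xpt n J eps H e₀ ι t₀ w₀) ≤ r} with hS
  obtain ⟨c1, hc1⟩ := exists_floor_col S
    (fun i => ((⌊(n : ℝ) ^ q * i.1⌋ - ⌊(n : ℝ) ^ q * t₀⌋ : ℤ) : ℝ)) 1 (by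
      rintro i ⟨hi1, hi2⟩
      have hkey : |⌊(n : ℝ) ^ q * i.1⌋ - ⌊(n : ℝ) ^ q * t₀⌋| ≤ 1 := by
        rcases Nat.eq_zero_or_pos q with rfl | hqp
        · simp only [pow_zero, one_mul]
          have f1 : 0 ≤ ⌊i.1⌋ := Int.floor_nonneg.2 hi1.1
          have f2 : ⌊i.1⌋ ≤ 1 := by
            have : (⌊i.1⌋ : ℝ) ≤ 1 := (Int.floor_le _).trans hi1.2
            exact_mod_cast this
          have f3 : 0 ≤ ⌊t₀⌋ := Int.floor_nonneg.2 ht₀.1
          have f4 : ⌊t₀⌋ ≤ 1 := by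
            have : (⌊t₀⌋ : ℝ) ≤ 1 := (Int.floor_le _).trans ht₀.2
            exact_mod_cast this
          rw [abs_le]
          omega
        · have h1 := hqmin (q - 1) (by omega)
          rw [not_le] at h1
          obtain ⟨d, rfl⟩ : ∃ d, q = d + 1 := ⟨q - 1, by omega⟩
          simp only [Nat.add_sub_cancel] at h1
          have hd : (0 : ℝ) < (n : ℝ) ^ d := by positivity
          have h2 : r * (n : ℝ) ^ d < 300 * eps := by
            have := mul_lt_mul_of_pos_right h1 hd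
            have e1 : 3 * (eps * ((n : ℝ) ^ d)⁻¹) * (n : ℝ) ^ d = 3 * eps := by (clear * - hn heps; field_simp)
            rw [e1] at this
            linarith only [this]
          have h3 : |i.1 - t₀| ≤ r := (time_le_dist hB i.1 t₀ i.2 w₀).trans hi2
          have h4 : |(n : ℝ) ^ (d + 1) * i.1 - (n : ℝ) ^ (d + 1) * t₀| < 1 := by
            rw [← mul_sub, abs_mul, abs_of_pos (by positivity : (0 : ℝ) < (n : ℝ) ^ (d + 1))]
            calc (n : ℝ) ^ (d + 1) * |i.1 - t₀| ≤ (n : ℝ) ^ (d + 1) * r :=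
                  mul_le_mul_of_nonneg_left h3 (by positivity)
              _ = (r * (n : ℝ) ^ d) * n := by ring
              _ < (300 * eps) * n := mul_lt_mul_of_pos_right h2 hn'
              _ = 300 * (eps * n) := by ring
              _ < 1 := by linarith only [heps1]
          have h5 := abs_lt.1 h4
          have g1 := Int.floor_le ((n : ℝ) ^ (d + 1) * i.1)
          have g2 := Int.lt_floor_add_one ((n : ℝ) ^ (d + 1) * i.1)
          have g3 := Int.floor_le ((n : ℝ) ^ (d + 1) * t₀)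
          have g4 := Int.lt_floor_add_one ((n : ℝ) ^ (d + 1) * t₀)
          have k1 : ⌊(n : ℝ) ^ (d + 1) * i.1⌋ < ⌊(n : ℝ) ^ (d + 1) * t₀⌋ + 2 := by
            have : (⌊(n : ℝ) ^ (d + 1) * i.1⌋ : ℝ) < ⌊(n : ℝ) ^ (d + 1) * t₀⌋ + 2 := by linarith only [h5, g1, g4]
            exact_mod_cast this
          have k2 : ⌊(n : ℝ) ^ (d + 1) * t₀⌋ < ⌊(n : ℝ) ^ (d + 1) * i.1⌋ + 2 := by
            have : (⌊(n : ℝ) ^ (d + 1) * t₀⌋ : ℝ) < ⌊(n : ℝ) ^ (d + 1) * i.1⌋ + 2 := by linarith only [h5, g2, g3]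
            exact_mod_cast this
          rw [abs_le]
          omega
      have : ((|⌊(n : ℝ) ^ q * i.1⌋ - ⌊(n : ℝ) ^ q * t₀⌋| : ℤ) : ℝ) ≤ 1 := by exact_mod_cast hkey
      rw [Int.cast_abs] at this
      simpa only [Int.cast_sub, Nat.cast_one, ge_iff_le] using this)
  refine HasCol.comp c1 fun u => ?_
  rcases Set.eq_empty_or_nonempty {i | i ∈ S ∧ c1 i = u} with he | ⟨i₁, hi₁, hu⟩
  · rw [he]
    exact (hasCol_cell hB hH hn heps hLip hv1 hv t₀ w₀ r hr q hq 0).mono (Set.empty_subset _)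
  · refine (hasCol_cell hB hH hn heps hLip hv1 hv t₀ w₀ r hr q hq
      ⌊(n : ℝ) ^ q * i₁.1⌋).mono ?_
    rintro i ⟨hi, hiu⟩
    refine ⟨hi.2, ?_⟩
    have h1 := hc1 i hi i₁ hi₁ (hiu.trans hu.symm)
    simp only [Int.floor_intCast] at h1
    omega

/-- **Doubling of the time layer.** -/
theorem doubling_xpt {v Lip : ℝ} {C4 : ℕ} (hB : IsBlocks J e₀ ι) (hH : IsPlay n v Lip C4 H)
    (hn : 2 ≤ n) (heps : 0 < eps) (heps1 : eps * n ≤ 1 / 1200) (hLip : eps * Lip ≤ 1 / 400)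
    (hv1 : eps * v ≤ 1 / 2) (hv : 3600 ≤ v) :
    DoublingWith (69 * C4)
      {x | ∃ t ∈ Set.Icc (0 : ℝ) 1, ∃ w : ℕ → P, x = xpt n J eps H e₀ ι t w} := by
  have h := doublingWith_of_hasCol (κ := Fin 3 × (Fin C4 × Fin 23))
    (fun i : (Set.Icc (0 : ℝ) 1) × (ℕ → P) => xpt n J eps H e₀ ι i.1 i.2) (by
      rintro ⟨t₀, w₀⟩ r hr
      obtain ⟨col, hcol⟩ := hasCol_ball hB hH hn heps heps1 hLip hv1 hv t₀ t₀.2 w₀ r hr
      exact ⟨fun i => col (i.1, i.2), fun i hi i' hi' he =>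
        hcol (i.1, i.2) ⟨i.1.2, hi⟩ (i'.1, i'.2) ⟨i'.1.2, hi'⟩ he⟩)
  have hcard : Fintype.card (Fin 3 × (Fin C4 × Fin 23)) = 69 * C4 := by
    simp only [Fintype.card_prod, Fintype.card_fin]
    ring
  rw [hcard] at h
  have hset : Set.range (fun i : (Set.Icc (0 : ℝ) 1) × (ℕ → P) => xpt n J eps H e₀ ι i.1 i.2) =
      {x | ∃ t ∈ Set.Icc (0 : ℝ) 1, ∃ w : ℕ → P, x = xpt n J eps H e₀ ι t w} := by
    ext x
    constructor
    · rintro ⟨i, rfl⟩
      exact ⟨i.1, i.1.2, i.2, rfl⟩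
    · rintro ⟨t, ht, w, rfl⟩
      exact ⟨(⟨t, ht⟩, w), rfl⟩
  rwa [hset] at h

end Main

end Vale.Agent.P208
end
end

section

section

/-!
# P208: the concrete block space

`BW J E = ℝ ⊕ E ⊕ ... ⊕ E` (`J` copies) with the Euclidean norm.
-/

namespace Vale.Agent.P208

open Finset
open scoped RealInnerProductSpace

section Blocks

variable (J : ℕ) (E : Type*) [NormedAddCommGroup E] [InnerProductSpace ℝ E]

/-- the block space -/
abbrev BW := WithLp 2 (ℝ × PiLp 2 (fun _ : Fin J => E))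

/-- the time direction -/
noncomputable def bE0 : BW J E := WithLp.toLp 2 (1, 0)

variable {E}

/-- the inclusion of the `j`-th block (zero if `j` is out of range) -/
noncomputable def bIota (j : ℕ) : E →ₗ[ℝ] BW J E where
  toFun x := WithLp.toLp 2 (0, WithLp.toLp 2 (fun i : Fin J => if (i : ℕ) = j then x else 0))
  map_add' x y := by
    rw [← WithLp.toLp_add, Prod.mk_add_mk, ← WithLp.toLp_add, add_zero]
    congr 2
    ext i
    by_cases h : (i : ℕ) = j <;> simp [h]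
  map_smul' c x := by
    rw [RingHom.id_apply, ← WithLp.toLp_smul, Prod.smul_mk, ← WithLp.toLp_smul, smul_zero]
    congr 2
    ext i
    by_cases h : (i : ℕ) = j <;> simp [h]

theorem bsum_eq (s : ℝ) (f : ℕ → E) :
    s • bE0 J E + ∑ j ∈ range J, bIota J j (f j) =
      WithLp.toLp 2 (s, WithLp.toLp 2 (fun i : Fin J => f i)) := by
  have h1 : ∑ j ∈ range J, bIota J j (f j) =
      WithLp.toLp 2 (0, WithLp.toLp 2 (fun i : Fin J => f i)) := by
    have h2 : ∀ K : ℕ, ∑ j ∈ range K, bIota J j (f j) =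
        WithLp.toLp 2 (0, WithLp.toLp 2 (fun i : Fin J => if (i : ℕ) < K then f i else 0)) := by
      intro K
      induction K with
      | zero =>
        simp only [range_zero, sum_empty, Nat.not_lt_zero, if_false]
        rfl
      | succ K ih =>
        rw [sum_range_succ, ih]
        simp only [bIota, LinearMap.coe_mk, AddHom.coe_mk]
        rw [← WithLp.toLp_add, Prod.mk_add_mk, ← WithLp.toLp_add, add_zero]
        congr 3
        funext i
        simp only [Pi.add_apply]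
        by_cases h : (i : ℕ) < K
        · have h' : (i : ℕ) < K + 1 := by omega
          have h'' : (i : ℕ) ≠ K := by omega
          simp [h, h', h'']
        · by_cases h' : (i : ℕ) = K
          · simp only [h', lt_self_iff_false, ↓reduceIte, zero_add, lt_add_iff_pos_right, Order.lt_one_iff]
          · have h'' : ¬ (i : ℕ) < K + 1 := by omega
            simp only [h, ↓reduceIte, h', add_zero, h'']
    rw [h2 J]
    congr 3
    funext i
    simp
  rw [h1, bE0, ← WithLp.toLp_smul, ← WithLp.toLp_add]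
  simp

theorem norm_bsum_sq (s : ℝ) (f : ℕ → E) :
    ‖s • bE0 J E + ∑ j ∈ range J, bIota J j (f j)‖ ^ 2 = s ^ 2 + ∑ j ∈ range J, ‖f j‖ ^ 2 := by
  rw [bsum_eq, WithLp.prod_norm_sq_eq_of_L2, PiLp.norm_sq_eq_of_L2]
  simp only [Real.norm_eq_abs, sq_abs]
  rw [← Fin.sum_univ_eq_sum_range (fun j => ‖f j‖ ^ 2) J]
  rfl

theorem norm_bIota {j : ℕ} (hj : j < J) (x : E) : ‖bIota J j x‖ = ‖x‖ := by
  have h := norm_bsum_sq J (0 : ℝ) (fun i => if i = j then x else 0)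
  rw [zero_smul, zero_add, sum_eq_single j, if_pos rfl, sum_eq_single j, if_pos rfl] at h
  · rw [zero_pow two_ne_zero, zero_add] at h
    exact (sq_eq_sq₀ (norm_nonneg _) (norm_nonneg _)).1 h
  · intro i _ hi
    simp [hi]
  · intro h; exact absurd (mem_range.2 hj) h
  · intro i _ hi
    simp [hi]
  · intro h; exact absurd (mem_range.2 hj) h

theorem bIota_of_le {j : ℕ} (hj : J ≤ j) (x : E) : bIota J j x = 0 := by
  simp only [bIota, LinearMap.coe_mk, AddHom.coe_mk]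
  have : (fun i : Fin J => if (i : ℕ) = j then x else 0) = 0 := by
    funext i
    have : (i : ℕ) ≠ j := by have := i.2; omega
    simp [this]
  rw [this]
  rfl

theorem isBlocks_b : IsBlocks (E := E) J (bE0 J E) (bIota J) where
  ι_le j x := by
    by_cases hj : j < J
    · exact (norm_bIota J hj x).le
    · rw [bIota_of_le J (not_lt.1 hj), norm_zero]
      exact norm_nonneg _
  time_le s f := by
    refine abs_le_of_sq_le_sq' ?_ (norm_nonneg _) |> fun h => abs_le.2 h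
    rw [norm_bsum_sq]
    have : 0 ≤ ∑ j ∈ range J, ‖f j‖ ^ 2 := sum_nonneg fun _ _ => sq_nonneg _
    linarith only [this]
  block_le s f j hj := by
    refine le_of_sq_le_sq ?_ (norm_nonneg _)
    rw [norm_bsum_sq]
    have h1 : ‖f j‖ ^ 2 ≤ ∑ j ∈ range J, ‖f j‖ ^ 2 :=
      single_le_sum (f := fun j => ‖f j‖ ^ 2) (fun _ _ => sq_nonneg _) (mem_range.2 hj)
    have := sq_nonneg s
    linarith only [h1, this]

theorem norm_bE0 : ‖bE0 J E‖ = 1 := by
  have h := norm_bsum_sq (E := E) J (1 : ℝ) (fun _ => 0)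
  simp only [map_zero, sum_const_zero, add_zero, one_smul, norm_zero, ne_eq, OfNat.ofNat_ne_zero,
    not_false_eq_true, zero_pow, one_pow] at h
  nlinarith only [h, norm_nonneg (bE0 J E)]

theorem inner_bE0_bIota (j : ℕ) (x : E) : ⟪bE0 J E, bIota J j x⟫ = 0 := by
  rw [WithLp.prod_inner_apply]
  simp only [bE0, bIota, LinearMap.coe_mk, AddHom.coe_mk, RCLike.inner_apply, Real.ringHom_apply, mul_one, inner_zero_left, add_zero]

theorem inner_bIota_bIota {i j : ℕ} (hij : i ≠ j) (x y : E) :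
    ⟪bIota J i x, bIota J j y⟫ = 0 := by
  rw [WithLp.prod_inner_apply]
  simp only [bIota, LinearMap.coe_mk, AddHom.coe_mk, PiLp.inner_apply, inner_zero_left, zero_add]
  refine sum_eq_zero fun k _ => ?_
  by_cases h : (k : ℕ) = i
  · have h' : (k : ℕ) ≠ j := by omega
    simp [h']
  · simp [h]

end Blocks

/-! ### Transport to `EuclideanSpace ℝ (Fin m)` -/

section Transport

variable {W : Type*} [NormedAddCommGroup W] [InnerProductSpace ℝ W] [FiniteDimensional ℝ W]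

/-- If every bounded `lam`-doubling subset of a Euclidean space admits a `(c,1)`-embedding into
`ℝ^k`, then the same holds for subsets of any finite dimensional inner product space. -/
theorem embeds_of_finiteDimensional (lam k : ℕ) (c : ℝ)
    (h : ∀ (m : ℕ) (X : Set (EuclideanSpace ℝ (Fin m))), Bornology.IsBounded X → X.Nonempty →
      DoublingWith lam X → EmbedsWith c X k) (X : Set W) (hb : Bornology.IsBounded X)
    (hne : X.Nonempty) (hd : DoublingWith lam X) : EmbedsWith c X k := by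
  set φ := (stdOrthonormalBasis ℝ W).repr with hφ
  obtain ⟨f, hf⟩ := h _ (φ '' X) (φ.lipschitz.isBounded_image hb) (hne.image _)
    (hd.image φ 1 one_pos (fun x y => by rw [one_mul]; exact φ.dist_map x y))
  refine ⟨fun x => f (φ x), fun x hx y hy => ?_⟩
  have := hf (φ x) ⟨x, hx, rfl⟩ (φ y) ⟨y, hy, rfl⟩
  rwa [φ.dist_map] at this

end Transport

end Vale.Agent.P208
end
end

section

section

/-! Near-extremal edges: part (B) of the time layer. -/

open scoped BigOperators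

namespace Vale.Agent.P208

universe u v w

namespace NearExtremal

section Energy

variable {F : Type*} [NormedAddCommGroup F] [InnerProductSpace ℝ F]

/-- Energy of a path is the energy of the chord plus the energy of the deviation. -/
lemma sum_energy (z : ℕ → F) (q : ℕ) (hq : 0 < q) :
    ∑ u ∈ Finset.range q, ‖z (u + 1) - z u‖ ^ 2 = ‖z q - z 0‖ ^ 2 / q +
      ∑ u ∈ Finset.range q, ‖(z (u + 1) - z u) - (1 / (q : ℝ)) • (z q - z 0)‖ ^ 2 := by
  have hq' : (q : ℝ) ≠ 0 := by positivity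
  have hsum : ∑ u ∈ Finset.range q, (z (u + 1) - z u) = z q - z 0 := Finset.sum_range_sub z q
  have h1 : ∀ u, ‖(z (u + 1) - z u) - (1 / (q : ℝ)) • (z q - z 0)‖ ^ 2 =
      ‖z (u + 1) - z u‖ ^ 2 - 2 * (1 / (q : ℝ)) * inner ℝ (z (u + 1) - z u) (z q - z 0) +
        (1 / (q : ℝ)) ^ 2 * ‖z q - z 0‖ ^ 2 := by
    intro u
    rw [norm_sub_sq_real, inner_smul_right, norm_smul, mul_pow, Real.norm_eq_abs, sq_abs]
    ring
  simp only [h1, Finset.sum_add_distrib, Finset.sum_sub_distrib, ← Finset.mul_sum,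
    ← sum_inner, hsum, real_inner_self_eq_norm_sq, Finset.sum_const, Finset.card_range,
    nsmul_eq_mul]
  field_simp
  ring

end Energy

variable {P : Type u} {E : Type v} [NormedAddCommGroup E] [InnerProductSpace ℝ E]
  {W : Type w} [NormedAddCommGroup W] [InnerProductSpace ℝ W]
  {n J : ℕ} {eps : ℝ} {H : P → ℝ → E} {e0 : W} {ι : ℕ → E →ₗ[ℝ] W}

/-- Vertices of level `j`. -/
noncomputable def vert (n J : ℕ) (eps : ℝ) (H : P → ℝ → E) (e0 : W) (ι : ℕ → E →ₗ[ℝ] W)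
    (j k : ℕ) (w : ℕ → P) : W := xpt n J eps H e0 ι ((k : ℝ) / (n : ℝ) ^ j) w

omit [InnerProductSpace ℝ E] in
lemma H_int (hzero : ∀ p (y : ℝ) (k : ℤ), |y - (k : ℝ)| < 1 / 3 → H p y = 0) (p : P) (k : ℤ) :
    H p k = 0 := hzero p k k (by simp)

/-- The value at level `j+1` vertices inside an edge of level `j`. -/
lemma vert_sub (hn : 0 < n) (hper : ∀ p (y : ℝ) (k : ℤ), H p (y + k) = H p y)
    (hzero : ∀ p (y : ℝ) (k : ℤ), |y - (k : ℝ)| < 1 / 3 → H p y = 0)
    (haff : ∀ p (i : ℤ), ∃ a b : E, ∀ y ∈ Set.Icc ((i : ℝ) / n) (((i : ℝ) + 1) / n),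
      H p y = a + y • b)
    (j k i : ℕ) (hj : j < J) (hi : i ≤ n) (w : ℕ → P) (p : P) :
    vert n J eps H e0 ι (j + 1) (k * n + i) (Function.update w j p) =
      vert n J eps H e0 ι j k w + ((i : ℝ) / n) • (vert n J eps H e0 ι j (k + 1) w -
        vert n J eps H e0 ι j k w) +
      ι j ((eps * ((n : ℝ) ^ j)⁻¹) • H p ((i : ℝ) / n)) := by
  have hnR : (0 : ℝ) < n := by exact_mod_cast hn
  have hn0 : (n : ℝ) ≠ 0 := hnR.ne'
  unfold vert xpt
  -- the blocks
  have hblock : ∀ l ∈ Finset.range J,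
      ι l ((eps * ((n : ℝ) ^ l)⁻¹) • H (Function.update w j p l)
        ((n : ℝ) ^ l * (((k * n + i : ℕ) : ℝ) / (n : ℝ) ^ (j + 1)))) =
      ι l ((eps * ((n : ℝ) ^ l)⁻¹) • H (w l) ((n : ℝ) ^ l * ((k : ℝ) / (n : ℝ) ^ j))) +
      ((i : ℝ) / n) • (ι l ((eps * ((n : ℝ) ^ l)⁻¹) •
          H (w l) ((n : ℝ) ^ l * (((k + 1 : ℕ) : ℝ) / (n : ℝ) ^ j))) -
        ι l ((eps * ((n : ℝ) ^ l)⁻¹) • H (w l) ((n : ℝ) ^ l * ((k : ℝ) / (n : ℝ) ^ j)))) +
      (if l = j then ι j ((eps * ((n : ℝ) ^ j)⁻¹) • H p ((i : ℝ) / n)) else 0) := by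
    intro l hl
    rcases lt_trichotomy l j with hlj | rfl | hlj
    · -- affine levels
      rw [if_neg hlj.ne, Function.update_of_ne hlj.ne, add_zero]
      obtain ⟨d, hd⟩ : ∃ d, j = l + 1 + d := ⟨j - l - 1, by omega⟩
      -- the cell
      obtain ⟨a, b, hab⟩ := haff (w l) ((k / n ^ d : ℕ) : ℤ)
      have hnd : (0 : ℝ) < (n : ℝ) ^ d := by positivity
      have e1 : ∀ x : ℝ, (n : ℝ) ^ l * (x / (n : ℝ) ^ j) = x / (n : ℝ) ^ d / n := by
        intro x
        rw [hd, pow_add, pow_add, pow_one]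
        field_simp
      have e2 : ∀ x : ℝ, (n : ℝ) ^ l * (x / (n : ℝ) ^ (j + 1)) = x / n / (n : ℝ) ^ d / n := by
        intro x
        rw [hd, pow_succ, pow_add, pow_add, pow_one]
        field_simp
      have hlow : ((k / n ^ d : ℕ) : ℝ) ≤ (k : ℝ) / (n : ℝ) ^ d := by
        rw [le_div_iff₀ hnd]
        exact_mod_cast Nat.div_mul_le_self k (n ^ d)
      have hhigh : ((k : ℝ) + 1) / (n : ℝ) ^ d ≤ ((k / n ^ d : ℕ) : ℝ) + 1 := by
        rw [div_le_iff₀ hnd]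
        have : k < n ^ d * (k / n ^ d + 1) := Nat.lt_mul_div_succ k (by positivity)
        have h3 : k + 1 ≤ (k / n ^ d + 1) * n ^ d := by linarith only [this]
        exact_mod_cast h3
      have hmem : ∀ x : ℝ, (k : ℝ) ≤ x → x ≤ k + 1 →
          x / (n : ℝ) ^ d / n ∈ Set.Icc ((((k / n ^ d : ℕ) : ℤ) : ℝ) / n)
            (((((k / n ^ d : ℕ) : ℤ) : ℝ) + 1) / n) := by
        intro x hx1 hx2
        constructor
        · apply div_le_div_of_nonneg_right _ hnR.le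
          push_cast
          exact hlow.trans (div_le_div_of_nonneg_right hx1 hnd.le)
        · apply div_le_div_of_nonneg_right _ hnR.le
          push_cast
          exact (div_le_div_of_nonneg_right hx2 hnd.le).trans hhigh
      have hi' : (i : ℝ) / n ≤ 1 := by
        rw [div_le_one hnR]; exact_mod_cast hi
      have hi0 : 0 ≤ (i : ℝ) / n := by positivity
      have e3 : (((k * n + i : ℕ) : ℝ)) / n = k + (i : ℝ) / n := by
        push_cast; (clear * - hn0; field_simp)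
      rw [e1, e2, e1, e3, hab _ (hmem _ (by linarith only [hi0]) (by linarith only [hi'])),
        hab _ (hmem _ le_rfl (by linarith only [])),
        hab _ (hmem _ (by push_cast; linarith only []) (by push_cast; linarith only []))]
      rw [← map_sub, ← map_smul, ← map_add, ← smul_sub, smul_comm ((i : ℝ) / n), ← smul_add]
      congr 2
      push_cast
      have e4 : (a + (((k : ℝ) + 1) / (n : ℝ) ^ d / n) • b) - (a + ((k : ℝ) / (n : ℝ) ^ d / n) • b)
          = (1 / (n : ℝ) ^ d / n) • b := by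
        rw [add_sub_add_left_eq_sub, ← sub_smul]
        congr 1
        field_simp
        ring
      rw [e4, smul_smul, add_assoc, ← add_smul]
      congr 2
      field_simp
    · -- the active level
      rw [if_pos rfl, Function.update_self]
      have e1 : (n : ℝ) ^ l * (((k * n + i : ℕ) : ℝ) / (n : ℝ) ^ (l + 1)) =
          (i : ℝ) / n + ((k : ℤ) : ℝ) := by
        push_cast
        rw [pow_succ]
        field_simp
        ring
      have e2 : ∀ x : ℝ, (n : ℝ) ^ l * (x / (n : ℝ) ^ l) = x := by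
        intro x; field_simp
      rw [e1, hper, e2, e2]
      have h1 : H (w l) ((k : ℕ) : ℝ) = 0 := by
        have := H_int hzero (w l) (k : ℤ)
        simpa using this
      have h2 : H (w l) ((k + 1 : ℕ) : ℝ) = 0 := by
        have := H_int hzero (w l) ((k + 1 : ℕ) : ℤ)
        simpa only [Nat.cast_add, Nat.cast_one, Int.cast_add, Int.cast_natCast, Int.cast_one] using this
      rw [h1, h2]
      simp
    · -- inactive levels
      rw [if_neg hlj.ne', Function.update_of_ne hlj.ne', add_zero]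
      obtain ⟨d, hd⟩ : ∃ d, l = j + 1 + d := ⟨l - j - 1, by omega⟩
      have e1 : (n : ℝ) ^ l * (((k * n + i : ℕ) : ℝ) / (n : ℝ) ^ (j + 1)) =
          (((k * n + i) * n ^ d : ℕ) : ℤ) := by
        rw [hd, pow_add]
        push_cast
        field_simp
      have e2 : ∀ x : ℕ, (n : ℝ) ^ l * ((x : ℝ) / (n : ℝ) ^ j) = ((x * n ^ (d + 1) : ℕ) : ℤ) := by
        intro x
        rw [hd, pow_add, pow_add]
        push_cast
        field_simp
        ring
      rw [e1, e2, e2, H_int hzero, H_int hzero, H_int hzero]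
      simp only [smul_zero, map_zero, sub_self, add_zero]
  rw [Finset.sum_congr rfl hblock]
  simp only [Finset.sum_add_distrib, ← Finset.smul_sum, Finset.sum_sub_distrib]
  rw [Finset.sum_ite_eq' (Finset.range J) j, if_pos (Finset.mem_range.mpr hj)]
  have ht : (((k * n + i : ℕ) : ℝ) / (n : ℝ) ^ (j + 1)) =
      (k : ℝ) / (n : ℝ) ^ j + (i : ℝ) / n * (((k + 1 : ℕ) : ℝ) / (n : ℝ) ^ j -
        (k : ℝ) / (n : ℝ) ^ j) := by
    push_cast
    rw [pow_succ]
    field_simp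
    ring
  rw [ht, add_smul, mul_smul, sub_smul]
  module

/-- The time of a vertex lies in `[0,1]`. -/
lemma time_mem (hn : 0 < n) {j k : ℕ} (hk : k ≤ n ^ j) :
    (k : ℝ) / (n : ℝ) ^ j ∈ Set.Icc (0 : ℝ) 1 := by
  have hnR : (0 : ℝ) < n := by exact_mod_cast hn
  refine ⟨by positivity, ?_⟩
  rw [div_le_one (by positivity)]
  exact_mod_cast hk

variable {F : Type*} [NormedAddCommGroup F] [InnerProductSpace ℝ F]

end NearExtremal

open NearExtremal in
/-- Part (B): an edge along which the map is almost as short as possible for all labels at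
once. -/
theorem exists_near_extremal {P : Type u} {E : Type v} [NormedAddCommGroup E]
    [InnerProductSpace ℝ E] {W : Type w} [NormedAddCommGroup W] [InnerProductSpace ℝ W]
    {F : Type*} [NormedAddCommGroup F] [InnerProductSpace ℝ F] [Nonempty P]
    (n J : ℕ) (eps : ℝ) (H : P → ℝ → E) (e0 : W) (ι : ℕ → E →ₗ[ℝ] W)
    (hn : 0 < n) (heps : 0 < eps) (hper : ∀ p (y : ℝ) (k : ℤ), H p (y + k) = H p y)
    (hzero : ∀ p (y : ℝ) (k : ℤ), |y - (k : ℝ)| < 1 / 3 → H p y = 0)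
    (haff : ∀ p (i : ℤ), ∃ a b : E, ∀ y ∈ Set.Icc ((i : ℝ) / n) (((i : ℝ) + 1) / n),
      H p y = a + y • b)
    (he0 : ‖e0‖ ≤ 1) (hι : ∀ j < J, ∀ x, ‖ι j x‖ = ‖x‖) (θ : ℝ) (hJ : 1 < J * (n * eps ^ 2 * θ))
    (m : ℝ) (f : W → F)
    (hf : ∀ t ∈ Set.Icc (0 : ℝ) 1, ∀ t' ∈ Set.Icc (0 : ℝ) 1, ∀ w w' : ℕ → P,
      m * ‖xpt n J eps H e0 ι t w - xpt n J eps H e0 ι t' w'‖ ≤
        ‖f (xpt n J eps H e0 ι t w) - f (xpt n J eps H e0 ι t' w')‖ ∧
      ‖f (xpt n J eps H e0 ι t w) - f (xpt n J eps H e0 ι t' w')‖ ≤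
        ‖xpt n J eps H e0 ι t w - xpt n J eps H e0 ι t' w'‖) :
    ∃ g : P → ℕ → F, (∀ p, g p 0 = 0) ∧ (∀ p, g p n = 0) ∧
      (∀ p p' i, i ≤ n → m * ‖H p ((i : ℝ) / n) - H p' ((i : ℝ) / n)‖ ≤ ‖g p i - g p' i‖ ∧
        ‖g p i - g p' i‖ ≤ ‖H p ((i : ℝ) / n) - H p' ((i : ℝ) / n)‖) ∧
      ∀ p, ∑ i ∈ Finset.range n, ‖g p (i + 1) - g p i‖ ^ 2 ≤
        ∑ i ∈ Finset.range n, ‖H p (((i + 1 : ℕ) : ℝ) / n) - H p ((i : ℝ) / n)‖ ^ 2 + θ := by
  have hnR : (0 : ℝ) < n := by exact_mod_cast hn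
  -- notation
  let vt : ℕ → ℕ → (ℕ → P) → W := fun j k w => vert n J eps H e0 ι j k w
  let c : ℕ → ℝ := fun j => eps * ((n : ℝ) ^ j)⁻¹
  have hc : ∀ j, 0 < c j := fun j => by simp only [c]; positivity
  have hH0 : ∀ p, H p 0 = 0 := fun p => by
    have := H_int hzero p 0
    simpa using this
  have hH1 : ∀ p, H p 1 = 0 := fun p => by
    have := H_int hzero p 1
    simpa using this
  let V : ℕ → ℕ → (ℕ → P) → P → ℕ → W := fun j k w p i =>
    vt (j + 1) (k * n + i) (Function.update w j p)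
  have hV : ∀ j k w p i, j < J → i ≤ n → V j k w p i =
      vt j k w + ((i : ℝ) / n) • (vt j (k + 1) w - vt j k w) + ι j (c j • H p ((i : ℝ) / n)) :=
    fun j k w p i hj hi => vert_sub hn hper hzero haff j k i hj hi w p
  have hV0 : ∀ j k w p, j < J → V j k w p 0 = vt j k w := by
    intro j k w p hj
    rw [hV j k w p 0 hj (Nat.zero_le _)]
    simp only [CharP.cast_eq_zero, zero_div, zero_smul, add_zero, hH0, smul_zero, map_zero]
  have hVn : ∀ j k w p, j < J → V j k w p n = vt j (k + 1) w := by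
    intro j k w p hj
    rw [hV j k w p n hj le_rfl, div_self hnR.ne', hH1]
    simp
  let g : ℕ → ℕ → (ℕ → P) → P → ℕ → F := fun j k w p i =>
    (c j)⁻¹ • (f (V j k w p i) - f (vt j k w) -
      ((i : ℝ) / n) • (f (vt j (k + 1) w) - f (vt j k w)))
  let B : ℕ → ℕ → (ℕ → P) → ℝ := fun j k w => ((n : ℝ) ^ j) ^ 2 *
    (‖vt j (k + 1) w - vt j k w‖ ^ 2 - ‖f (vt j (k + 1) w) - f (vt j k w)‖ ^ 2)
  -- energies
  have hE1 : ∀ j k w p, j < J → ∑ i ∈ Finset.range n, ‖V j k w p (i + 1) - V j k w p i‖ ^ 2 =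
      ‖vt j (k + 1) w - vt j k w‖ ^ 2 / n + (c j) ^ 2 * ∑ i ∈ Finset.range n,
        ‖H p (((i + 1 : ℕ) : ℝ) / n) - H p ((i : ℝ) / n)‖ ^ 2 := by
    intro j k w p hj
    rw [sum_energy (V j k w p) n hn, hV0 j k w p hj, hVn j k w p hj, Finset.mul_sum]
    congr 1
    refine Finset.sum_congr rfl fun i hi => ?_
    rw [Finset.mem_range] at hi
    have : V j k w p (i + 1) - V j k w p i - (1 / (n : ℝ)) • (vt j (k + 1) w - vt j k w) =
        ι j (c j • (H p (((i + 1 : ℕ) : ℝ) / n) - H p ((i : ℝ) / n))) := by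
      rw [hV j k w p (i + 1) hj hi, hV j k w p i hj hi.le, smul_sub (c j), map_sub (ι j)]
      push_cast
      rw [add_div]
      module
    rw [this, hι j hj, norm_smul, mul_pow, Real.norm_of_nonneg (hc j).le]
  have hE2 : ∀ j k w p, j < J →
      ∑ i ∈ Finset.range n, ‖f (V j k w p (i + 1)) - f (V j k w p i)‖ ^ 2 =
      ‖f (vt j (k + 1) w) - f (vt j k w)‖ ^ 2 / n + (c j) ^ 2 * ∑ i ∈ Finset.range n,
        ‖g j k w p (i + 1) - g j k w p i‖ ^ 2 := by
    intro j k w p hj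
    rw [sum_energy (fun i => f (V j k w p i)) n hn, hV0 j k w p hj, hVn j k w p hj,
      Finset.mul_sum]
    congr 1
    refine Finset.sum_congr rfl fun i _ => ?_
    have : f (V j k w p (i + 1)) - f (V j k w p i) -
        (1 / (n : ℝ)) • (f (vt j (k + 1) w) - f (vt j k w)) =
        c j • (g j k w p (i + 1) - g j k w p i) := by
      simp only [g]
      rw [← smul_sub, smul_smul, mul_inv_cancel₀ (hc j).ne', one_smul]
      push_cast
      rw [add_div]
      module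
    rw [this, norm_smul, mul_pow, Real.norm_of_nonneg (hc j).le]
  -- the dichotomy
  by_cases hgood : ∃ j k w, j < J ∧ k < n ^ j ∧ ∀ p,
      ∑ i ∈ Finset.range n, ‖g j k w p (i + 1) - g j k w p i‖ ^ 2 ≤
        ∑ i ∈ Finset.range n, ‖H p (((i + 1 : ℕ) : ℝ) / n) - H p ((i : ℝ) / n)‖ ^ 2 + θ
  · obtain ⟨j, k, w, hj, hk, hgd⟩ := hgood
    refine ⟨g j k w, fun p => ?_, fun p => ?_, fun p p' i hi => ?_, hgd⟩
    · simp only [g]
      rw [hV0 j k w p hj]
      simp only [sub_self, CharP.cast_eq_zero, zero_div, zero_smul, smul_zero]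
    · simp only [g]
      rw [hVn j k w p hj, div_self hnR.ne', one_smul, sub_self, smul_zero]
    · have hkn : k * n + i ≤ n ^ (j + 1) := by
        calc k * n + i ≤ k * n + n := by omega
          _ = (k + 1) * n := by ring
          _ ≤ n ^ j * n := Nat.mul_le_mul_right n hk
          _ = n ^ (j + 1) := by rw [pow_succ]
      have h1 := hf _ (time_mem hn hkn) _ (time_mem hn hkn) (Function.update w j p)
        (Function.update w j p')
      have h1' : m * ‖V j k w p i - V j k w p' i‖ ≤ ‖f (V j k w p i) - f (V j k w p' i)‖ ∧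
        ‖f (V j k w p i) - f (V j k w p' i)‖ ≤ ‖V j k w p i - V j k w p' i‖ := h1
      have h2 : ‖V j k w p i - V j k w p' i‖ =
          c j * ‖H p ((i : ℝ) / n) - H p' ((i : ℝ) / n)‖ := by
        rw [hV j k w p i hj hi, hV j k w p' i hj hi, add_sub_add_left_eq_sub, ← map_sub,
          ← smul_sub, hι j hj, norm_smul, Real.norm_of_nonneg (hc j).le]
      have h3 : ‖g j k w p i - g j k w p' i‖ = (c j)⁻¹ * ‖f (V j k w p i) - f (V j k w p' i)‖ := by
        simp only [g]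
        rw [← smul_sub, norm_smul, norm_inv, Real.norm_of_nonneg (hc j).le]
        congr 2
        abel
      rw [h2] at h1'
      rw [h3]
      have hcj := hc j
      constructor
      · rw [le_inv_mul_iff₀ hcj]
        linarith only [h1']
      · rw [inv_mul_le_iff₀ hcj]
        exact h1'.2
  · exfalso
    push Not at hgood
    have hB : ∀ j k w, k < n ^ j → 0 ≤ B j k w := by
      intro j k w hk
      have h1 := (hf _ (time_mem hn (j := j) (k := k + 1) hk) _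
        (time_mem hn (j := j) (k := k) hk.le) w w).2
      have h1' : ‖f (vt j (k + 1) w) - f (vt j k w)‖ ≤ ‖vt j (k + 1) w - vt j k w‖ := h1
      have h2 : ‖f (vt j (k + 1) w) - f (vt j k w)‖ ^ 2 ≤ ‖vt j (k + 1) w - vt j k w‖ ^ 2 :=
        pow_le_pow_left₀ (norm_nonneg _) h1' 2
      exact mul_nonneg (by positivity) (by linarith only [h2])
    have hind : ∀ j, j ≤ J → ∃ k w, k < n ^ j ∧ B j k w ≤ 1 - j * (n * eps ^ 2 * θ) := by
      intro j
      induction j with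
      | zero =>
        intro _
        obtain ⟨p0⟩ := (inferInstance : Nonempty P)
        refine ⟨0, fun _ => p0, by simp, ?_⟩
        have h1 : vt 0 0 (fun _ => p0) = 0 := by
          simp only [vert, xpt, Nat.cast_zero, pow_zero, zero_div, zero_smul, mul_zero, hH0, smul_zero, map_zero, Finset.sum_const_zero, add_zero, vt]
        have h2 : vt 0 (0 + 1) (fun _ => p0) = e0 := by
          have h3 : ∀ l, H p0 ((n : ℝ) ^ l * 1) = 0 := by
            intro l
            have := H_int hzero p0 ((n ^ l : ℕ) : ℤ)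
            rw [mul_one]
            push_cast at this
            exact this
          simp only [vt, vert, xpt, pow_zero, zero_add, Nat.cast_one, div_one, one_smul, h3,
            smul_zero, map_zero, Finset.sum_const_zero, add_zero]
        simp only [B, pow_zero, one_pow, one_mul, Nat.cast_zero, zero_mul, sub_zero]
        rw [h1, h2, sub_zero]
        have h4 : ‖e0‖ ^ 2 ≤ 1 := by nlinarith only [he0, norm_nonneg e0]
        have h5 : 0 ≤ ‖f e0 - f 0‖ ^ 2 := by (clear * -; positivity)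
        linarith only [h4, h5]
      | succ j ih =>
        intro hj
        obtain ⟨k, w, hk, hBk⟩ := ih (by omega)
        obtain ⟨p, hp⟩ := hgood j k w (by omega) hk
        have hjJ : j < J := by omega
        have h1 : ∑ i ∈ Finset.range n, B (j + 1) (k * n + i) (Function.update w j p) ≤
            ∑ i ∈ Finset.range n, (B j k w - n * eps ^ 2 * θ) := by
          have e1 : ∀ i, B (j + 1) (k * n + i) (Function.update w j p) = ((n : ℝ) ^ (j + 1)) ^ 2 *
            (‖V j k w p (i + 1) - V j k w p i‖ ^ 2 -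
              ‖f (V j k w p (i + 1)) - f (V j k w p i)‖ ^ 2) := fun i => rfl
          simp only [e1]
          rw [← Finset.mul_sum, Finset.sum_sub_distrib, hE1 j k w p hjJ, hE2 j k w p hjJ,
            Finset.sum_const, Finset.card_range, nsmul_eq_mul]
          set Sh := ∑ i ∈ Finset.range n,
            ‖H p (((i + 1 : ℕ) : ℝ) / n) - H p ((i : ℝ) / n)‖ ^ 2 with hSh
          set Sg := ∑ i ∈ Finset.range n, ‖g j k w p (i + 1) - g j k w p i‖ ^ 2 with hSg
          have e2 : ((n : ℝ) ^ (j + 1)) ^ 2 * (‖vt j (k + 1) w - vt j k w‖ ^ 2 / n +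
              (c j) ^ 2 * Sh - (‖f (vt j (k + 1) w) - f (vt j k w)‖ ^ 2 / n + (c j) ^ 2 * Sg)) =
              n * B j k w + n * (n * eps ^ 2) * (Sh - Sg) := by
            simp only [B, c]
            rw [pow_succ]
            field_simp
            ring
          rw [e2]
          have h3 : Sh - Sg ≤ -θ := by linarith only [hp]
          have h4 : (n : ℝ) * (n * eps ^ 2) * (Sh - Sg) ≤ n * (n * eps ^ 2) * (-θ) :=
            mul_le_mul_of_nonneg_left h3 (by positivity)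
          linarith only [h4]
        obtain ⟨i, hi, hBi⟩ := Finset.exists_le_of_sum_le
          (Finset.nonempty_range_iff.mpr hn.ne') h1
        rw [Finset.mem_range] at hi
        refine ⟨k * n + i, Function.update w j p, ?_, ?_⟩
        · calc k * n + i < k * n + n := by omega
            _ = (k + 1) * n := by ring
            _ ≤ n ^ j * n := Nat.mul_le_mul_right n hk
            _ = n ^ (j + 1) := by rw [pow_succ]
        · push_cast
          linarith only [hBk, hBi]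
    obtain ⟨k, w, hk, hBk⟩ := hind J le_rfl
    have := hB J k w hk
    linarith only [hJ, hBk, this]

end Vale.Agent.P208
end
end

section

section

/-!
# P208 (Lang-Plaut), module D2: the profiles `H p` playing a movie
-/

open scoped RealInnerProductSpace BigOperators

namespace Vale.Agent.P208

variable {E : Type} [NormedAddCommGroup E] [InnerProductSpace ℝ E] {P : Type}

/-- clamping to `[0,1]` -/
noncomputable def clamp01 (x : ℝ) : ℝ := max 0 (min 1 x)

theorem clamp01_of_le {x : ℝ} (h : x ≤ 0) : clamp01 x = 0 := by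
  unfold clamp01
  exact max_eq_left ((min_le_right _ _).trans h)

theorem clamp01_of_ge {x : ℝ} (h : 1 ≤ x) : clamp01 x = 1 := by
  unfold clamp01
  rw [min_eq_left h]; norm_num

theorem clamp01_of_mem {x : ℝ} (h0 : 0 ≤ x) (h1 : x ≤ 1) : clamp01 x = x := by
  unfold clamp01
  rw [min_eq_right h1, max_eq_right h0]

namespace Movie

/-- duration (in cells) of the transition `κ` -/
def dur (Mv : Movie E P) (Ω κ : ℕ) : ℕ := Ω ^ Mv.ht κ

/-- starting cell of the transition `κ`; the movie starts at cell `n'` -/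
def start (Mv : Movie E P) (Ω n' κ : ℕ) : ℕ := n' + ∑ k ∈ Finset.range κ, Mv.dur Ω k

/-- the profile, time measured in cells -/
noncomputable def Hb (Mv : Movie E P) (Ω n' : ℕ) (p : P) (y : ℝ) : E :=
  ∑ κ ∈ Finset.range Mv.L,
    clamp01 ((y - Mv.start Ω n' κ) / Mv.dur Ω κ) • (Mv.c (κ + 1) p - Mv.c κ p)

/-- the periodic profile -/
noncomputable def H (Mv : Movie E P) (Ω n' : ℕ) (p : P) (y : ℝ) : E :=
  Mv.Hb Ω n' p (((3 * n' : ℕ) : ℝ) * Int.fract y)

variable (Mv : Movie E P) {Ω n' : ℕ}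

theorem dur_pos (hΩ : 1 ≤ Ω) (κ : ℕ) : 0 < Mv.dur Ω κ := pow_pos hΩ _

theorem start_zero : Mv.start Ω n' 0 = n' := by simp [start]

theorem start_succ (κ : ℕ) : Mv.start Ω n' (κ + 1) = Mv.start Ω n' κ + Mv.dur Ω κ := by
  simp [start, Finset.sum_range_succ, add_assoc]

theorem start_mono : Monotone (Mv.start Ω n') :=
  monotone_nat_of_le_succ fun κ => by rw [start_succ]; omega

theorem telescope (p : P) (K : ℕ) :
    ∑ κ ∈ Finset.range K, (Mv.c (κ + 1) p - Mv.c κ p) = Mv.c K p := by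
  rw [Finset.sum_range_sub (fun κ => Mv.c κ p), Mv.zero, sub_zero]

theorem Hb_of_le (hΩ : 1 ≤ Ω) (p : P) {y : ℝ} (hy : y ≤ n') : Mv.Hb Ω n' p y = 0 := by
  unfold Hb
  refine Finset.sum_eq_zero fun κ _ => ?_
  rw [clamp01_of_le, zero_smul]
  have h1 : (0 : ℝ) < Mv.dur Ω κ := by exact_mod_cast Mv.dur_pos hΩ κ
  have h2 : (n' : ℝ) ≤ Mv.start Ω n' κ := by
    have := Mv.start_mono (Ω := Ω) (n' := n') (Nat.zero_le κ)
    rw [start_zero] at this
    exact_mod_cast this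
  exact div_nonpos_of_nonpos_of_nonneg (by linarith only [hy, h2]) h1.le

theorem Hb_of_ge (hΩ : 1 ≤ Ω) (p : P) {y : ℝ} (hy : (Mv.start Ω n' Mv.L : ℝ) ≤ y) :
    Mv.Hb Ω n' p y = 0 := by
  unfold Hb
  rw [← Mv.last p, ← Mv.telescope p Mv.L]
  refine Finset.sum_congr rfl fun κ hκ => ?_
  rw [clamp01_of_ge, one_smul]
  have h1 : (0 : ℝ) < Mv.dur Ω κ := by exact_mod_cast Mv.dur_pos hΩ κ
  have h2 : ((Mv.start Ω n' κ : ℝ) + Mv.dur Ω κ) ≤ Mv.start Ω n' Mv.L := by
    have := Mv.start_mono (Ω := Ω) (n' := n') (Finset.mem_range.1 hκ)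
    rw [start_succ] at this
    exact_mod_cast this
  rw [le_div_iff₀ h1]
  linarith only [hy, h2]

theorem Hb_of_mem (hΩ : 1 ≤ Ω) (p : P) {κ : ℕ} (hκ : κ < Mv.L) {y : ℝ}
    (hy0 : (Mv.start Ω n' κ : ℝ) ≤ y) (hy1 : y ≤ Mv.start Ω n' (κ + 1)) :
    Mv.Hb Ω n' p y = (1 - (y - Mv.start Ω n' κ) / Mv.dur Ω κ) • Mv.c κ p
      + ((y - Mv.start Ω n' κ) / Mv.dur Ω κ) • Mv.c (κ + 1) p := by
  have hd : ∀ k, (0 : ℝ) < Mv.dur Ω k := fun k => by exact_mod_cast Mv.dur_pos hΩ k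
  obtain ⟨r, hr⟩ := Nat.exists_eq_add_of_lt hκ
  have hL : Mv.L = κ + 1 + r := by omega
  unfold Hb
  rw [hL, Finset.sum_range_add, Finset.sum_range_succ]
  have h1 : ∑ x ∈ Finset.range κ,
      clamp01 ((y - Mv.start Ω n' x) / Mv.dur Ω x) • (Mv.c (x + 1) p - Mv.c x p)
      = Mv.c κ p := by
    rw [← Mv.telescope p κ]
    refine Finset.sum_congr rfl fun k hk => ?_
    rw [clamp01_of_ge, one_smul]
    have h2 : ((Mv.start Ω n' k : ℝ) + Mv.dur Ω k) ≤ Mv.start Ω n' κ := by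
      have := Mv.start_mono (Ω := Ω) (n' := n') (Finset.mem_range.1 hk)
      rw [start_succ] at this
      exact_mod_cast this
    rw [le_div_iff₀ (hd k)]
    linarith only [hy0, h2]
  have h2 : ∑ x ∈ Finset.range r,
      clamp01 ((y - Mv.start Ω n' (κ + 1 + x)) / Mv.dur Ω (κ + 1 + x)) •
        (Mv.c (κ + 1 + x + 1) p - Mv.c (κ + 1 + x) p) = 0 := by
    refine Finset.sum_eq_zero fun k _ => ?_
    rw [clamp01_of_le, zero_smul]
    have h3 : (Mv.start Ω n' (κ + 1) : ℝ) ≤ Mv.start Ω n' (κ + 1 + k) := by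
      exact_mod_cast Mv.start_mono (Nat.le_add_right _ _)
    exact div_nonpos_of_nonpos_of_nonneg (by linarith only [hy1, h3]) (hd _).le
  rw [h1, h2, clamp01_of_mem, add_zero, sub_smul, one_smul, smul_sub]
  · abel
  · exact div_nonneg (by linarith only [hy0]) (hd κ).le
  · rw [div_le_one (hd κ)]
    have : (Mv.start Ω n' (κ + 1) : ℝ) = Mv.start Ω n' κ + Mv.dur Ω κ := by
      rw [start_succ]; push_cast; ring
    linarith only [hy1, this]

theorem trichotomy (i : ℕ) (K : ℕ) : i + 1 ≤ n' ∨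
    (∃ κ < K, Mv.start Ω n' κ ≤ i ∧ i + 1 ≤ Mv.start Ω n' (κ + 1)) ∨ Mv.start Ω n' K ≤ i := by
  induction K with
  | zero => rw [start_zero]; omega
  | succ K ih =>
    rcases ih with h | ⟨κ, h1, h2⟩ | h
    · exact Or.inl h
    · exact Or.inr (Or.inl ⟨κ, by omega, h2⟩)
    · by_cases hc : Mv.start Ω n' (K + 1) ≤ i
      · exact Or.inr (Or.inr hc)
      · exact Or.inr (Or.inl ⟨K, by omega, h, by omega⟩)

/-- the movie fits in the middle third -/
def Fits (Mv : Movie E P) (Ω n' : ℕ) : Prop :=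
  1 ≤ Ω ∧ 1 ≤ n' ∧ Mv.start Ω n' Mv.L ≤ 2 * n'

variable {Mv}

theorem H_of_Icc (hF : Mv.Fits Ω n') (p : P) (a : ℤ) {y : ℝ} (h0 : (a : ℝ) ≤ y)
    (h1 : y ≤ a + 1) : Mv.H Ω n' p y = Mv.Hb Ω n' p (((3 * n' : ℕ) : ℝ) * (y - a)) := by
  obtain ⟨hΩ, hn, hL⟩ := hF
  unfold H
  rcases h1.lt_or_eq with h | h
  · have : Int.fract y = y - a := by
      rw [Int.fract_eq_iff]
      exact ⟨by linarith only [h0], by linarith only [h], ⟨a, by ring⟩⟩
    rw [this]
  · subst h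
    have h2 : Int.fract ((a : ℝ) + 1) = 0 := by
      rw [Int.fract_eq_iff]
      exact ⟨le_refl _, by norm_num, ⟨a + 1, by push_cast; ring⟩⟩
    rw [h2, mul_zero, Mv.Hb_of_le hΩ p (by positivity)]
    rw [Mv.Hb_of_ge hΩ p]
    have : (Mv.start Ω n' Mv.L : ℝ) ≤ 2 * n' := by exact_mod_cast hL
    push_cast
    have hn0 : (0 : ℝ) ≤ n' := by positivity
    linarith only [this]

/-- description of the profiles on one cell -/
theorem cell_cases (hF : Mv.Fits Ω n') (i : ℤ) :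
    (∀ p, ∀ y ∈ Set.Icc ((i : ℝ) / (3 * n' : ℕ)) (((i : ℝ) + 1) / (3 * n' : ℕ)),
      Mv.H Ω n' p y = 0) ∨
    ∃ κ < Mv.L, ∃ o : ℝ, o ≤ i ∧ (i : ℝ) + 1 ≤ o + Mv.dur Ω κ ∧
      ∀ p, ∀ y ∈ Set.Icc ((i : ℝ) / (3 * n' : ℕ)) (((i : ℝ) + 1) / (3 * n' : ℕ)),
        Mv.H Ω n' p y = (1 - (((3 * n' : ℕ) : ℝ) * y - o) / Mv.dur Ω κ) • Mv.c κ p
          + ((((3 * n' : ℕ) : ℝ) * y - o) / Mv.dur Ω κ) • Mv.c (κ + 1) p := by
  have hF' := hF
  obtain ⟨hΩ, hn, hL⟩ := hF
  have hnpos : (0 : ℝ) < ((3 * n' : ℕ) : ℝ) := by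
    have : 0 < 3 * n' := by omega
    exact_mod_cast this
  set n : ℕ := 3 * n' with hndef
  have hnZ : (0 : ℤ) < n := by exact_mod_cast (by exact_mod_cast hnpos : (0 : ℕ) < n)
  set a : ℤ := i / n with ha
  obtain ⟨i', hi'⟩ : ∃ i' : ℕ, (i' : ℤ) = i % n :=
    ⟨(i % n).toNat, Int.toNat_of_nonneg (Int.emod_nonneg _ hnZ.ne')⟩
  have hidecomp : (i : ℝ) = n * a + i' := by
    have : i = n * a + i' := by rw [hi', ha]; exact (Int.mul_ediv_add_emod i n).symm
    rw [this]; push_cast; ring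
  have hi'lt : (i' : ℤ) < n := by rw [hi']; exact Int.emod_lt_of_pos _ hnZ
  have hi'le : (i' : ℝ) + 1 ≤ n := by
    have : i' + 1 ≤ n := by exact_mod_cast hi'lt
    exact_mod_cast this
  have hi'0 : (0 : ℝ) ≤ i' := by (clear * -; positivity)
  have hcell : ∀ y ∈ Set.Icc ((i : ℝ) / n) (((i : ℝ) + 1) / n),
      (i' : ℝ) ≤ n * (y - a) ∧ n * (y - a) ≤ (i' : ℝ) + 1 ∧ (a : ℝ) ≤ y ∧ y ≤ a + 1 := by
    rintro y ⟨h1, h2⟩
    rw [div_le_iff₀ hnpos] at h1
    rw [le_div_iff₀ hnpos] at h2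
    refine ⟨by linarith only [hidecomp, h1], by linarith only [hidecomp, h2], ?_, ?_⟩
    · have : n * (a : ℝ) ≤ n * y := by linarith only [hidecomp, h1]
      exact le_of_mul_le_mul_left this hnpos
    · have : n * y ≤ n * ((a : ℝ) + 1) := by linarith only [hidecomp, hi'le, h2]
      exact le_of_mul_le_mul_left this hnpos
  have hH : ∀ p, ∀ y ∈ Set.Icc ((i : ℝ) / n) (((i : ℝ) + 1) / n),
      Mv.H Ω n' p y = Mv.Hb Ω n' p ((n : ℝ) * (y - a)) := by
    intro p y hy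
    obtain ⟨_, _, h3, h4⟩ := hcell y hy
    exact H_of_Icc hF' p a h3 h4
  rcases Mv.trichotomy (Ω := Ω) (n' := n') i' Mv.L with h | ⟨κ, hκ, h1, h2⟩ | h
  · left
    intro p y hy
    rw [hH p y hy]
    have hle : ((i' : ℝ) + 1) ≤ n' := by exact_mod_cast h
    exact Mv.Hb_of_le hΩ p ((hcell y hy).2.1.trans hle)
  · right
    have h1' : (Mv.start Ω n' κ : ℝ) ≤ i' := by exact_mod_cast h1
    have h2' : (i' : ℝ) + 1 ≤ Mv.start Ω n' (κ + 1) := by exact_mod_cast h2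
    have h3 : (Mv.start Ω n' (κ + 1) : ℝ) = Mv.start Ω n' κ + Mv.dur Ω κ := by
      rw [start_succ]; push_cast; ring
    refine ⟨κ, hκ, n * a + Mv.start Ω n' κ, by linarith only [hidecomp, h1'], by linarith only [hidecomp, h2', h3], ?_⟩
    intro p y hy
    rw [hH p y hy, Mv.Hb_of_mem hΩ p hκ (h1'.trans (hcell y hy).1) ((hcell y hy).2.1.trans h2')]
    have : (n : ℝ) * (y - a) - Mv.start Ω n' κ = n * y - (n * a + Mv.start Ω n' κ) := by ring
    rw [this]
  · left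
    intro p y hy
    rw [hH p y hy]
    have hle : (Mv.start Ω n' Mv.L : ℝ) ≤ i' := by exact_mod_cast h
    exact Mv.Hb_of_ge hΩ p (hle.trans (hcell y hy).1)

theorem H_per (p : P) (y : ℝ) (k : ℤ) : Mv.H Ω n' p (y + k) = Mv.H Ω n' p y := by
  unfold H
  rw [Int.fract_add_intCast]

theorem H_zero (hF : Mv.Fits Ω n') (p : P) (y : ℝ) (k : ℤ) (h : |y - k| ≤ 1 / 3) :
    Mv.H Ω n' p y = 0 := by
  have h' := abs_le.1 h
  have hF' := hF
  obtain ⟨hΩ, hn, hL⟩ := hF
  have hn0 : (1 : ℝ) ≤ n' := by exact_mod_cast hn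
  rcases le_total (k : ℝ) y with hk | hk
  · rw [H_of_Icc hF' p k hk (by linarith only [h'])]
    refine Mv.Hb_of_le hΩ p ?_
    push_cast
    nlinarith only [h']
  · rw [H_of_Icc hF' p (k - 1) (by push_cast; linarith only [h']) (by push_cast; linarith only [hk])]
    refine Mv.Hb_of_ge hΩ p ?_
    have : (Mv.start Ω n' Mv.L : ℝ) ≤ 2 * n' := by exact_mod_cast hL
    push_cast
    nlinarith only [this, h']

/-- for `y` in a cell, the weight lies in `[0,1]` -/
theorem weight_mem {n : ℕ} (hn : (0 : ℝ) < n) {i : ℤ} {o d y : ℝ} (hd : 0 < d) (ho : o ≤ i)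
    (ho' : (i : ℝ) + 1 ≤ o + d) (hy : y ∈ Set.Icc ((i : ℝ) / n) (((i : ℝ) + 1) / n)) :
    0 ≤ ((n : ℝ) * y - o) / d ∧ ((n : ℝ) * y - o) / d ≤ 1 := by
  obtain ⟨h1, h2⟩ := hy
  rw [div_le_iff₀ hn] at h1
  rw [le_div_iff₀ hn] at h2
  exact ⟨div_nonneg (by linarith) hd.le, by rw [div_le_one hd]; linarith⟩

theorem isPlay (hF : Mv.Fits Ω n') {μ₀ v : ℝ}
    (hμ : ∀ κ ≤ Mv.L, ∀ p p', Mv.c κ p ≠ Mv.c κ p' → μ₀ ≤ ‖Mv.c κ p - Mv.c κ p'‖)
    (hv : ∀ κ < Mv.L, v * Mv.dur Ω κ ≤ μ₀ * (3 * n' : ℕ)) :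
    IsPlay (3 * n') v (6 * (3 * n' : ℕ)) covC (Mv.H Ω n') := by
  have hF' := hF
  obtain ⟨hΩ, hn, hL⟩ := hF
  have hnpos : (0 : ℝ) < ((3 * n' : ℕ) : ℝ) := by
    have : 0 < 3 * n' := by omega
    exact_mod_cast this
  have hd : ∀ k, (0 : ℝ) < Mv.dur Ω k := fun k => by exact_mod_cast Mv.dur_pos hΩ k
  have hd1 : ∀ k, (1 : ℝ) ≤ Mv.dur Ω k := fun k => by exact_mod_cast Mv.dur_pos hΩ k
  have hmemcell : ∀ y : ℝ, ∃ i : ℤ,
      y ∈ Set.Icc ((i : ℝ) / (3 * n' : ℕ)) (((i : ℝ) + 1) / (3 * n' : ℕ)) := by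
    intro y
    refine ⟨⌊((3 * n' : ℕ) : ℝ) * y⌋, ?_, ?_⟩
    · rw [div_le_iff₀ hnpos, mul_comm y]
      exact Int.floor_le _
    · rw [le_div_iff₀ hnpos, mul_comm y]
      exact (Int.lt_floor_add_one _).le
  refine ⟨fun p y k => H_per p y k, fun p y k h => H_zero hF' p y k h.le, ?_, ?_, ?_, ?_, ?_⟩
  · -- bound
    intro p y
    obtain ⟨i, hi⟩ := hmemcell y
    rcases cell_cases hF' i with h | ⟨κ, hκ, o, ho, ho', h⟩
    · rw [h p y hi]; simp only [norm_zero, Nat.ofNat_nonneg]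
    · rw [h p y hi]
      obtain ⟨h0, h1⟩ := weight_mem hnpos (hd κ) ho ho' hi
      refine (norm_add_le _ _).trans ?_
      rw [norm_smul, norm_smul, Real.norm_of_nonneg (by linarith only [h1]), Real.norm_of_nonneg h0]
      have a1 := Mv.bound κ p
      have a2 := Mv.bound (κ + 1) p
      nlinarith only [h0, a2, h1, a1]
  · -- affine
    intro p i
    rcases cell_cases hF' i with h | ⟨κ, hκ, o, ho, ho', h⟩
    · exact ⟨0, 0, fun y hy => by rw [h p y hy]; simp only [smul_zero, add_zero]⟩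
    · refine ⟨(1 + o / Mv.dur Ω κ) • Mv.c κ p - (o / Mv.dur Ω κ) • Mv.c (κ + 1) p,
        (((3 * n' : ℕ) : ℝ) / Mv.dur Ω κ) • (Mv.c (κ + 1) p - Mv.c κ p), ?_⟩
      intro y hy
      rw [h p y hy]
      module
  · -- separation
    intro p p' i
    rcases cell_cases hF' i with h | ⟨κ, hκ, o, ho, ho', h⟩
    · left; intro y hy; rw [h p y hy, h p' y hy]
    · by_cases hab : Mv.c κ p = Mv.c κ p' ∧ Mv.c (κ + 1) p = Mv.c (κ + 1) p'
      · left; intro y hy; rw [h p y hy, h p' y hy, hab.1, hab.2]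
      · right
        intro y hy
        obtain ⟨h0, h1⟩ := weight_mem hnpos (hd κ) ho ho' hy
        rw [h p y hy, h p' y hy]
        have hin := Mv.inner_nonneg κ hκ p p'
        set a := Mv.c κ p - Mv.c κ p' with ha
        set b := Mv.c (κ + 1) p - Mv.c (κ + 1) p' with hb
        set τ := (((3 * n' : ℕ) : ℝ) * y - o) / Mv.dur Ω κ with hτ
        have hdiff : (1 - τ) • Mv.c κ p + τ • Mv.c (κ + 1) p
            - ((1 - τ) • Mv.c κ p' + τ • Mv.c (κ + 1) p') = (1 - τ) • a + τ • b := by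
          rw [ha, hb]; module
        rw [hdiff]
        have hsq : ‖(1 - τ) • a + τ • b‖ ^ 2
            = ((1 - τ) * ‖a‖) ^ 2 + 2 * ((1 - τ) * τ * ⟪a, b⟫) + (τ * ‖b‖) ^ 2 := by
          rw [norm_add_sq_real, norm_smul, norm_smul, real_inner_smul_left,
            real_inner_smul_right, Real.norm_of_nonneg (by linarith only [h1]), Real.norm_of_nonneg h0]
          ring
        have hcross : 0 ≤ (1 - τ) * τ * ⟪a, b⟫ :=
          mul_nonneg (mul_nonneg (by linarith only [h1]) h0) hin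
        set mm := min (y - (i : ℝ) / (3 * n' : ℕ)) (((i : ℝ) + 1) / (3 * n' : ℕ) - y) with hmm
        have hmm0 : 0 ≤ mm := le_min (by linarith only [hy.1]) (by linarith only [hy.2])
        have hm1 : ((3 * n' : ℕ) : ℝ) * mm ≤ ((3 * n' : ℕ) : ℝ) * y - i := by
          have := mul_le_mul_of_nonneg_left
            (min_le_left (y - (i : ℝ) / (3 * n' : ℕ)) (((i : ℝ) + 1) / (3 * n' : ℕ) - y)) hnpos.le
          rw [← hmm] at this
          calc _ ≤ _ := this
            _ = _ := by (clear * - hn; field_simp)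
        have hm2 : ((3 * n' : ℕ) : ℝ) * mm ≤ i + 1 - ((3 * n' : ℕ) : ℝ) * y := by
          have := mul_le_mul_of_nonneg_left
            (min_le_right (y - (i : ℝ) / (3 * n' : ℕ)) (((i : ℝ) + 1) / (3 * n' : ℕ) - y)) hnpos.le
          rw [← hmm] at this
          calc _ ≤ _ := this
            _ = _ := by (clear * - hn; field_simp)
        have hτ1 : ((3 * n' : ℕ) : ℝ) * mm / Mv.dur Ω κ ≤ τ := by
          rw [hτ]; gcongr; linarith only [ho, hm1]
        have hτ2 : ((3 * n' : ℕ) : ℝ) * mm / Mv.dur Ω κ ≤ 1 - τ := by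
          rw [hτ, div_le_iff₀ (hd κ), sub_mul, div_mul_cancel₀ _ (hd κ).ne']
          linarith only [ho', hm2]
        have hv' : v * mm ≤ ((3 * n' : ℕ) : ℝ) * mm / Mv.dur Ω κ * μ₀ := by
          rw [div_mul_eq_mul_div, le_div_iff₀ (hd κ)]
          have := mul_le_mul_of_nonneg_right (hv κ hκ) hmm0
          nlinarith only [this]
        have hu0 : 0 ≤ ((3 * n' : ℕ) : ℝ) * mm / Mv.dur Ω κ :=
          div_nonneg (mul_nonneg hnpos.le hmm0) (hd κ).le
        have hab' : Mv.c κ p ≠ Mv.c κ p' ∨ Mv.c (κ + 1) p ≠ Mv.c (κ + 1) p' := by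
          by_contra hcon
          push Not at hcon
          exact hab hcon
        rcases hab' with hne | hne
        · have hμa : μ₀ ≤ ‖a‖ := hμ κ hκ.le p p' hne
          have h5 : ((3 * n' : ℕ) : ℝ) * mm / Mv.dur Ω κ * μ₀ ≤ (1 - τ) * ‖a‖ :=
            (mul_le_mul_of_nonneg_left hμa hu0).trans
              (mul_le_mul_of_nonneg_right hτ2 (norm_nonneg _))
          have h6 : (1 - τ) * ‖a‖ ≤ ‖(1 - τ) • a + τ • b‖ := by
            refine abs_le_of_sq_le_sq' ?_ (norm_nonneg _) |>.2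
            rw [hsq]; nlinarith only [hcross]
          linarith only [hv', h5, h6]
        · have hμb : μ₀ ≤ ‖b‖ := hμ (κ + 1) hκ p p' hne
          have h5 : ((3 * n' : ℕ) : ℝ) * mm / Mv.dur Ω κ * μ₀ ≤ τ * ‖b‖ :=
            (mul_le_mul_of_nonneg_left hμb hu0).trans
              (mul_le_mul_of_nonneg_right hτ1 (norm_nonneg _))
          have h6 : τ * ‖b‖ ≤ ‖(1 - τ) • a + τ • b‖ := by
            refine abs_le_of_sq_le_sq' ?_ (norm_nonneg _) |>.2
            rw [hsq]; nlinarith only [hcross]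
          linarith only [hv', h5, h6]
  · -- Lipschitz
    intro p i y hy y' hy'
    rcases cell_cases hF' i with h | ⟨κ, hκ, o, ho, ho', h⟩
    · rw [h p y hy, h p y' hy']; simp only [sub_self, norm_zero, Nat.cast_mul, Nat.cast_ofNat]; (clear * - hn; positivity)
    · rw [h p y hy, h p y' hy']
      have hdiff : (1 - (((3 * n' : ℕ) : ℝ) * y - o) / Mv.dur Ω κ) • Mv.c κ p
          + ((((3 * n' : ℕ) : ℝ) * y - o) / Mv.dur Ω κ) • Mv.c (κ + 1) p
          - ((1 - (((3 * n' : ℕ) : ℝ) * y' - o) / Mv.dur Ω κ) • Mv.c κ p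
          + ((((3 * n' : ℕ) : ℝ) * y' - o) / Mv.dur Ω κ) • Mv.c (κ + 1) p)
          = (((3 * n' : ℕ) : ℝ) * (y - y') / Mv.dur Ω κ) • (Mv.c (κ + 1) p - Mv.c κ p) := by
        module
      rw [hdiff, norm_smul]
      have h6 : ‖Mv.c (κ + 1) p - Mv.c κ p‖ ≤ 6 := by
        refine (norm_sub_le _ _).trans ?_
        linarith only [Mv.bound κ p, Mv.bound (κ + 1) p]
      have h7 : ‖((3 * n' : ℕ) : ℝ) * (y - y') / Mv.dur Ω κ‖ ≤ ((3 * n' : ℕ) : ℝ) * |y - y'| := by
        rw [norm_div, norm_mul, Real.norm_eq_abs, Real.norm_eq_abs, Real.norm_eq_abs,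
          abs_of_pos hnpos, abs_of_pos (hd κ)]
        exact div_le_self (by (clear * - hn; positivity)) (hd1 κ)
      calc _ ≤ ((3 * n' : ℕ) : ℝ) * |y - y'| * 6 :=
            mul_le_mul h7 h6 (norm_nonneg _) (by (clear * - hn; positivity))
        _ = _ := by ring
  · -- covering
    intro y z R hR
    obtain ⟨i, hi⟩ := hmemcell y
    rcases cell_cases hF' i with h | ⟨κ, hκ, o, ho, ho', h⟩
    · refine ⟨fun _ => ⟨0, by simp only [covC, Nat.ofNat_pos]⟩, fun p p' _ _ _ => ?_⟩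
      rw [h p y hi, h p' y hi]
      simp only [sub_self, norm_zero]; positivity
    · obtain ⟨h0, h1⟩ := weight_mem hnpos (hd κ) ho ho' hi
      obtain ⟨cls, hcls⟩ := Mv.cov κ hκ _ h0 h1 z R hR
      refine ⟨cls, fun p p' hp hp' hpp => ?_⟩
      rw [h p y hi] at hp ⊢
      rw [h p' y hi] at hp' ⊢
      exact hcls p p' hp hp' hpp

/-- positive lower bound for the nonzero keyframe distances -/
theorem exists_mu (Mv : Movie E P) [Finite P] : ∃ μ₀ : ℝ, 0 < μ₀ ∧
    ∀ κ ≤ Mv.L, ∀ p p', Mv.c κ p ≠ Mv.c κ p' → μ₀ ≤ ‖Mv.c κ p - Mv.c κ p'‖ := by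
  classical
  have : Nonempty P := ⟨Mv.p0⟩
  set g : Fin (Mv.L + 1) × P × P → ℝ := fun x =>
    if Mv.c x.1 x.2.1 = Mv.c x.1 x.2.2 then 1 else ‖Mv.c x.1 x.2.1 - Mv.c x.1 x.2.2‖ with hg
  have hpos : ∀ x, 0 < g x := by
    intro x
    simp only [hg]
    split_ifs with h
    · norm_num
    · exact norm_pos_iff.2 (sub_ne_zero.2 h)
  obtain ⟨x₀, hx₀⟩ := Finite.exists_min g
  refine ⟨g x₀, hpos x₀, fun κ hκ p p' hne => ?_⟩
  have := hx₀ (⟨κ, Nat.lt_succ_of_le hκ⟩, p, p')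
  simpa only [hg, ge_iff_le, hne, ↓reduceIte] using this

/-- **D2.** For all large `n'` the profiles playing the movie satisfy `IsPlay`. -/
theorem exists_isPlay (Mv : Movie E P) [Finite P] {Ω : ℕ} (hΩ : 1 ≤ Ω) :
    ∃ N : ℕ, ∀ n' : ℕ, N ≤ n' → Mv.Fits Ω n' ∧
      IsPlay (3 * n') 3600 (6 * (3 * n' : ℕ)) covC (Mv.H Ω n') := by
  obtain ⟨μ₀, hμ₀, hμ⟩ := Mv.exists_mu
  set S : ℕ := ∑ k ∈ Finset.range Mv.L, Mv.dur Ω k with hS
  obtain ⟨N, hN⟩ := exists_nat_ge (3600 * (S : ℝ) / μ₀)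
  refine ⟨max (max N S) 1, fun n' hn' => ?_⟩
  have hF : Mv.Fits Ω n' := by
    refine ⟨hΩ, (le_max_right _ _).trans hn', ?_⟩
    have : S ≤ n' := ((le_max_right N S).trans (le_max_left _ _)).trans hn'
    unfold start
    omega
  refine ⟨hF, isPlay hF hμ fun κ hκ => ?_⟩
  have h1 : (Mv.dur Ω κ : ℝ) ≤ S := by
    have : Mv.dur Ω κ ≤ S :=
      Finset.single_le_sum (f := fun k => Mv.dur Ω k) (fun _ _ => Nat.zero_le _)
        (Finset.mem_range.2 hκ)
    exact_mod_cast this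
  have h2 : 3600 * (S : ℝ) ≤ N * μ₀ := (div_le_iff₀ hμ₀).1 hN
  have h3 : (N : ℝ) ≤ n' := by
    exact_mod_cast ((le_max_left N S).trans (le_max_left _ _)).trans hn'
  push_cast
  have h4 : (0 : ℝ) ≤ n' := by (clear * -; positivity)
  nlinarith only [h1, h2, hμ₀, h3]

/-- values of the profile at the integer times inside a transition -/
theorem H_value (hF : Mv.Fits Ω n') (p : P) {κ : ℕ} (hκ : κ < Mv.L) {i : ℕ}
    (hi : i ≤ Mv.dur Ω κ) :
    Mv.H Ω n' p (((Mv.start Ω n' κ + i : ℕ) : ℝ) / (3 * n' : ℕ))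
      = Mv.c κ p + ((i : ℝ) / Mv.dur Ω κ) • (Mv.c (κ + 1) p - Mv.c κ p) := by
  have hF' := hF
  obtain ⟨hΩ, hn, hL⟩ := hF
  have hnpos : (0 : ℝ) < ((3 * n' : ℕ) : ℝ) := by
    have : 0 < 3 * n' := by omega
    exact_mod_cast this
  have h1 : Mv.start Ω n' κ + i ≤ Mv.start Ω n' (κ + 1) := by rw [start_succ]; omega
  have h2 : Mv.start Ω n' (κ + 1) ≤ Mv.start Ω n' Mv.L := Mv.start_mono hκ
  have h3 : ((Mv.start Ω n' κ + i : ℕ) : ℝ) / (3 * n' : ℕ) ≤ 1 := by
    rw [div_le_one hnpos]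
    exact_mod_cast (by (clear * - hL h1 h2; omega) : Mv.start Ω n' κ + i ≤ 3 * n')
  rw [H_of_Icc hF' p 0 (by push_cast; positivity) (by push_cast at h3 ⊢; linarith only [h3])]
  rw [Int.cast_zero, sub_zero, mul_div_cancel₀ _ hnpos.ne']
  rw [Mv.Hb_of_mem hΩ p hκ (by exact_mod_cast Nat.le_add_right _ _) (by exact_mod_cast h1)]
  have h4 : ((Mv.start Ω n' κ + i : ℕ) : ℝ) - Mv.start Ω n' κ = i := by push_cast; ring
  rw [h4]
  module

/-- before the movie starts and after it ends, the profile is zero -/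
theorem H_value_zero (hF : Mv.Fits Ω n') (p : P) {i : ℕ} (hi : i ≤ 3 * n')
    (h : i ≤ n' ∨ Mv.start Ω n' Mv.L ≤ i) : Mv.H Ω n' p ((i : ℝ) / (3 * n' : ℕ)) = 0 := by
  have hF' := hF
  obtain ⟨hΩ, hn, hL⟩ := hF
  have hnpos : (0 : ℝ) < ((3 * n' : ℕ) : ℝ) := by
    have : 0 < 3 * n' := by omega
    exact_mod_cast this
  have h3 : (i : ℝ) / (3 * n' : ℕ) ≤ 1 := by
    rw [div_le_one hnpos]
    exact_mod_cast hi
  rw [H_of_Icc hF' p 0 (by push_cast; positivity) (by push_cast at h3 ⊢; linarith only [h3])]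
  rw [Int.cast_zero, sub_zero, mul_div_cancel₀ _ hnpos.ne']
  rcases h with h | h
  · exact Mv.Hb_of_le hΩ p (by exact_mod_cast h)
  · exact Mv.Hb_of_ge hΩ p (by exact_mod_cast h)

/-- splitting sums over the cells of the movie -/
theorem sum_Ico_start (φ : ℕ → ℝ) (K : ℕ) :
    ∑ i ∈ Finset.Ico n' (Mv.start Ω n' K), φ i
      = ∑ κ ∈ Finset.range K, ∑ i ∈ Finset.range (Mv.dur Ω κ), φ (Mv.start Ω n' κ + i) := by
  induction K with
  | zero => simp [start_zero]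
  | succ K ih =>
    rw [Finset.sum_range_succ, ← ih,
      ← Finset.sum_Ico_consecutive φ (m := n') (n := Mv.start Ω n' K)
        (k := Mv.start Ω n' (K + 1)) _ (Mv.start_mono (Nat.le_succ K))]
    · congr 1
      rw [start_succ, Finset.sum_Ico_eq_sum_range, Nat.add_sub_cancel_left]
    · have := Mv.start_mono (Ω := Ω) (n' := n') (Nat.zero_le K)
      rwa [start_zero] at this

/-- energy of a play -/
theorem sum_DH (hF : Mv.Fits Ω n') (p : P) :
    ∑ i ∈ Finset.range (3 * n'), ‖Mv.H Ω n' p (((i + 1 : ℕ) : ℝ) / (3 * n' : ℕ))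
        - Mv.H Ω n' p ((i : ℝ) / (3 * n' : ℕ))‖ ^ 2
      = ∑ κ ∈ Finset.range Mv.L, ‖Mv.c (κ + 1) p - Mv.c κ p‖ ^ 2 / Mv.dur Ω κ := by
  have hF' := hF
  obtain ⟨hΩ, hn, hL⟩ := hF
  have hd : ∀ k, (0 : ℝ) < Mv.dur Ω k := fun k => by exact_mod_cast Mv.dur_pos hΩ k
  have hS0 : n' ≤ Mv.start Ω n' Mv.L := by
    have := Mv.start_mono (Ω := Ω) (n' := n') (Nat.zero_le Mv.L)
    rwa [start_zero] at this
  set φ : ℕ → ℝ := fun i => ‖Mv.H Ω n' p (((i + 1 : ℕ) : ℝ) / (3 * n' : ℕ))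
        - Mv.H Ω n' p ((i : ℝ) / (3 * n' : ℕ))‖ ^ 2 with hφ
  have hsplit : ∑ i ∈ Finset.range (3 * n'), φ i
      = ∑ i ∈ Finset.Ico n' (Mv.start Ω n' Mv.L), φ i := by
    rw [Finset.range_eq_Ico, ← Finset.sum_Ico_consecutive φ (Nat.zero_le n') (by omega : n' ≤ 3 * n'),
      ← Finset.sum_Ico_consecutive φ hS0 (by omega : Mv.start Ω n' Mv.L ≤ 3 * n')]
    have h1 : ∑ i ∈ Finset.Ico 0 n', φ i = 0 := by
      refine Finset.sum_eq_zero fun i hi => ?_
      have := Finset.mem_Ico.1 hi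
      simp only [hφ]
      rw [H_value_zero hF' p (by omega) (Or.inl (by omega)),
        H_value_zero hF' p (by omega) (Or.inl (by omega))]
      simp
    have h2 : ∑ i ∈ Finset.Ico (Mv.start Ω n' Mv.L) (3 * n'), φ i = 0 := by
      refine Finset.sum_eq_zero fun i hi => ?_
      have := Finset.mem_Ico.1 hi
      simp only [hφ]
      rw [H_value_zero hF' p (by omega) (Or.inr (by omega)),
        H_value_zero hF' p (by (clear * - this; omega)) (Or.inr (by omega))]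
      simp
    rw [h1, h2]; ring
  rw [hsplit, sum_Ico_start]
  refine Finset.sum_congr rfl fun κ hκ => ?_
  have hκ' := Finset.mem_range.1 hκ
  have : ∀ i ∈ Finset.range (Mv.dur Ω κ), φ (Mv.start Ω n' κ + i)
      = ‖Mv.c (κ + 1) p - Mv.c κ p‖ ^ 2 / (Mv.dur Ω κ) ^ 2 := by
    intro i hi
    have hi' := Finset.mem_range.1 hi
    simp only [hφ]
    rw [H_value hF' p hκ' (by omega : i ≤ _), add_assoc,
      H_value hF' p hκ' (by omega : i + 1 ≤ _)]
    have h5 : Mv.c κ p + (((i + 1 : ℕ) : ℝ) / Mv.dur Ω κ) • (Mv.c (κ + 1) p - Mv.c κ p)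
        - (Mv.c κ p + ((i : ℝ) / Mv.dur Ω κ) • (Mv.c (κ + 1) p - Mv.c κ p))
        = (1 / (Mv.dur Ω κ : ℝ)) • (Mv.c (κ + 1) p - Mv.c κ p) := by
      push_cast
      module
    rw [h5, norm_smul, mul_pow, Real.norm_of_nonneg (by (clear * -; positivity)), div_pow, one_pow]
    ring
  rw [Finset.sum_congr rfl this, Finset.sum_const, Finset.card_range, nsmul_eq_mul]
  have := (hd κ).ne'
  field_simp

/-- Cauchy-Schwarz for an arbitrary discrete path -/
theorem sum_Dg_ge {F : Type*} [NormedAddCommGroup F] [NormedSpace ℝ F] (hF : Mv.Fits Ω n')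
    (g : ℕ → F) :
    ∑ κ ∈ Finset.range Mv.L, ‖g (Mv.start Ω n' (κ + 1)) - g (Mv.start Ω n' κ)‖ ^ 2 / Mv.dur Ω κ
      ≤ ∑ i ∈ Finset.range (3 * n'), ‖g (i + 1) - g i‖ ^ 2 := by
  have hF' := hF
  obtain ⟨hΩ, hn, hL⟩ := hF
  have hd : ∀ k, (0 : ℝ) < Mv.dur Ω k := fun k => by exact_mod_cast Mv.dur_pos hΩ k
  have hsub : ∑ i ∈ Finset.Ico n' (Mv.start Ω n' Mv.L), ‖g (i + 1) - g i‖ ^ 2
      ≤ ∑ i ∈ Finset.range (3 * n'), ‖g (i + 1) - g i‖ ^ 2 := by
    refine Finset.sum_le_sum_of_subset_of_nonneg ?_ (fun _ _ _ => sq_nonneg _)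
    intro i hi
    have := Finset.mem_Ico.1 hi
    exact Finset.mem_range.2 (by omega)
  refine le_trans ?_ hsub
  rw [sum_Ico_start (fun i => ‖g (i + 1) - g i‖ ^ 2)]
  refine Finset.sum_le_sum fun κ _ => ?_
  rw [div_le_iff₀ (hd κ)]
  have htel : g (Mv.start Ω n' (κ + 1)) - g (Mv.start Ω n' κ)
      = ∑ i ∈ Finset.range (Mv.dur Ω κ), (g (Mv.start Ω n' κ + i + 1) - g (Mv.start Ω n' κ + i)) := by
    have := Finset.sum_range_sub (fun i => g (Mv.start Ω n' κ + i)) (Mv.dur Ω κ)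
    simp only [add_zero] at this
    rw [start_succ, ← this]
    rfl
  rw [htel]
  have h1 : ‖∑ i ∈ Finset.range (Mv.dur Ω κ),
      (g (Mv.start Ω n' κ + i + 1) - g (Mv.start Ω n' κ + i))‖
      ≤ ∑ i ∈ Finset.range (Mv.dur Ω κ),
        ‖g (Mv.start Ω n' κ + i + 1) - g (Mv.start Ω n' κ + i)‖ := norm_sum_le _ _
  have h2 := sq_sum_le_card_mul_sum_sq (s := Finset.range (Mv.dur Ω κ))
    (f := fun i => ‖g (Mv.start Ω n' κ + i + 1) - g (Mv.start Ω n' κ + i)‖)
  rw [Finset.card_range] at h2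
  calc _ ≤ (∑ i ∈ Finset.range (Mv.dur Ω κ),
        ‖g (Mv.start Ω n' κ + i + 1) - g (Mv.start Ω n' κ + i)‖) ^ 2 := by gcongr
    _ ≤ _ := h2
    _ = _ := by ring

end Movie

end Vale.Agent.P208
end
end

section

section

/-! Part (F) of the time layer: slow transitions and the limit. -/

open scoped BigOperators
open Filter Topology

namespace Vale.Agent.P208

namespace SlowLimit

/-- Increments of a path, Cauchy-Schwarz. -/
lemma norm_sub_sq_le {F : Type*} [NormedAddCommGroup F] (w : ℕ → F) (a D : ℕ) :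
    ‖w (a + D) - w a‖ ^ 2 ≤ D * ∑ u ∈ Finset.Ico a (a + D), ‖w (u + 1) - w u‖ ^ 2 := by
  have h1 : w (a + D) - w a = ∑ u ∈ Finset.Ico a (a + D), (w (u + 1) - w u) :=
    (Finset.sum_Ico_sub w (Nat.le_add_right a D)).symm
  rw [h1]
  calc ‖∑ u ∈ Finset.Ico a (a + D), (w (u + 1) - w u)‖ ^ 2
      ≤ (∑ u ∈ Finset.Ico a (a + D), ‖w (u + 1) - w u‖) ^ 2 :=
        pow_le_pow_left₀ (norm_nonneg _) (norm_sum_le _ _) 2
    _ ≤ (Finset.Ico a (a + D)).card * ∑ u ∈ Finset.Ico a (a + D), ‖w (u + 1) - w u‖ ^ 2 :=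
        sq_sum_le_card_mul_sum_sq
    _ = _ := by rw [Nat.card_Ico, Nat.add_sub_cancel_left]

/-- Sums over consecutive blocks. -/
lemma sum_blocks (φ : ℕ → ℝ) (st D : ℕ → ℕ) (L : ℕ) (hst : ∀ k < L, st (k + 1) = st k + D k) :
    st 0 ≤ st L ∧ ∑ i ∈ Finset.Ico (st 0) (st L), φ i =
      ∑ k ∈ Finset.range L, ∑ i ∈ Finset.Ico (st k) (st k + D k), φ i := by
  induction L with
  | zero => simp only [Std.le_refl, Finset.Ico_eq_empty_of_le, Finset.sum_empty, Finset.range_zero, and_self]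
  | succ L ih =>
    obtain ⟨h1, h2⟩ := ih fun k hk => hst k (by omega)
    have h3 := hst L (by omega)
    refine ⟨by omega, ?_⟩
    rw [Finset.sum_range_succ, ← h2, h3, Finset.sum_Ico_consecutive φ h1 (by omega)]

end SlowLimit

open SlowLimit

variable {E : Type} [NormedAddCommGroup E] [InnerProductSpace ℝ E] {P : Type}

/-- What the time layer provides for a movie played with durations `Ω ^ ht`, up to the error
`θ`. -/
def Movie.Approx (Mv : Movie E P) (F : Type) [NormedAddCommGroup F] (m : ℝ) (Ω : ℕ) (θ : ℝ) :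
    Prop :=
  ∃ (n : ℕ) (st : ℕ → ℕ) (h : P → ℕ → E) (g : P → ℕ → F),
    (∀ k < Mv.L, st (k + 1) = st k + Ω ^ Mv.ht k) ∧ st Mv.L ≤ n ∧
    (∀ p, ∀ i ≤ n, i ≤ st 0 ∨ st Mv.L ≤ i → h p i = 0) ∧
    (∀ p, ∀ k < Mv.L, ∀ i ≤ Ω ^ Mv.ht k,
      h p (st k + i) = Mv.c k p + ((i : ℝ) / (Ω ^ Mv.ht k : ℕ)) • (Mv.c (k + 1) p - Mv.c k p)) ∧
    (∀ p p', ∀ i ≤ n, m * ‖h p i - h p' i‖ ≤ ‖g p i - g p' i‖ ∧
      ‖g p i - g p' i‖ ≤ ‖h p i - h p' i‖) ∧
    ∀ p, ∑ i ∈ Finset.range n, ‖g p (i + 1) - g p i‖ ^ 2 ≤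
      ∑ i ∈ Finset.range n, ‖h p (i + 1) - h p i‖ ^ 2 + θ

/-- Keyframe version of the approximate data. -/
lemma Movie.Approx.keyframes {Mv : Movie E P} {F : Type} [NormedAddCommGroup F] {m : ℝ} {Ω : ℕ}
    (hΩ : 0 < Ω) {θ : ℝ} (hA : Mv.Approx F m Ω θ) :
    ∃ G : ℕ → P → F,
      (∀ k ≤ Mv.L, ∀ p p', m * ‖Mv.c k p - Mv.c k p'‖ ≤ ‖G k p - G k p'‖ ∧
        ‖G k p - G k p'‖ ≤ ‖Mv.c k p - Mv.c k p'‖) ∧
      ∀ p, ∀ k < Mv.L, ‖G (k + 1) p - G k p‖ ^ 2 ≤ (Ω : ℝ) ^ Mv.ht k *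
        (∑ k' ∈ Finset.range Mv.L, ‖Mv.c (k' + 1) p - Mv.c k' p‖ ^ 2 / (Ω : ℝ) ^ Mv.ht k' + θ) := by
  obtain ⟨n, st, h, g, hst, hstn, hz, hh, hgh, hen⟩ := hA
  have hΩR : (0 : ℝ) < Ω := by exact_mod_cast hΩ
  have hst_le : ∀ k ≤ Mv.L, st 0 ≤ st k ∧ st k ≤ st Mv.L := by
    intro k hk
    constructor
    · exact (sum_blocks (fun _ => 0) st (fun k => Ω ^ Mv.ht k) k
        fun k' hk' => hst k' (by omega)).1
    · have : ∀ j, k + j ≤ Mv.L → st k ≤ st (k + j) := by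
        intro j
        induction j with
        | zero => intro _; simp
        | succ j ih =>
          intro hj
          have h1 := ih (by omega)
          have h2 := hst (k + j) (by omega)
          have h3 : k + (j + 1) = k + j + 1 := by ring
          rw [h3, h2]
          omega
      have h4 := this (Mv.L - k) (by omega)
      rwa [Nat.add_sub_cancel' hk] at h4
  have hkey : ∀ k ≤ Mv.L, ∀ p, h p (st k) = Mv.c k p := by
    intro k hk p
    rcases Nat.lt_or_ge k Mv.L with hk' | hk'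
    · have := hh p k hk' 0 (Nat.zero_le _)
      simpa using this
    · have : k = Mv.L := le_antisymm hk hk'
      subst this
      rw [hz p _ hstn (Or.inr le_rfl), Mv.last]
  -- energy of `h`
  have hEh : ∀ p, ∑ i ∈ Finset.range n, ‖h p (i + 1) - h p i‖ ^ 2 =
      ∑ k' ∈ Finset.range Mv.L, ‖Mv.c (k' + 1) p - Mv.c k' p‖ ^ 2 / (Ω : ℝ) ^ Mv.ht k' := by
    intro p
    obtain ⟨h01, hbl⟩ := sum_blocks (fun i => ‖h p (i + 1) - h p i‖ ^ 2) st
      (fun k => Ω ^ Mv.ht k) Mv.L hst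
    have e1 : ∑ i ∈ Finset.range n, ‖h p (i + 1) - h p i‖ ^ 2 =
        ∑ i ∈ Finset.Ico (st 0) (st Mv.L), ‖h p (i + 1) - h p i‖ ^ 2 := by
      symm
      apply Finset.sum_subset
      · intro i hi
        rw [Finset.mem_Ico] at hi
        rw [Finset.mem_range]
        omega
      · intro i hi hi'
        rw [Finset.mem_range] at hi
        rw [Finset.mem_Ico] at hi'
        have h2 : h p (i + 1) = 0 ∧ h p i = 0 := by
          rcases Nat.lt_or_ge i (st 0) with h3 | h3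
          · exact ⟨hz p _ (by omega) (Or.inl (by omega)), hz p _ (by omega) (Or.inl (by omega))⟩
          · exact ⟨hz p _ (by omega) (Or.inr (by omega)), hz p _ (by omega) (Or.inr (by omega))⟩
        rw [h2.1, h2.2]
        simp only [sub_self, norm_zero, ne_eq, OfNat.ofNat_ne_zero, not_false_eq_true, zero_pow]
    rw [e1, hbl]
    refine Finset.sum_congr rfl fun k hk => ?_
    rw [Finset.mem_range] at hk
    have hDpos : (0 : ℝ) < ((Ω ^ Mv.ht k : ℕ) : ℝ) := by push_cast; positivity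
    have e2 : ∀ i ∈ Finset.Ico (st k) (st k + Ω ^ Mv.ht k), ‖h p (i + 1) - h p i‖ ^ 2 =
        ‖Mv.c (k + 1) p - Mv.c k p‖ ^ 2 / ((Ω ^ Mv.ht k : ℕ) : ℝ) ^ 2 := by
      intro i hi
      rw [Finset.mem_Ico] at hi
      obtain ⟨d, rfl⟩ : ∃ d, i = st k + d := ⟨i - st k, by omega⟩
      have h3 := hh p k hk d (by omega)
      have h4 := hh p k hk (d + 1) (by omega)
      rw [← add_assoc] at h4
      rw [h3, h4, add_sub_add_left_eq_sub, ← sub_smul, norm_smul, mul_pow]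
      have h5 : (((d + 1 : ℕ) : ℝ) / ((Ω ^ Mv.ht k : ℕ) : ℝ) - (d : ℝ) / ((Ω ^ Mv.ht k : ℕ) : ℝ)) =
          1 / ((Ω ^ Mv.ht k : ℕ) : ℝ) := by
        push_cast
        field_simp
        ring
      rw [h5, Real.norm_of_nonneg (by positivity), one_div, inv_pow]
      field_simp
    rw [Finset.sum_congr rfl e2, Finset.sum_const, Nat.card_Ico, Nat.add_sub_cancel_left,
      nsmul_eq_mul]
    push_cast at hDpos ⊢
    field_simp
  refine ⟨fun k p => g p (st k), fun k hk p p' => ?_, fun p k hk => ?_⟩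
  · have := hgh p p' (st k) ((hst_le k hk).2.trans hstn)
    rwa [hkey k hk p, hkey k hk p'] at this
  · have h1 := norm_sub_sq_le (g p) (st k) (Ω ^ Mv.ht k)
    rw [← hst k hk] at h1
    refine h1.trans ?_
    push_cast
    refine mul_le_mul_of_nonneg_left ?_ (by positivity)
    refine le_trans ?_ ((hen p).trans_eq (by rw [hEh p]))
    apply Finset.sum_le_sum_of_subset_of_nonneg
    · intro i hi
      rw [Finset.mem_Ico] at hi
      rw [Finset.mem_range]
      have := (hst_le (k + 1) hk).2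
      omega
    · intro i _ _
      (clear * -; positivity)

/-- Part (F): the limit of infinitely slow play. -/
theorem Movie.realized_of_approx [Finite P] (Mv : Movie E P) (F : Type) [NormedAddCommGroup F]
    [InnerProductSpace ℝ F] [FiniteDimensional ℝ F] (m : ℝ) (K : ℕ)
    (hK : ∀ k < Mv.L, Mv.ht k ≤ K)
    (hA : ∀ Ω : ℕ, 0 < Ω → Mv.Approx F m Ω (1 / (Ω : ℝ) ^ (K + 1))) : Mv.Realized F m := by
  classical
  have _ : Fintype P := Fintype.ofFinite P
  have hstep : ∀ k p, ‖Mv.c (k + 1) p - Mv.c k p‖ ^ 2 ≤ 36 := by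
    intro k p
    have h1 : ‖Mv.c (k + 1) p - Mv.c k p‖ ≤ 6 :=
      (norm_sub_le _ _).trans (by linarith [Mv.bound (k + 1) p, Mv.bound k p])
    nlinarith only [h1, norm_nonneg (Mv.c (k + 1) p - Mv.c k p)]
  choose G hGb hGe using fun n : ℕ => (hA (n + 1) (Nat.succ_pos n)).keyframes (Nat.succ_pos n)
  -- frozen strands
  have hslow : ∀ (n : ℕ) (p : P) (k : ℕ), k < Mv.L →
      (∀ κ' < Mv.L, Mv.c κ' p ≠ Mv.c (κ' + 1) p → Mv.ht k < Mv.ht κ') →
      ‖G n (k + 1) p - G n k p‖ ^ 2 ≤ (36 * Mv.L + 1) * (1 / ((n : ℝ) + 1)) := by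
    intro n p k hk hmov
    have h1 := hGe n p k hk
    have hΩ : (1 : ℝ) ≤ ((n + 1 : ℕ) : ℝ) := by push_cast; linarith only []
    have hΩ0 : (0 : ℝ) < ((n + 1 : ℕ) : ℝ) := by linarith only [hΩ]
    set O : ℝ := ((n + 1 : ℕ) : ℝ) with hO
    have h2 : ∀ k' ∈ Finset.range Mv.L, ‖Mv.c (k' + 1) p - Mv.c k' p‖ ^ 2 / O ^ Mv.ht k' ≤
        36 / O ^ (Mv.ht k + 1) := by
      intro k' hk'
      rw [Finset.mem_range] at hk'
      by_cases hm : Mv.c k' p = Mv.c (k' + 1) p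
      · rw [hm, sub_self, norm_zero]
        simp only [ne_eq, OfNat.ofNat_ne_zero, not_false_eq_true, zero_pow, zero_div]
        (clear * -; positivity)
      · have h3 := hmov k' hk' hm
        calc ‖Mv.c (k' + 1) p - Mv.c k' p‖ ^ 2 / O ^ Mv.ht k' ≤ 36 / O ^ Mv.ht k' :=
              div_le_div_of_nonneg_right (hstep k' p) (by positivity)
          _ ≤ 36 / O ^ (Mv.ht k + 1) :=
              div_le_div_of_nonneg_left (by (clear * -; norm_num)) (by positivity)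
                (pow_le_pow_right₀ hΩ (by omega))
    have h4 := Finset.sum_le_sum h2
    rw [Finset.sum_const, Finset.card_range, nsmul_eq_mul] at h4
    have h5 : 1 / O ^ (K + 1) ≤ 1 / O ^ (Mv.ht k + 1) :=
      div_le_div_of_nonneg_left (by norm_num) (by positivity)
        (pow_le_pow_right₀ hΩ (by have := hK k hk; omega))
    have h6 : O ^ Mv.ht k * (∑ k' ∈ Finset.range Mv.L,
        ‖Mv.c (k' + 1) p - Mv.c k' p‖ ^ 2 / O ^ Mv.ht k' + 1 / O ^ (K + 1)) ≤
        O ^ Mv.ht k * (Mv.L * (36 / O ^ (Mv.ht k + 1)) + 1 / O ^ (Mv.ht k + 1)) :=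
      mul_le_mul_of_nonneg_left (by linarith only [h4, h5]) (by (clear * -; positivity))
    refine (h1.trans h6).trans (le_of_eq ?_)
    have h7 : (n : ℝ) + 1 = O := by rw [hO]; push_cast; ring
    rw [h7, pow_succ]
    (clear * - hΩ; field_simp)
  have hslow0 : ∀ (n : ℕ) (k : ℕ), k < Mv.L →
      ‖G n (k + 1) Mv.p0 - G n k Mv.p0‖ ^ 2 ≤ (36 * Mv.L + 1) * (1 / ((n : ℝ) + 1)) := by
    intro n k hk
    apply hslow n Mv.p0 k hk
    intro κ' _ hne
    exact absurd (by rw [Mv.base, Mv.base]) hne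
  -- bounded family
  set R : ℝ := 36 * Mv.L + 1 with hR
  have hR1 : 1 ≤ R := by
    have : (0 : ℝ) ≤ Mv.L := Nat.cast_nonneg _
    linarith
  have hp0 : ∀ n k, k ≤ Mv.L → ‖G n k Mv.p0 - G n 0 Mv.p0‖ ≤ k * R := by
    intro n k
    induction k with
    | zero => intro _; simp only [sub_self, norm_zero, CharP.cast_eq_zero, zero_mul, Std.le_refl]
    | succ k ih =>
      intro hk
      have h1 := ih (by omega)
      have h2 := hslow0 n k (by omega)
      have h3 : ‖G n (k + 1) Mv.p0 - G n k Mv.p0‖ ≤ R := by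
        have h4 : (1 : ℝ) / ((n : ℝ) + 1) ≤ 1 := by
          rw [div_le_one (by positivity)]
          linarith only []
        have h5 : R * (1 / ((n : ℝ) + 1)) ≤ R * R := by nlinarith
        have h6 : ‖G n (k + 1) Mv.p0 - G n k Mv.p0‖ ^ 2 ≤ R ^ 2 := by linarith
        exact (sq_le_sq₀ (norm_nonneg _) (by linarith)).mp h6
      have e : G n (k + 1) Mv.p0 - G n 0 Mv.p0 =
          (G n (k + 1) Mv.p0 - G n k Mv.p0) + (G n k Mv.p0 - G n 0 Mv.p0) := by abel
      rw [e]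
      refine (norm_add_le _ _).trans ?_
      push_cast
      linarith only [h1, h3]
  let x : ℕ → (Fin (Mv.L + 1) → P → F) := fun n k p => G n k p - G n 0 Mv.p0
  have hxb : ∀ n, x n ∈ Metric.closedBall (0 : Fin (Mv.L + 1) → P → F) (Mv.L * R + 6) := by
    intro n
    rw [mem_closedBall_zero_iff, pi_norm_le_iff_of_nonneg (by (clear * -; positivity))]
    intro k
    rw [pi_norm_le_iff_of_nonneg (by (clear * -; positivity))]
    intro p
    have hkL : (k : ℕ) ≤ Mv.L := Nat.lt_succ_iff.mp k.2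
    have h1 := hp0 n k hkL
    have h2 := (hGb n k hkL p Mv.p0).2
    have h3 : ‖Mv.c k p - Mv.c k Mv.p0‖ ≤ 6 :=
      (norm_sub_le _ _).trans (by linarith only [Mv.bound k p, Mv.bound k Mv.p0])
    have e : x n k p = (G n k p - G n k Mv.p0) + (G n k Mv.p0 - G n 0 Mv.p0) := by
      simp only [x]; abel
    rw [e]
    refine (norm_add_le _ _).trans ?_
    have h4 : ((k : ℕ) : ℝ) * R ≤ Mv.L * R := by
      apply mul_le_mul_of_nonneg_right _ (by linarith)
      exact_mod_cast hkL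
    linarith only [h1, h2, h3, h4]
  obtain ⟨a, -, φ, hφ, hlim⟩ := tendsto_subseq_of_bounded
    (Metric.isBounded_closedBall (x := (0 : Fin (Mv.L + 1) → P → F)) (r := Mv.L * R + 6)) hxb
  have hlim' : ∀ (k : Fin (Mv.L + 1)) (p : P),
      Tendsto (fun n => x (φ n) k p) atTop (𝓝 (a k p)) := by
    intro k p
    have h1 := tendsto_pi_nhds.mp (tendsto_pi_nhds.mp hlim k) p
    exact h1
  refine ⟨fun k p => if hk : k < Mv.L + 1 then a ⟨k, hk⟩ p else 0, fun κ hκ p p' => ?_,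
    fun κ hκ p hmov => ?_⟩
  · have hκ1 : κ < Mv.L + 1 := Nat.lt_succ_of_le hκ
    simp only [dif_pos hκ1]
    have h1 : Tendsto (fun n => ‖x (φ n) ⟨κ, Nat.lt_succ_of_le hκ⟩ p -
        x (φ n) ⟨κ, Nat.lt_succ_of_le hκ⟩ p'‖) atTop
        (𝓝 ‖a ⟨κ, Nat.lt_succ_of_le hκ⟩ p - a ⟨κ, Nat.lt_succ_of_le hκ⟩ p'‖) :=
      ((hlim' _ p).sub (hlim' _ p')).norm
    have e : ∀ n, x (φ n) ⟨κ, Nat.lt_succ_of_le hκ⟩ p - x (φ n) ⟨κ, Nat.lt_succ_of_le hκ⟩ p' =
        G (φ n) κ p - G (φ n) κ p' := by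
      intro n; simp only [x]; abel
    constructor
    · refine ge_of_tendsto h1 (Eventually.of_forall fun n => ?_)
      rw [e]
      exact (hGb (φ n) κ hκ p p').1
    · refine le_of_tendsto h1 (Eventually.of_forall fun n => ?_)
      rw [e]
      exact (hGb (φ n) κ hκ p p').2
  · have hκ1 : κ < Mv.L + 1 := Nat.lt_succ_of_lt hκ
    have hκ2 : κ + 1 < Mv.L + 1 := Nat.succ_lt_succ hκ
    simp only [dif_pos hκ1, dif_pos hκ2]
    have h1 : Tendsto (fun n => ‖x (φ n) ⟨κ + 1, Nat.succ_lt_succ hκ⟩ p -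
        x (φ n) ⟨κ, Nat.lt_succ_of_lt hκ⟩ p‖ ^ 2) atTop
        (𝓝 (‖a ⟨κ + 1, Nat.succ_lt_succ hκ⟩ p - a ⟨κ, Nat.lt_succ_of_lt hκ⟩ p‖ ^ 2)) :=
      (((hlim' _ p).sub (hlim' _ p)).norm).pow 2
    have h2 : Tendsto (fun n : ℕ => (36 * (Mv.L : ℝ) + 1) * (1 / ((φ n : ℝ) + 1))) atTop
        (𝓝 ((36 * (Mv.L : ℝ) + 1) * 0)) :=
      (tendsto_one_div_add_atTop_nhds_zero_nat.comp hφ.tendsto_atTop).const_mul _
    rw [mul_zero] at h2
    have h3 : ‖a ⟨κ + 1, Nat.succ_lt_succ hκ⟩ p - a ⟨κ, Nat.lt_succ_of_lt hκ⟩ p‖ ^ 2 ≤ 0 := by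
      refine le_of_tendsto_of_tendsto' h1 h2 fun n => ?_
      have e : x (φ n) ⟨κ + 1, Nat.succ_lt_succ hκ⟩ p - x (φ n) ⟨κ, Nat.lt_succ_of_lt hκ⟩ p =
          G (φ n) (κ + 1) p - G (φ n) κ p := by
        simp only [x]; abel
      rw [e]
      exact hslow (φ n) p κ hκ hmov
    have h4 : ‖a ⟨κ + 1, Nat.succ_lt_succ hκ⟩ p - a ⟨κ, Nat.lt_succ_of_lt hκ⟩ p‖ = 0 := by
      have h5 := norm_nonneg (a ⟨κ + 1, Nat.succ_lt_succ hκ⟩ p - a ⟨κ, Nat.lt_succ_of_lt hκ⟩ p)
      nlinarith only [h3]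
    exact sub_eq_zero.mp (norm_eq_zero.mp h4)

end Vale.Agent.P208
end
end

section

section

/-!
# P208: the time layer, assembled

Every movie is realized by a map into `ℝ^k` if all bounded uniformly doubling finite dimensional
Euclidean sets embed into `ℝ^k` with a fixed distortion.
-/

namespace Vale.Agent.P208

open Finset

/-- The points of the time layer form a bounded set. -/
theorem isBounded_xpt {P E W : Type*} [NormedAddCommGroup E] [NormedSpace ℝ E]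
    [NormedAddCommGroup W] [NormedSpace ℝ W] {J n : ℕ} {eps : ℝ} {H : P → ℝ → E} {e₀ : W}
    {ι : ℕ → E →ₗ[ℝ] W} (hB : IsBlocks J e₀ ι) (heps : 0 < eps)
    (hH : ∀ p (y : ℝ), ‖H p y‖ ≤ 3) :
    Bornology.IsBounded {x | ∃ t ∈ Set.Icc (0 : ℝ) 1, ∃ w : ℕ → P, x = xpt n J eps H e₀ ι t w} := by
  rw [isBounded_iff_forall_norm_le]
  refine ⟨‖e₀‖ + ∑ j ∈ range J, eps * ((n : ℝ) ^ j)⁻¹ * 3, ?_⟩
  rintro _ ⟨t, ht, w, rfl⟩
  unfold xpt
  refine (norm_add_le _ _).trans (add_le_add ?_ ?_)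
  · rw [norm_smul, Real.norm_of_nonneg ht.1]
    exact mul_le_of_le_one_left (norm_nonneg _) ht.2
  · refine (norm_sum_le _ _).trans (sum_le_sum fun j _ => ?_)
    refine (hB.ι_le _ _).trans ?_
    rw [norm_smul, Real.norm_of_nonneg (by (clear * - heps; positivity))]
    exact mul_le_mul_of_nonneg_left (hH _ _) (by positivity)

/-- **Theorem A.** -/
theorem Movie.exists_realized {E : Type} [NormedAddCommGroup E] [InnerProductSpace ℝ E]
    [FiniteDimensional ℝ E] {P : Type} [Finite P] (Mv : Movie E P) (k : ℕ) (m : ℝ)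
    (hemb : ∀ (d : ℕ) (X : Set (EuclideanSpace ℝ (Fin d))), Bornology.IsBounded X →
      X.Nonempty → DoublingWith (69 * covC) X → EmbedsWith m X k) :
    Mv.Realized (EuclideanSpace ℝ (Fin k)) m := by
  classical
  have hP : Nonempty P := ⟨Mv.p0⟩
  refine Mv.realized_of_approx _ m ((range Mv.L).sup Mv.ht)
    (fun κ hκ => le_sup (f := Mv.ht) (mem_range.2 hκ)) fun Ω hΩ => ?_
  set K := (range Mv.L).sup Mv.ht with hK
  obtain ⟨N, hN⟩ := Mv.exists_isPlay (Nat.succ_le_of_lt hΩ)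
  obtain ⟨hF, hplay⟩ := hN (max N 1) (le_max_left _ _)
  have hn'1 : 1 ≤ max N 1 := le_max_right _ _
  generalize max N 1 = n' at hF hplay hn'1
  set n := 3 * n' with hn
  have hn3 : 3 ≤ n := by omega
  have hn0 : 0 < n := by omega
  have hnR : (0 : ℝ) < n := by exact_mod_cast hn0
  have hΩR : (0 : ℝ) < Ω := by exact_mod_cast hΩ
  set eps : ℝ := 1 / (7200 * n) with heps
  have heps0 : 0 < eps := by positivity
  have hepsn : eps * n = 1 / 7200 := by rw [heps]; field_simp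
  have hn1 : (1 : ℝ) ≤ n := by exact_mod_cast hn0
  have hepsle : eps ≤ 1 / 7200 := by
    have := mul_le_mul_of_nonneg_left hn1 heps0.le
    linarith only [hepsn, this]
  set θ : ℝ := 1 / (Ω : ℝ) ^ (K + 1) with hθ
  have hθ0 : 0 < θ := by positivity
  have hc0 : 0 < (n : ℝ) * eps ^ 2 * θ := by positivity
  obtain ⟨J, hJ⟩ := exists_nat_gt (1 / ((n : ℝ) * eps ^ 2 * θ))
  rw [div_lt_iff₀ hc0] at hJ
  have hB := isBlocks_b (E := E) J
  have hdoub := doubling_xpt (P := P) (H := Mv.H Ω n') hB hplay (by omega) heps0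
    (by rw [hepsn]; norm_num)
    (by
      have : eps * (6 * (n : ℝ)) = 6 * (eps * n) := by ring
      rw [this, hepsn]
      norm_num)
    (by linarith only [hepsle]) le_rfl
  obtain ⟨f, hf⟩ := embeds_of_finiteDimensional (69 * covC) k m hemb _
    (isBounded_xpt hB heps0 hplay.bound)
    ⟨_, 0, ⟨le_rfl, zero_le_one⟩, fun _ => Mv.p0, rfl⟩ hdoub
  obtain ⟨g, -, -, hg, hgE⟩ := exists_near_extremal n J eps (Mv.H Ω n') (bE0 J E) (bIota J)
    hn0 heps0 hplay.per hplay.zero hplay.affine (norm_bE0 J).le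
    (fun j hj x => norm_bIota J hj x) θ hJ m f
    (by
      intro t ht t' ht' w w'
      have := hf _ ⟨t, ht, w, rfl⟩ _ ⟨t', ht', w', rfl⟩
      simpa only [dist_eq_norm] using this)
  refine ⟨n, Mv.start Ω n', fun p i => Mv.H Ω n' p ((i : ℝ) / n), g, ?_, ?_, ?_, ?_, ?_, ?_⟩
  · intro κ _
    exact Mv.start_succ κ
  · have := hF.2.2
    omega
  · intro p i hi h
    exact H_value_zero hF p hi h
  · intro p κ hκ i hi
    exact H_value hF p hκ hi
  · intro p p' i hi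
    exact hg p p' i hi
  · intro p
    exact hgE p

end Vale.Agent.P208
end
end

section

section

/-!
# P208: the final deduction

If for every `k` and every `m` there is a movie which is not realized in `ℝ^k`, then there is a
doubling subset of `ℓ²` which does not embed into any `ℝ^k`.
-/

namespace Vale.Agent.P208

theorem EmbedsWith.mono {E : Type*} [PseudoMetricSpace E] {c c' : ℝ} {X : Set E} {k : ℕ}
    (h : EmbedsWith c X k) (hc : c' ≤ c) : EmbedsWith c' X k := by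
  obtain ⟨f, hf⟩ := h
  exact ⟨f, fun x hx y hy => ⟨(mul_le_mul_of_nonneg_right hc dist_nonneg).trans (hf x hx y hy).1,
    (hf x hx y hy).2⟩⟩

/-- There is a movie with finitely many strands which is not realized in `ℝ^k`. -/
def BadMovie (k : ℕ) (m : ℝ) : Prop :=
  ∃ (E : Type) (_ : NormedAddCommGroup E) (_ : InnerProductSpace ℝ E) (_ : FiniteDimensional ℝ E)
    (P : Type) (_ : Finite P) (Mv : Movie E P), ¬ Mv.Realized (EuclideanSpace ℝ (Fin k)) m

/-- Bad movies give bounded uniformly doubling sets without embedding. -/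
theorem exists_bad_set (k : ℕ) (c : ℝ) (hc : 0 < c)
    (h : ∀ m : ℝ, 0 < m → m ≤ 1 → BadMovie k m) :
    ∃ (d : ℕ) (X : Set (EuclideanSpace ℝ (Fin d))), Bornology.IsBounded X ∧ X.Nonempty ∧
      DoublingWith (69 * covC) X ∧ ¬ EmbedsWith c X k := by
  obtain ⟨E, i1, i2, i3, P, i4, Mv, hMv⟩ := h (min c 1) (lt_min hc one_pos) (min_le_right _ _)
  by_contra hcon
  push Not at hcon
  refine hMv (Mv.exists_realized k (min c 1) fun d X h1 h2 h3 => ?_)
  exact (hcon d X h1 h2 h3).mono (min_le_left _ _)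

/-- **The final deduction.** -/
theorem final_of_bad_movies (h : ∀ (k : ℕ) (m : ℝ), 0 < m → m ≤ 1 → BadMovie k m) :
    ∃ X : Set (lp (fun _ : ℕ => ℝ) 2), (∃ lam : ℕ, DoublingWith lam X) ∧
      ∀ k : ℕ, ¬ BiLipEmbeds X k :=
  glue (69 * covC) fun k c hc => exists_bad_set k c hc (h k)

end Vale.Agent.P208
end
end
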