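import Vale.Agent.P208.MathlibUsed
import Vale.Agent.P208.Bdl.B1
import Vale.Agent.P208.StmtDefs

set_option linter.all false

section

section

/-!
# P208: the `u`-layer (definitions, covering, reading-off, the particular movie, parameters)

All in one file, so that the equations of the matchers are generated only once.
-/

/-! ## UDefs -/


/-! P208: definitions for the `u`-layer (the particular movie). -/

namespace Vale.Agent.P208

open scoped RealInnerProductSpace

/-- The space of positions: one coordinate `none` (the horizontal one) and coordinates `(l, i)`. -/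
abbrev EU (N M : ℕ) := EuclideanSpace ℝ (Option (Fin N × Fin M))

/-- The 1-periodic trapezoid. -/
noncomputable def chi (s q : ℕ) (y : ℝ) : ℝ :=
  min 1 (min (q * Int.fract y / s) ((q - q * Int.fract y) / s))

/-- Strands. `lv = N`: path strands, `x = v / q ^ N`, `v ≤ q ^ N`; `lv < N`: storage strands at
`x = (k + (s + j) / q) / q ^ lv`. The label `j` is irrelevant for path strands. -/
structure Strand (N M s q : ℕ) where
  lv : ℕ
  j : Fin M
  v : ℕ
  ok : (lv = N ∧ v ≤ q ^ N) ∨
    (lv < N ∧ ∃ k < q ^ lv, v = (k * q + (s + j)) * q ^ (N - (lv + 1)))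

variable {N M s q : ℕ}

/-- The horizontal coordinate. -/
noncomputable def Strand.x (p : Strand N M s q) : ℝ := (p.v : ℝ) / (q : ℝ) ^ N

/-- General positions: collapse factor `lam`, word `W`, path weights `θ`, storage weights `β`. -/
noncomputable def gpos (δ : ℝ) (lam : ℝ) (W : ℕ → Fin M) (θ β : ℕ → ℝ)
    (p : Strand N M s q) : EU N M :=
  WithLp.toLp 2 fun o => match o with
    | none => lam * p.x
    | some (l, i) => lam *
        ((if (l : ℕ) < p.lv ∧ W l = i then
            θ l * (δ / (q : ℝ) ^ (l : ℕ) * chi s q ((q : ℝ) ^ (l : ℕ) * p.x)) else 0) +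
          (if (l : ℕ) = p.lv ∧ i = p.j then β l * (δ / (q : ℝ) ^ (l : ℕ)) else 0))

/-- States of the movie. -/
inductive St (M : ℕ)
  | coll
  | st (w : List (Fin M)) (b : Bool)

namespace St

/-- collapse factor -/
def lam : St M → ℝ
  | coll => 0
  | st _ _ => 1

/-- word -/
def W [NeZero M] : St M → ℕ → Fin M
  | coll => fun _ => 0
  | st w _ => fun l => w.getD l 0

/-- path weights -/
def θ : St M → ℕ → ℝ
  | coll => fun _ => 0
  | st w _ => fun l => if l < w.length then 1 else 0

/-- storage weights -/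
def β : St M → ℕ → ℝ
  | coll => fun _ => 0
  | st w b => fun l => if l < w.length then 1 else if l = w.length ∧ b = true then 1 else 0

/-- Positions of the strands in a state. -/
noncomputable def pos [NeZero M] (δ : ℝ) (S : St M) (p : Strand N M s q) : EU N M :=
  gpos δ S.lam S.W S.θ S.β p

/-- Steps between adjacent states and their heights. -/
inductive Step (N : ℕ) : ℕ → St M → St M → Prop
  | up (w : List (Fin M)) (h : w.length < N) :
      Step N (2 * (N - w.length) - 1) (st w false) (st w true)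
  | down (w : List (Fin M)) (h : w.length < N) :
      Step N (2 * (N - w.length) - 1) (st w true) (st w false)
  | enter (w : List (Fin M)) (i : Fin M) (h : w.length < N) :
      Step N (2 * (N - w.length) - 2) (st w true) (st (w ++ [i]) false)
  | leave (w : List (Fin M)) (i : Fin M) (h : w.length < N) :
      Step N (2 * (N - w.length) - 2) (st (w ++ [i]) false) (st w true)
  | start : Step N (2 * N) coll (st [] false)
  | stop : Step N (2 * N) (st [] false) coll

end St

/-- The depth first list of states. -/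
def dfs (M : ℕ) : ℕ → List (Fin M) → List (St M)
  | 0, w => [.st w false]
  | r + 1, w => .st w false :: .st w true ::
      ((List.finRange M).flatMap fun i => dfs M r (w ++ [i]) ++ [.st w true]) ++ [.st w false]

/-- The parameters of the `u`-layer. -/
structure UPar (N M s q : ℕ) (δ : ℝ) : Prop where
  hM : 0 < M
  hs : 0 < s
  hMs : M ≤ s
  hq : 2 * s + M = q
  hq3 : 3000 ≤ q
  hδ : 0 < δ
  hδq : δ ≤ 1 / (4000 * q)
  hN : 9 * N * δ ^ 2 ≤ 3

end Vale.Agent.P208

/-! ## URead1 -/


/-! P208: facts about the trapezoid, the strands and the moves. -/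

namespace Vale.Agent.P208

open scoped RealInnerProductSpace

/-! ### The trapezoid -/

theorem chi_add (s q : ℕ) (hq : 0 < q) (K : ℕ) {t : ℝ} (ht : 0 ≤ t)
    (ht1 : t ≤ q) : chi s q ((K : ℝ) + t / q) = min 1 (min (t / s) ((q - t) / s)) := by
  have hq' : (0 : ℝ) < q := by exact_mod_cast hq
  unfold chi
  rcases eq_or_lt_of_le ht1 with h | h
  · have h1 : (K : ℝ) + t / q = ((K + 1 : ℕ) : ℝ) := by
      rw [h, div_self hq'.ne']
      push_cast
      ring
    rw [h1, Int.fract_natCast, h, mul_zero, zero_div, sub_zero, sub_self, zero_div, min_comm 0]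
  · have h1 : Int.fract ((K : ℝ) + t / q) = t / q := by
      rw [Int.fract_natCast_add, Int.fract_eq_self]
      exact ⟨div_nonneg ht hq'.le, (div_lt_one hq').2 h⟩
    rw [h1, mul_div_cancel₀ _ hq'.ne']

theorem chi_nat (s q : ℕ) (K : ℕ) : chi s q (K : ℝ) = 0 := by
  unfold chi
  rw [Int.fract_natCast, mul_zero, zero_div, sub_zero]
  have h : (0 : ℝ) ≤ (q : ℝ) / s := by (clear * -; positivity)
  rw [min_eq_left h]
  exact min_eq_right zero_le_one

theorem chi_add_trap (s q : ℕ) (hq : 0 < q) (K : ℕ) {u : ℕ} (hu : u ≤ q) :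
    chi s q ((K : ℝ) + u / q) = trap s q u :=
  chi_add s q hq K (by (clear * -; positivity)) (by exact_mod_cast hu)

theorem trap_affine {s q M u : ℕ} (hs : 0 < s) (hq : 2 * s + M = q) (hu : u < q) {τ : ℝ}
    (h0 : 0 ≤ τ) (h1 : τ ≤ 1) :
    min 1 (min (((u : ℝ) + τ) / s) (((q : ℝ) - (u + τ)) / s)) =
      (1 - τ) * trap s q u + τ * trap s q (u + 1) := by
  have hs' : (0 : ℝ) < s := by exact_mod_cast hs
  have hq' : (2 : ℝ) * s + M = q := by exact_mod_cast hq
  have hM' : (0 : ℝ) ≤ M := by (clear * -; positivity)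
  rcases Nat.lt_or_ge u s with h | h
  · have h' : (u : ℝ) + 1 ≤ s := by exact_mod_cast h
    rw [trap_left hs h.le (by omega), trap_left hs (Nat.succ_le_of_lt h) (by omega)]
    rw [min_eq_left (div_le_div_of_nonneg_right (by linarith only [h1, hq', h']) hs'.le),
      min_eq_right ((div_le_one hs').2 (by linarith only [h1, h']))]
    push_cast
    field_simp
    ring
  · rcases Nat.lt_or_ge (u + s) q with h2 | h2
    · have h' : (s : ℝ) ≤ u := by exact_mod_cast h
      have h2' : (u : ℝ) + 1 + s ≤ q := by exact_mod_cast (by omega : u + 1 + s ≤ q)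
      rw [trap_mid hs h (by omega), trap_mid hs (by omega) (by omega)]
      rw [min_eq_left (le_min ((one_le_div hs').2 (by linarith only [h0, h']))
        ((one_le_div hs').2 (by linarith only [h1, h2'])))]
      ring
    · have h' : (s : ℝ) ≤ u := by exact_mod_cast h
      have h2' : (q : ℝ) ≤ u + s := by exact_mod_cast h2
      have h3' : (u : ℝ) + 1 ≤ q := by exact_mod_cast hu
      rw [trap_right hs h2 hu.le (by omega), trap_right hs (by omega) hu (by omega)]
      rw [min_eq_right (div_le_div_of_nonneg_right (by linarith only [h0, h', h2']) hs'.le :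
        ((q : ℝ) - (u + τ)) / s ≤ ((u : ℝ) + τ) / s),
        min_eq_right ((div_le_one hs').2 (by linarith only [h0, h2']))]
      push_cast
      field_simp
      ring

/-! ### Strands -/

variable {N M s q : ℕ} [NeZero M] {δ : ℝ}

/-- The path strand at `v / q ^ l`. -/
def pv (N M s q : ℕ) [NeZero M] (l v : ℕ) : Strand N M s q :=
  if h : v * q ^ (N - l) ≤ q ^ N then ⟨N, 0, v * q ^ (N - l), Or.inl ⟨rfl, h⟩⟩
  else ⟨N, 0, 0, Or.inl ⟨rfl, Nat.zero_le _⟩⟩

theorem pv_lv (l v : ℕ) : (pv N M s q l v).lv = N := by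
  unfold pv
  split_ifs <;> rfl

theorem pv_mul {l : ℕ} (hl : l + 1 ≤ N) (v : ℕ) : pv N M s q (l + 1) (v * q) = pv N M s q l v := by
  have h1 : v * q * q ^ (N - (l + 1)) = v * q ^ (N - l) := by
    have h2 : N - l = (N - (l + 1)) + 1 := by omega
    rw [h2, pow_succ']
    ring
  unfold pv
  simp only [h1]

theorem pow_split {l : ℕ} (hl : l ≤ N) : q ^ N = q ^ l * q ^ (N - l) := by
  rw [← pow_add]
  congr 1
  omega

theorem pv_v {l v : ℕ} (hl : l ≤ N) (hv : v ≤ q ^ l) : (pv N M s q l v).v = v * q ^ (N - l) := by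
  have h : v * q ^ (N - l) ≤ q ^ N := by
    rw [pow_split hl]
    exact Nat.mul_le_mul_right _ hv
  unfold pv
  rw [dif_pos h]

theorem pv_x (hq : 0 < q) {l v : ℕ} (hl : l ≤ N) (hv : v ≤ q ^ l) :
    (pv N M s q l v).x = (v : ℝ) / (q : ℝ) ^ l := by
  have hq' : (0 : ℝ) < q := by exact_mod_cast hq
  unfold Strand.x
  rw [pv_v hl hv]
  have h : (q : ℝ) ^ N = (q : ℝ) ^ l * (q : ℝ) ^ (N - l) := by exact_mod_cast pow_split (q := q) hl
  rw [h]
  push_cast
  field_simp

/-- The storage strand `(l, k, j)`. -/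
def sv (N M s q : ℕ) [NeZero M] (l k : ℕ) (j : Fin M) : Strand N M s q :=
  if h : l < N ∧ k < q ^ l then
    ⟨l, j, (k * q + (s + j)) * q ^ (N - (l + 1)), Or.inr ⟨h.1, k, h.2, rfl⟩⟩
  else ⟨N, 0, 0, Or.inl ⟨rfl, Nat.zero_le _⟩⟩

theorem sv_lv {l k : ℕ} (hl : l < N) (hk : k < q ^ l) (j : Fin M) : (sv N M s q l k j).lv = l := by
  unfold sv
  rw [dif_pos ⟨hl, hk⟩]

theorem sv_j {l k : ℕ} (hl : l < N) (hk : k < q ^ l) (j : Fin M) : (sv N M s q l k j).j = j := by
  unfold sv
  rw [dif_pos ⟨hl, hk⟩]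

theorem sv_v {l k : ℕ} (hl : l < N) (hk : k < q ^ l) (j : Fin M) :
    (sv N M s q l k j).v = (k * q + (s + j)) * q ^ (N - (l + 1)) := by
  unfold sv
  rw [dif_pos ⟨hl, hk⟩]

theorem sv_x (hq : 0 < q) {l k : ℕ} (hl : l < N) (hk : k < q ^ l) (j : Fin M) :
    (sv N M s q l k j).x = ((k * q + (s + j) : ℕ) : ℝ) / (q : ℝ) ^ (l + 1) := by
  have hq' : (0 : ℝ) < q := by exact_mod_cast hq
  unfold Strand.x
  rw [sv_v hl hk]
  have h : (q : ℝ) ^ N = (q : ℝ) ^ (l + 1) * (q : ℝ) ^ (N - (l + 1)) := by
    exact_mod_cast pow_split (q := q) (show l + 1 ≤ N from hl)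
  rw [h]
  push_cast
  field_simp

/-! ### Moves -/

theorem gpos_some (δ lam : ℝ) (W : ℕ → Fin M) (θ β : ℕ → ℝ) (p : Strand N M s q)
    (l : Fin N) (i : Fin M) : gpos δ lam W θ β p (some (l, i)) = lam *
        ((if (l : ℕ) < p.lv ∧ W l = i then
            θ l * (δ / (q : ℝ) ^ (l : ℕ) * chi s q ((q : ℝ) ^ (l : ℕ) * p.x)) else 0) +
          (if (l : ℕ) = p.lv ∧ i = p.j then β l * (δ / (q : ℝ) ^ (l : ℕ)) else 0)) := rfl

theorem gpos_none (δ lam : ℝ) (W : ℕ → Fin M) (θ β : ℕ → ℝ) (p : Strand N M s q) :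
    gpos δ lam W θ β p none = lam * p.x := rfl

/-- entering a child does not move the strands of level at most `|w|` and the strands at which
the trapezoid vanishes -/
theorem pos_enter (w : List (Fin M)) (i : Fin M) (p : Strand N M s q)
    (h : p.lv ≤ w.length ∨ chi s q ((q : ℝ) ^ w.length * p.x) = 0) :
    (St.st w true).pos δ p = (St.st (w ++ [i]) false).pos δ p := by
  unfold St.pos
  ext o
  rcases o with _ | ⟨l, i'⟩
  · rfl
  · rw [gpos_some, gpos_some]
    have e1 : (St.st w true).lam = (St.st (w ++ [i]) false).lam := rfl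
    rw [e1]
    congr 1
    have hlen : (w ++ [i]).length = w.length + 1 := by simp
    rcases lt_trichotomy (l : ℕ) w.length with hl | hl | hl
    · have e2 : (St.st w true).W l = (St.st (w ++ [i]) false).W l := by
        simp only [St.W]
        rw [List.getD_append _ _ _ _ hl]
      have e3 : (St.st w true).θ l = (St.st (w ++ [i]) false).θ l := by
        simp only [St.θ, hlen, if_pos hl, if_pos (Nat.lt_succ_of_lt hl)]
      have e4 : (St.st w true).β l = (St.st (w ++ [i]) false).β l := by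
        simp only [St.β, hlen, if_pos hl, if_pos (Nat.lt_succ_of_lt hl)]
      rw [e2, e3, e4]
    · have e3 : (St.st w true).θ l = 0 := by
        simp only [St.θ, hl, lt_irrefl, if_false]
      have e4 : (St.st w true).β l = 1 := by
        simp only [St.β, hl, lt_irrefl, if_false, and_self, if_true]
      have e5 : (St.st (w ++ [i]) false).β l = 1 := by
        simp only [St.β, hlen, if_pos (show (l : ℕ) < w.length + 1 by omega)]
      rw [e3, e4, e5, zero_mul]
      congr 1
      rw [ite_self]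
      rcases h with h | h
      · rw [if_neg]
        rintro ⟨h1, -⟩
        omega
      · rw [hl, h, mul_zero, mul_zero, ite_self]
    · have e3 : (St.st w true).θ l = 0 := by
        simp only [St.θ, if_neg (show ¬ (l : ℕ) < w.length by omega)]
      have e3' : (St.st (w ++ [i]) false).θ l = 0 := by
        simp only [St.θ, hlen, if_neg (show ¬ (l : ℕ) < w.length + 1 by omega)]
      have e4 : (St.st w true).β l = 0 := by
        simp only [St.β, if_neg (show ¬ (l : ℕ) < w.length by omega)]
        rw [if_neg]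
        rintro ⟨h1, -⟩
        omega
      have e5 : (St.st (w ++ [i]) false).β l = 0 := by
        simp only [St.β, hlen, if_neg (show ¬ (l : ℕ) < w.length + 1 by omega)]
        rw [if_neg]
        rintro ⟨-, h1⟩
        exact absurd h1 (by decide)
      rw [e3, e3', e4, e5]
      simp only [zero_mul, ite_self, add_zero]

/-- storing moves only the storage strands of level `|w|` -/
theorem pos_up (w : List (Fin M)) (p : Strand N M s q) (h : p.lv ≠ w.length) :
    (St.st w false).pos δ p = (St.st w true).pos δ p := by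
  unfold St.pos
  ext o
  rcases o with _ | ⟨l, i'⟩
  · rfl
  · rw [gpos_some, gpos_some]
    have e1 : (St.st w false).lam = (St.st w true).lam := rfl
    have e2 : (St.st w false).W = (St.st w true).W := rfl
    have e3 : (St.st w false).θ = (St.st w true).θ := rfl
    rw [e1, e2, e3]
    congr 2
    by_cases hl : (l : ℕ) = p.lv
    · have e4 : (St.st w false).β l = (St.st w true).β l := by
        have hne : ¬ (l : ℕ) = w.length := by omega
        simp only [St.β, hne, false_and, if_false]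
      rw [e4]
    · rw [if_neg (fun h1 => hl h1.1), if_neg (fun h1 => hl h1.1)]

/-- The heights of the steps that move a storage strand. -/
theorem St.Step.le_of_moves_storage {h : ℕ} {S S' : St M} (hS : St.Step N h S S')
    (p : Strand N M s q) (hp : p.lv < N) (hne : S.pos δ p ≠ S'.pos δ p) :
    2 * (N - p.lv) - 1 ≤ h := by
  cases hS with
  | up w hw =>
    by_cases h1 : p.lv = w.length
    · rw [h1]
    · exact absurd (pos_up w p h1) hne
  | down w hw =>
    by_cases h1 : p.lv = w.length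
    · rw [h1]
    · exact absurd (pos_up w p h1).symm hne
  | enter w i hw =>
    by_cases h1 : p.lv ≤ w.length
    · exact absurd (pos_enter w i p (Or.inl h1)) hne
    · omega
  | leave w i hw =>
    by_cases h1 : p.lv ≤ w.length
    · exact absurd (pos_enter w i p (Or.inl h1)).symm hne
    · omega
  | start => omega
  | stop => omega

/-- The heights of the steps that move a path strand of level `l`. -/
theorem St.Step.le_of_moves_path {h : ℕ} {S S' : St M} (hS : St.Step N h S S')
    (p : Strand N M s q) (hp : p.lv = N) {l : ℕ} (hl : l ≤ N)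
    (hx : ∀ l', l ≤ l' → chi s q ((q : ℝ) ^ l' * p.x) = 0) (hne : S.pos δ p ≠ S'.pos δ p) :
    2 * (N - l) ≤ h := by
  cases hS with
  | up w hw => exact absurd (pos_up w p (by omega)) hne
  | down w hw => exact absurd (pos_up w p (by omega)).symm hne
  | enter w i hw =>
    by_cases h1 : l ≤ w.length
    · exact absurd (pos_enter w i p (Or.inr (hx _ h1))) hne
    · omega
  | leave w i hw =>
    by_cases h1 : l ≤ w.length
    · exact absurd (pos_enter w i p (Or.inr (hx _ h1))).symm hne
    · omega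
  | start => omega
  | stop => omega

theorem chi_pv (hq : 0 < q) {l v l' : ℕ} (hl : l ≤ N) (hv : v ≤ q ^ l) (hl' : l ≤ l') :
    chi s q ((q : ℝ) ^ l' * (pv N M s q l v).x) = 0 := by
  have hq' : (0 : ℝ) < q := by exact_mod_cast hq
  rw [pv_x hq hl hv]
  have h1 : (q : ℝ) ^ l' * ((v : ℝ) / (q : ℝ) ^ l) = ((v * q ^ (l' - l) : ℕ) : ℝ) := by
    have h2 : (q : ℝ) ^ l' = (q : ℝ) ^ l * (q : ℝ) ^ (l' - l) := by
      rw [← pow_add]
      congr 1
      omega
    rw [h2]
    push_cast
    field_simp
  rw [h1, chi_nat]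

end Vale.Agent.P208

/-! ## URead2 -/


/-! P208: the depth first list of states: heights, segments, constancy. -/

namespace Vale.Agent.P208

open scoped RealInnerProductSpace

variable {N M s q : ℕ} [NeZero M] {δ : ℝ}

/-- the height of a transition, as a function -/
def hgt {M : ℕ} (N : ℕ) : St M → St M → ℕ
  | .coll, _ => 2 * N
  | .st _ _, .coll => 2 * N
  | .st w _, .st w' _ => if w.length = w'.length then 2 * (N - w.length) - 1
      else 2 * (N - min w.length w'.length) - 2

omit [NeZero M] in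
theorem St.Step.hgt_eq {h : ℕ} {S S' : St M} (hS : St.Step N h S S') : hgt N S S' = h := by
  cases hS with
  | up w hw => simp only [hgt, ↓reduceIte]
  | down w hw => simp only [hgt, ↓reduceIte]
  | enter w i hw => simp only [hgt, List.length_append, List.length_cons, List.length_nil, zero_add, Nat.left_eq_add, one_ne_zero, ↓reduceIte, le_add_iff_nonneg_right, zero_le, inf_of_le_left]
  | leave w i hw => simp only [hgt, List.length_append, List.length_cons, List.length_nil, zero_add, Nat.add_eq_left, one_ne_zero, ↓reduceIte, le_add_iff_nonneg_right, zero_le, inf_of_le_right]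
  | start => rfl
  | stop => rfl

/-- `S, S'` are adjacent with height at most `H`. -/
def Rel (N H : ℕ) (S S' : St M) : Prop := St.Step N (hgt N S S') S S' ∧ hgt N S S' ≤ H

omit [NeZero M] in
theorem Rel.of_step {H h : ℕ} {S S' : St M} (hS : St.Step N h S S') (hh : h ≤ H) :
    Rel N H S S' := by
  have h1 := hS.hgt_eq
  refine ⟨?_, ?_⟩
  · rw [h1]; exact hS
  · rw [h1]; exact hh

omit [NeZero M] in
theorem Rel.mono {H H' : ℕ} (hH : H ≤ H') {S S' : St M} (h : Rel N H S S') : Rel N H' S S' :=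
  ⟨h.1, h.2.trans hH⟩

omit [NeZero M] in
theorem dfs_head? (r : ℕ) (w : List (Fin M)) : (dfs M r w).head? = some (.st w false) := by
  cases r <;> simp [dfs]

omit [NeZero M] in
theorem dfs_getLast? (r : ℕ) (w : List (Fin M)) :
    (dfs M r w).getLast? = some (.st w false) := by
  cases r with
  | zero => simp [dfs]
  | succ r =>
    simp only [dfs]
    rw [List.getLast?_append]
    simp

omit [NeZero M] in
theorem chain_mid {r : ℕ} {w : List (Fin M)} (hw : w.length + (r + 1) = N)
    (ih : ∀ i, (dfs M r (w ++ [i])).IsChain (Rel N (2 * r))) (is : List (Fin M)) :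
    (St.st w true :: is.flatMap fun i => dfs M r (w ++ [i]) ++ [St.st w true]).IsChain
      (Rel N (2 * r)) := by
  have hlt : w.length < N := by omega
  have hh : 2 * (N - w.length) - 2 = 2 * r := by omega
  induction is with
  | nil => exact List.IsChain.singleton _
  | cons i is IH =>
    rw [List.flatMap_cons]
    have e : St.st w true :: (dfs M r (w ++ [i]) ++ [St.st w true] ++
        is.flatMap fun i => dfs M r (w ++ [i]) ++ [St.st w true]) =
        (St.st w true :: dfs M r (w ++ [i])) ++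
        (St.st w true :: is.flatMap fun i => dfs M r (w ++ [i]) ++ [St.st w true]) := by
      simp
    rw [e]
    have hlast : (St.st w true :: dfs M r (w ++ [i])).getLast? = some (.st (w ++ [i]) false) := by
      rw [List.getLast?_cons, dfs_getLast?]
      rfl
    refine List.IsChain.append ?_ IH ?_
    · refine List.IsChain.cons (ih i) ?_
      intro y hy
      rw [dfs_head?] at hy
      obtain rfl : St.st (w ++ [i]) false = y := by simpa using hy
      exact Rel.of_step (.enter w i hlt) hh.le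
    · intro x hx y hy
      rw [hlast] at hx
      obtain rfl : St.st (w ++ [i]) false = x := by simpa using hx
      obtain rfl : St.st w true = y := by simpa using hy
      exact Rel.of_step (.leave w i hlt) hh.le

omit [NeZero M] in
theorem chain_dfs : ∀ (r : ℕ) (w : List (Fin M)), w.length + r = N →
    (dfs M r w).IsChain (Rel N (2 * r - 1)) := by
  intro r
  induction r with
  | zero => intro w _; exact List.IsChain.singleton _
  | succ r IH =>
    intro w hw
    have hlt : w.length < N := by omega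
    have hh : 2 * (N - w.length) - 1 = 2 * (r + 1) - 1 := by omega
    have hmid := chain_mid hw (fun i => (IH (w ++ [i]) (by simp; omega)).imp
      (fun S S' h => h.mono (by omega))) (List.finRange M)
    have hmid' := hmid.imp (S := Rel N (2 * (r + 1) - 1)) (fun S S' h => h.mono (by omega))
    simp only [dfs]
    have e : St.st w false :: St.st w true :: ((List.finRange M).flatMap fun i =>
        dfs M r (w ++ [i]) ++ [St.st w true]) ++ [St.st w false] =
        (St.st w false :: (St.st w true :: ((List.finRange M).flatMap fun i =>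
        dfs M r (w ++ [i]) ++ [St.st w true]))) ++ [St.st w false] := by simp
    rw [e]
    refine List.IsChain.append ?_ (List.IsChain.singleton _) ?_
    · refine List.IsChain.cons hmid' ?_
      intro y hy
      obtain rfl : St.st w true = y := by simpa using hy
      exact Rel.of_step (.up w hlt) hh.le
    · intro x hx y hy
      obtain rfl : St.st w false = y := by simpa using hy
      have hlast : ∀ is : List (Fin M), (St.st w true :: is.flatMap fun i =>
          dfs M r (w ++ [i]) ++ [St.st w true]).getLast? = some (St.st w true) := by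
        intro is
        induction is using List.reverseRecOn with
        | nil => simp
        | append_singleton is i _ =>
          rw [List.flatMap_append, List.getLast?_cons]
          simp
      rw [List.getLast?_cons, hlast] at hx
      obtain rfl : St.st w true = x := by simpa using hx
      exact Rel.of_step (.down w hlt) hh.le

/-! ### Segments -/

/-- the states `a, a + 1, ...` are those of the list `l` -/
def Seg (K : ℕ → St M) (a : ℕ) (l : List (St M)) : Prop :=
  ∀ i, i < l.length → l[i]? = some (K (a + i))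

omit [NeZero M] in
theorem Seg.left {K : ℕ → St M} {a : ℕ} {l l' : List (St M)} (h : Seg K a (l ++ l')) :
    Seg K a l := by
  intro i hi
  have := h i (by rw [List.length_append]; omega)
  rwa [List.getElem?_append_left hi] at this

omit [NeZero M] in
theorem Seg.right {K : ℕ → St M} {a : ℕ} {l l' : List (St M)} (h : Seg K a (l ++ l')) :
    Seg K (a + l.length) l' := by
  intro i hi
  have := h (l.length + i) (by rw [List.length_append]; omega)
  rw [List.getElem?_append_right (by omega), Nat.add_sub_cancel_left] at this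
  rw [this, add_assoc]

omit [NeZero M] in
theorem Seg.tail {K : ℕ → St M} {a : ℕ} {S : St M} {l : List (St M)} (h : Seg K a (S :: l)) :
    Seg K (a + 1) l := by
  have h' : Seg K a ([S] ++ l) := h
  exact h'.right

omit [NeZero M] in
theorem Seg.head? {K : ℕ → St M} {a : ℕ} {S : St M} {l : List (St M)} (h : Seg K a l)
    (hS : l.head? = some S) : K a = S := by
  cases l with
  | nil => simp at hS
  | cons S' l =>
    have := h 0 (by simp only [List.length_cons, lt_add_iff_pos_left, Order.lt_add_one_iff, zero_le])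
    simp only [List.getElem?_cons_zero, add_zero, Option.some.injEq] at this
    simp only [List.head?_cons, Option.some.injEq] at hS
    rw [← this, hS]

omit [NeZero M] in
theorem Seg.chain {K : ℕ → St M} {a : ℕ} {l : List (St M)} (h : Seg K a l)
    {R : St M → St M → Prop} (hc : l.IsChain R) {b : ℕ} (hb : b + 1 < l.length) :
    R (K (a + b)) (K (a + b + 1)) := by
  have h1 := h b (by omega)
  have h2 := h (b + 1) hb
  have h3 := List.isChain_iff_getElem.1 hc b hb
  rw [List.getElem?_eq_getElem (by omega), Option.some.injEq] at h1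
  rw [List.getElem?_eq_getElem hb, Option.some.injEq] at h2
  rw [h1, h2] at h3
  exact h3

omit [NeZero M] in
theorem Seg.child {K : ℕ → St M} {r : ℕ} {w : List (Fin M)} {S : St M} (is : List (Fin M)) :
    ∀ a, Seg K a (is.flatMap fun i => dfs M r (w ++ [i]) ++ [S]) → ∀ i ∈ is,
      ∃ b, b + (dfs M r (w ++ [i])).length ≤
        (is.flatMap fun i => dfs M r (w ++ [i]) ++ [S]).length ∧
        Seg K (a + b) (dfs M r (w ++ [i])) := by
  induction is with
  | nil => intro a _ i hi; simp at hi
  | cons i0 is IH =>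
    intro a h i hi
    rw [List.flatMap_cons] at h ⊢
    rcases List.mem_cons.1 hi with rfl | hi
    · refine ⟨0, ?_, ?_⟩
      · simp only [List.length_append]
        omega
      · exact h.left.left
    · obtain ⟨b, hb1, hb2⟩ := IH _ h.right i hi
      refine ⟨(dfs M r (w ++ [i0]) ++ [S]).length + b, ?_, ?_⟩
      · simp only [List.length_append]
        omega
      · rw [← add_assoc]
        exact hb2

/-! ### The hypotheses on the strands in the target -/

variable {F : Type} [NormedAddCommGroup F] [InnerProductSpace ℝ F]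

/-- The data provided by the time layer for the particular movie. -/
structure Rd (N M s q : ℕ) [NeZero M] (δ m : ℝ) (K : ℕ → St M) (L : ℕ)
    (G : ℕ → Strand N M s q → F) : Prop where
  step : ∀ κ < L, St.Step N (hgt N (K κ) (K (κ + 1))) (K κ) (K (κ + 1))
  lo : ∀ κ ≤ L, ∀ p p', m * ‖(K κ).pos δ p - (K κ).pos δ p'‖ ≤ ‖G κ p - G κ p'‖
  hi : ∀ κ ≤ L, ∀ p p', ‖G κ p - G κ p'‖ ≤ ‖(K κ).pos δ p - (K κ).pos δ p'‖
  kl : ∀ κ < L, ∀ p, (∀ κ' < L, (K κ').pos δ p ≠ (K (κ' + 1)).pos δ p →
    hgt N (K κ) (K (κ + 1)) < hgt N (K κ') (K (κ' + 1))) → G (κ + 1) p = G κ p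

variable {m : ℝ} {K : ℕ → St M} {L : ℕ} {G : ℕ → Strand N M s q → F}

/-- a strand which moves only at large heights is constant on segments of small heights -/
theorem Rd.const (R : Rd N M s q δ m K L G) {a : ℕ} {l : List (St M)}
    {H : ℕ} (hs : Seg K a l)
    (hL : a + l.length ≤ L + 1) (hc : l.IsChain (Rel N H)) {p : Strand N M s q}
    (hp : ∀ κ' < L, (K κ').pos δ p ≠ (K (κ' + 1)).pos δ p → H < hgt N (K κ') (K (κ' + 1)))
    {b : ℕ} (hb : b < l.length) : G (a + b) p = G a p := by
  induction b with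
  | zero => rfl
  | succ b IH =>
    rw [← IH (by omega)]
    refine R.kl (a + b) (by omega) p fun κ' hκ' hne => ?_
    exact lt_of_le_of_lt (hs.chain hc hb).2 (hp κ' hκ' hne)

theorem Rd.const_storage (R : Rd N M s q δ m K L G) {a : ℕ} {l : List (St M)} {H : ℕ}
    (hs : Seg K a l) (hL : a + l.length ≤ L + 1) (hc : l.IsChain (Rel N H))
    {p : Strand N M s q} (hp : p.lv < N) (hH : H < 2 * (N - p.lv) - 1)
    {b : ℕ} (hb : b < l.length) : G (a + b) p = G a p :=
  R.const hs hL hc (fun κ' hκ' hne =>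
    lt_of_lt_of_le hH ((R.step κ' hκ').le_of_moves_storage p hp hne)) hb

theorem Rd.const_path (R : Rd N M s q δ m K L G) (hq : 0 < q) {a : ℕ} {l : List (St M)} {H : ℕ}
    (hs : Seg K a l) (hL : a + l.length ≤ L + 1) (hc : l.IsChain (Rel N H))
    {t v : ℕ} (ht : t ≤ N) (hv : v ≤ q ^ t) (hH : H < 2 * (N - t))
    {b : ℕ} (hb : b < l.length) : G (a + b) (pv N M s q t v) = G a (pv N M s q t v) :=
  R.const hs hL hc (fun κ' hκ' hne =>
    lt_of_lt_of_le hH ((R.step κ' hκ').le_of_moves_path _ (pv_lv t v) ht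
      (fun _ h => chi_pv hq ht hv h) hne)) hb

end Vale.Agent.P208

/-! ## URead3 -/


/-! P208: geometry of the states and the reading-off theorem. -/

namespace Vale.Agent.P208

open scoped RealInnerProductSpace

variable {N M s q : ℕ} [NeZero M] {δ : ℝ}

/-- squared length (normalised) of the path step `v` of level `l` -/
noncomputable def Lam (s q : ℕ) (δ : ℝ) (l v : ℕ) : ℝ :=
  1 + ∑ k ∈ Finset.range l, (q : ℝ) ^ 2 * δ ^ 2 *
    (trap s q (v / q ^ (l - 1 - k) % q + 1) - trap s q (v / q ^ (l - 1 - k) % q)) ^ 2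

theorem Lam_zero (s q : ℕ) (δ : ℝ) (v : ℕ) : Lam s q δ 0 v = 1 := by simp only [Lam, Finset.range_zero, zero_tsub, pow_zero, Nat.div_one, Finset.sum_const, Finset.card_empty, zero_nsmul, add_zero]

theorem Lam_succ (s q : ℕ) (δ : ℝ) (l v : ℕ) {u : ℕ} (hu : u < q) :
    Lam s q δ (l + 1) (v * q + u) = Lam s q δ l v +
      (q : ℝ) ^ 2 * δ ^ 2 * (trap s q (u + 1) - trap s q u) ^ 2 := by
  have hq : 0 < q := by omega
  unfold Lam
  rw [Finset.sum_range_succ, ← add_assoc]
  have e1 : (v * q + u) / q ^ (l + 1 - 1 - l) % q = u := by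
    have : l + 1 - 1 - l = 0 := by omega
    rw [this, pow_zero, Nat.div_one, Nat.mul_add_mod_self_right, Nat.mod_eq_of_lt hu]
  rw [e1]
  congr 2
  refine Finset.sum_congr rfl fun k hk => ?_
  have hk' := Finset.mem_range.1 hk
  have e2 : (v * q + u) / q ^ (l + 1 - 1 - k) = v / q ^ (l - 1 - k) := by
    have h1 : l + 1 - 1 - k = (l - 1 - k) + 1 := by omega
    rw [h1, pow_succ', ← Nat.div_div_eq_div_mul]
    congr 1
    rw [mul_comm, Nat.mul_add_div hq, Nat.div_eq_of_lt hu, add_zero]
  rw [e2]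

omit [NeZero M] in
/-- the trapezoid on a path step -/
theorem chi_step (hs : 0 < s) (hq : 2 * s + M = q) {l v : ℕ} (hl : l < N) :
    chi s q ((q : ℝ) ^ l * ((v + 1 : ℕ) / (q : ℝ) ^ N)) - chi s q ((q : ℝ) ^ l * (v / (q : ℝ) ^ N)) =
      (1 / (q : ℝ) ^ (N - 1 - l)) *
        (trap s q (v / q ^ (N - 1 - l) % q + 1) - trap s q (v / q ^ (N - 1 - l) % q)) := by
  have hq0 : 0 < q := by omega
  have hq' : (0 : ℝ) < q := by exact_mod_cast hq0
  set r := N - 1 - l with hr
  set V := v / q ^ r with hV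
  set u := V % q with hu
  have huq : u < q := Nat.mod_lt _ hq0
  have hpow : (q : ℝ) ^ N = (q : ℝ) ^ l * ((q : ℝ) * (q : ℝ) ^ r) := by
    rw [← pow_succ', ← pow_add]
    congr 1
    omega
  have hqr : (0 : ℝ) < (q : ℝ) ^ r := by positivity
  -- general point `v + e`, `e ∈ {0, 1}`
  have key : ∀ e : ℕ, e ≤ 1 → chi s q ((q : ℝ) ^ l * ((v + e : ℕ) / (q : ℝ) ^ N)) =
      (1 - ((v % q ^ r + e : ℕ) : ℝ) / (q : ℝ) ^ r) * trap s q u +
        (((v % q ^ r + e : ℕ) : ℝ) / (q : ℝ) ^ r) * trap s q (u + 1) := by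
    intro e he
    have hv1 : v = q ^ r * (q * (V / q) + u) + v % q ^ r := by
      rw [Nat.div_add_mod, Nat.div_add_mod]
    have hlt : v % q ^ r < q ^ r := Nat.mod_lt _ (by positivity)
    have hτ1 : ((v % q ^ r + e : ℕ) : ℝ) / (q : ℝ) ^ r ≤ 1 := by
      rw [div_le_one hqr]
      exact_mod_cast (by omega : v % q ^ r + e ≤ q ^ r)
    have hτ0 : 0 ≤ ((v % q ^ r + e : ℕ) : ℝ) / (q : ℝ) ^ r := by (clear * - hq0; positivity)
    have e1 : (q : ℝ) ^ l * ((v + e : ℕ) / (q : ℝ) ^ N) =
        ((V / q : ℕ) : ℝ) + ((u : ℝ) + ((v % q ^ r + e : ℕ) : ℝ) / (q : ℝ) ^ r) / q := by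
      have hv2 : ((v + e : ℕ) : ℝ) = (q : ℝ) ^ r * (q * ((V / q : ℕ) : ℝ) + u) +
          ((v % q ^ r + e : ℕ) : ℝ) := by
        have : v + e = q ^ r * (q * (V / q) + u) + (v % q ^ r + e) := by omega
        exact_mod_cast this
      rw [hv2, hpow]
      field_simp
      ring
    rw [e1, chi_add s q hq0 _ (by (clear * - hq0; positivity)), trap_affine hs hq huq hτ0 hτ1]
    have : (u : ℝ) + 1 ≤ q := by exact_mod_cast huq
    linarith only [hτ1, this]
  have k1 := key 1 le_rfl
  have k0 := key 0 (by norm_num)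
  rw [add_zero, add_zero] at k0
  rw [k1, k0]
  push_cast
  field_simp
  ring

/-- the path step at a state of full depth -/
theorem norm_path_step (hs : 0 < s) (hq : 2 * s + M = q) (w : List (Fin M)) (b : Bool)
    (hw : w.length = N) {v : ℕ} (hv : v < q ^ N) :
    ‖((q : ℝ) ^ N) • ((St.st w b).pos δ (pv N M s q N (v + 1)) -
      (St.st w b).pos δ (pv N M s q N v))‖ ^ 2 = Lam s q δ N v := by
  have hq0 : 0 < q := by omega
  have hq' : (0 : ℝ) < q := by exact_mod_cast hq0
  have hqN : (0 : ℝ) < (q : ℝ) ^ N := by positivity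
  rw [EuclideanSpace.real_norm_sq_eq, Fintype.sum_option, Fintype.sum_prod_type]
  have hx1 : (pv N M s q N (v + 1)).x = ((v + 1 : ℕ) : ℝ) / (q : ℝ) ^ N := pv_x hq0 le_rfl hv
  have hx0 : (pv N M s q N v).x = (v : ℝ) / (q : ℝ) ^ N := pv_x hq0 le_rfl hv.le
  have h1 : (((q : ℝ) ^ N) • ((St.st w b).pos δ (pv N M s q N (v + 1)) -
      (St.st w b).pos δ (pv N M s q N v))).ofLp none = 1 := by
    rw [PiLp.smul_apply, PiLp.sub_apply]
    unfold St.pos
    rw [gpos_none, gpos_none, hx1, hx0]
    simp only [St.lam, smul_eq_mul]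
    push_cast
    field_simp
    ring
  have h2 : ∀ (l : Fin N) (i : Fin M), (((q : ℝ) ^ N) • ((St.st w b).pos δ (pv N M s q N (v + 1)) -
      (St.st w b).pos δ (pv N M s q N v))).ofLp (some (l, i)) =
      if (St.st w b).W l = i then (q : ℝ) * δ * (trap s q (v / q ^ (N - 1 - l) % q + 1) -
        trap s q (v / q ^ (N - 1 - l) % q)) else 0 := by
    intro l i
    have hl : (l : ℕ) < N := l.2
    rw [PiLp.smul_apply, PiLp.sub_apply]
    unfold St.pos
    rw [gpos_some, gpos_some, pv_lv, pv_lv]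
    have hne : ¬ (l : ℕ) = N := by omega
    have hθ : (St.st w b).θ l = 1 := by
      simp only [St.θ, if_pos (show (l : ℕ) < w.length by omega)]
    simp only [hl, true_and, hne, false_and, if_false, add_zero, hθ, one_mul, hx1, hx0]
    split_ifs
    · have hc := chi_step (N := N) (v := v) hs hq hl
      have hpow : (q : ℝ) ^ N = (q : ℝ) ^ (l : ℕ) * ((q : ℝ) * (q : ℝ) ^ (N - 1 - l)) := by
        rw [← pow_succ', ← pow_add]
        congr 1
        omega
      simp only [St.lam, one_mul, smul_eq_mul]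
      rw [← mul_sub, hc]
      have hpow' := hpow
      have hr : (0 : ℝ) < (q : ℝ) ^ (N - 1 - (l : ℕ)) := by positivity
      have hll : (0 : ℝ) < (q : ℝ) ^ (l : ℕ) := by positivity
      rw [hpow]
      (clear * - hq0; field_simp)
    · simp
  rw [h1]
  simp only [h2]
  unfold Lam
  rw [one_pow]
  congr 1
  rw [Finset.sum_range]
  refine Finset.sum_congr rfl fun l _ => ?_
  simp only [ite_pow]
  have : ∀ A : ℝ, ∑ i : Fin M, (if (St.st w b).W l = i then A ^ 2 else 0 ^ 2) = A ^ 2 := by
    intro A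
    simp
  rw [this]
  ring

/-- the entering vertex: in the state `w ++ [i]`, storage and path strand at the window -/
theorem pos_window (hs : 0 < s) (hMs : M ≤ s) (hq : 2 * s + M = q) (w : List (Fin M)) (i j : Fin M)
    (hw : w.length < N) {v : ℕ} (hv : v < q ^ w.length) :
    (St.st (w ++ [i]) false).pos δ (pv N M s q (w.length + 1) (v * q + (s + j))) -
      (St.st (w ++ [i]) false).pos δ (sv N M s q w.length v j) =
      EuclideanSpace.single (some (⟨w.length, hw⟩, i)) (δ / (q : ℝ) ^ w.length) -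
      EuclideanSpace.single (some (⟨w.length, hw⟩, j)) (δ / (q : ℝ) ^ w.length) := by
  have hq0 : 0 < q := by omega
  have hq' : (0 : ℝ) < q := by exact_mod_cast hq0
  have hj : (j : ℕ) < M := j.2
  have hv1 : v * q + (s + j) ≤ q ^ (w.length + 1) := by
    rw [pow_succ]
    have : (v + 1) * q ≤ q ^ w.length * q := Nat.mul_le_mul_right _ hv
    linarith
  have hx1 : (pv N M s q (w.length + 1) (v * q + (s + j))).x =
      ((v * q + (s + j) : ℕ) : ℝ) / (q : ℝ) ^ (w.length + 1) := pv_x hq0 hw hv1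
  have hx2 : (sv N M s q w.length v j).x =
      ((v * q + (s + j) : ℕ) : ℝ) / (q : ℝ) ^ (w.length + 1) := sv_x hq0 hw hv j
  have hchi : chi s q ((q : ℝ) ^ w.length *
      (((v * q + (s + j) : ℕ) : ℝ) / (q : ℝ) ^ (w.length + 1))) = 1 := by
    have e : (q : ℝ) ^ w.length * (((v * q + (s + j) : ℕ) : ℝ) / (q : ℝ) ^ (w.length + 1)) =
        (v : ℝ) + ((s + j : ℕ) : ℝ) / q := by
      rw [pow_succ]
      push_cast
      (clear * - hq0 hs; field_simp)
    rw [e, chi_add_trap s q hq0 v (by omega), trap_mid hs (by omega) (by omega)]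
  ext o
  rw [PiLp.sub_apply, PiLp.sub_apply]
  rcases o with _ | ⟨l, i'⟩
  · unfold St.pos
    rw [gpos_none, gpos_none, hx1, hx2, sub_self]
    simp
  · unfold St.pos
    rw [gpos_some, gpos_some, hx1, hx2, pv_lv, sv_lv hw hv, sv_j hw hv]
    have hl : (l : ℕ) < N := l.2
    have hlN : ¬ (l : ℕ) = N := by omega
    have hlen : (w ++ [i]).length = w.length + 1 := by simp
    simp only [St.lam, one_mul, hl, true_and, hlN, false_and, if_false, add_zero]
    rcases lt_trichotomy (l : ℕ) w.length with h | h | h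
    · have hne : ¬ (l : ℕ) = w.length := by omega
      have hnel : ¬ l = ⟨w.length, hw⟩ := fun h' => hne (by rw [h'])
      simp only [Nat.cast_add, Nat.cast_mul, h, true_and, hne, false_and, ↓reduceIte, add_zero, sub_self, ne_eq, Option.some.injEq, Prod.mk.injEq, hnel, not_false_eq_true, PiLp.single_eq_of_ne]
    · have hnlt : ¬ (l : ℕ) < w.length := by omega
      have hθ : (St.st (w ++ [i]) false).θ l = 1 := by
        simp only [St.θ, hlen, if_pos (show (l : ℕ) < w.length + 1 by omega)]
      have hβ : (St.st (w ++ [i]) false).β l = 1 := by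
        simp only [St.β, hlen, if_pos (show (l : ℕ) < w.length + 1 by omega)]
      have hW : (St.st (w ++ [i]) false).W l = i := by
        simp only [St.W]
        rw [h]
        simp
      have hl' : l = ⟨w.length, hw⟩ := Fin.ext h
      rw [hθ, hβ, hW]
      simp only [hnlt, false_and, if_false, zero_add]
      simp only [hchi, mul_one, one_mul, true_and, hl']
      have e1 : ∀ k : Fin M, (EuclideanSpace.single (some ((⟨w.length, hw⟩ : Fin N), k))
          (δ / (q : ℝ) ^ w.length) : EU N M).ofLp (some (⟨w.length, hw⟩, i')) =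
          if i' = k then δ / (q : ℝ) ^ w.length else 0 := by
        intro k
        simp
      rw [e1, e1]
      by_cases h1 : i = i'
      · simp [h1]
      · have h1' : ¬ i' = i := fun h' => h1 h'.symm
        simp [h1, h1']
    · have hnlt : ¬ (l : ℕ) < w.length := by omega
      have hne : ¬ (l : ℕ) = w.length := by omega
      have hnel : ¬ l = ⟨w.length, hw⟩ := fun h' => hne (by rw [h'])
      have hθ : (St.st (w ++ [i]) false).θ l = 0 := by
        simp only [St.θ, hlen, if_neg (show ¬ (l : ℕ) < w.length + 1 by omega)]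
      simp only [hθ, Nat.cast_add, Nat.cast_mul, zero_mul, ite_self, hnlt, false_and, ↓reduceIte, hne, add_zero, sub_self, ne_eq, Option.some.injEq, Prod.mk.injEq, hnel, not_false_eq_true, PiLp.single_eq_of_ne]

end Vale.Agent.P208

/-! ## URead -/


/-! P208: the reading-off theorem. -/

namespace Vale.Agent.P208

open scoped RealInnerProductSpace

theorem norm_single_sub_single {ι : Type} [Fintype ι] [DecidableEq ι] {a b : ι} (hab : a ≠ b)
    {c : ℝ} (hc : 0 ≤ c) :
    ‖(EuclideanSpace.single a c - EuclideanSpace.single b c : EuclideanSpace ℝ ι)‖ =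
      Real.sqrt 2 * c := by
  have h1 : ‖(EuclideanSpace.single a c - EuclideanSpace.single b c : EuclideanSpace ℝ ι)‖ ^ 2 =
      (Real.sqrt 2 * c) ^ 2 := by
    rw [norm_sub_sq_real, PiLp.norm_single, PiLp.norm_single, EuclideanSpace.inner_single_left,
      mul_pow, Real.sq_sqrt (by norm_num), Real.norm_eq_abs, sq_abs]
    simp [hab]
    ring
  exact (sq_eq_sq₀ (norm_nonneg _) (by positivity)).1 h1

variable {N M s q : ℕ} [NeZero M] {δ : ℝ}
variable {F : Type} [NormedAddCommGroup F] [InnerProductSpace ℝ F]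
variable {m : ℝ} {K : ℕ → St M} {L : ℕ} {G : ℕ → Strand N M s q → F}

/-- The reading-off theorem. -/
theorem Rd.read (R : Rd N M s q δ m K L G) (hs : 0 < s) (hMs : M ≤ s) (hq : 2 * s + M = q)
    (hδ : 0 < δ) : ∀ (r : ℕ) (w : List (Fin M)) (v a : ℕ), w.length + r = N →
    v < q ^ w.length → Seg K a (dfs M r w) → a + (dfs M r w).length ≤ L + 1 →
    CF M s q m δ r (Lam s q δ w.length v) ((q : ℝ) ^ w.length • G a (pv N M s q w.length v))
      ((q : ℝ) ^ w.length • G a (pv N M s q w.length (v + 1))) := by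
  have hq0 : 0 < q := by omega
  have hq' : (0 : ℝ) < q := by exact_mod_cast hq0
  intro r
  induction r with
  | zero =>
    intro w v a hw hv hseg hlen
    rw [CF_zero]
    have hwN : w.length = N := by omega
    have hKa : K a = .st w false := hseg.head? (dfs_head? 0 w)
    have haL : a ≤ L := by
      simp only [dfs, List.length_singleton] at hlen
      omega
    rw [hwN] at hv ⊢
    rw [← norm_path_step hs hq w false hwN hv, ← smul_sub, norm_smul, norm_smul, mul_pow,
      mul_pow]
    refine mul_le_mul_of_nonneg_left ?_ (sq_nonneg _)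
    have h1 := R.hi a haL (pv N M s q N (v + 1)) (pv N M s q N v)
    rw [hKa] at h1
    exact pow_le_pow_left₀ (norm_nonneg _) h1 2
  | succ r IH =>
    intro w v a hw hv hseg hlen
    have hwN : w.length < N := by omega
    have hchain := chain_dfs (M := M) (r + 1) w hw
    -- the middle segment
    set mid := St.st w true :: (List.finRange M).flatMap fun i => dfs M r (w ++ [i]) ++
      [St.st w true] with hmid
    have hdfs : dfs M (r + 1) w = St.st w false :: (mid ++ [St.st w false]) := by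
      rw [hmid]
      simp [dfs]
    have hsegmid : Seg K (a + 1) mid := by
      rw [hdfs] at hseg
      exact hseg.tail.left
    have hlenmid : a + 1 + mid.length ≤ L := by
      rw [hdfs] at hlen
      simp only [List.length_cons, List.length_append, List.length_nil] at hlen
      omega
    have hchainmid : mid.IsChain (Rel N (2 * r)) := by
      refine chain_mid hw (fun i => ?_) _
      exact (chain_dfs r (w ++ [i]) (by simp; omega)).imp (fun S S' h => h.mono (by omega))
    -- the children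
    have hchild : ∀ i : Fin M, ∃ b, b + 1 + (dfs M r (w ++ [i])).length ≤ mid.length ∧
        Seg K (a + 1 + (b + 1)) (dfs M r (w ++ [i])) := by
      intro i
      obtain ⟨b, hb1, hb2⟩ := Seg.child (List.finRange M) _ hsegmid.tail i (List.mem_finRange i)
      refine ⟨b, ?_, ?_⟩
      · rw [hmid, List.length_cons]
        omega
      · have : a + 1 + (b + 1) = a + 1 + 1 + b := by omega
        rw [this]
        exact hb2
    choose b hb1 hb2 using hchild
    have hdpos : ∀ i : Fin M, 0 < (dfs M r (w ++ [i])).length := by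
      intro i
      rw [List.length_pos_iff]
      intro h
      have := dfs_head? r (w ++ [i])
      rw [h] at this
      simp at this
    have hblt : ∀ i, b i + 1 < mid.length := by
      intro i
      have h1 := hb1 i
      have h2 := hdpos i
      omega
    have haiL : ∀ i, a + 1 + (b i + 1) + (dfs M r (w ++ [i])).length ≤ L + 1 := by
      intro i
      have h1 := hb1 i
      omega
    have hKai : ∀ i, K (a + 1 + (b i + 1)) = .st (w ++ [i]) false := fun i =>
      (hb2 i).head? (dfs_head? r _)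
    -- constancy
    have hpath : ∀ i v', v' ≤ q ^ w.length →
        G (a + 1 + (b i + 1)) (pv N M s q w.length v') = G a (pv N M s q w.length v') := by
      intro i v' hv'
      have h1 := R.const_path hq0 hseg hlen hchain (t := w.length) (v := v') (by omega) hv'
        (by omega) (b := 1 + (b i + 1)) (by
          rw [hdfs]
          simp only [List.length_cons, List.length_append, List.length_nil]
          have := hblt i
          omega)
      rw [← add_assoc] at h1
      exact h1
    have hstor : ∀ i j, G (a + 1 + (b i + 1)) (sv N M s q w.length v j) =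
        G (a + 1) (sv N M s q w.length v j) := by
      intro i j
      refine R.const_storage hsegmid (by omega) hchainmid ?_ ?_ (hblt i)
      · rw [sv_lv hwN hv]
        exact hwN
      · rw [sv_lv hwN hv]
        omega
    have hnorm : ∀ i j : Fin M, i ≠ j →
        ‖(St.st (w ++ [i]) false).pos δ (pv N M s q (w.length + 1) (v * q + (s + j))) -
          (St.st (w ++ [i]) false).pos δ (sv N M s q w.length v j)‖ =
          Real.sqrt 2 * (δ / (q : ℝ) ^ w.length) := by
      intro i j hij
      rw [pos_window hs hMs hq w i j hwN hv]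
      refine norm_single_sub_single ?_ (by positivity)
      intro h
      simp only [Option.some.injEq, Prod.mk.injEq, true_and] at h
      exact hij h
    rw [CF_succ]
    refine ⟨fun j => (q : ℝ) ^ w.length • G (a + 1) (sv N M s q w.length v j),
      fun i u => (q : ℝ) ^ w.length • G (a + 1 + (b i + 1)) (pv N M s q (w.length + 1) (v * q + u)),
      ?_, ?_, ?_, ?_⟩
    · intro i
      constructor
      · simp only [add_zero]
        rw [pv_mul (by omega), hpath i v hv.le]
      · have e : v * q + q = (v + 1) * q := by ring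
        simp only [e]
        rw [pv_mul (by omega), hpath i (v + 1) hv]
    · intro i
      have h1 : G (a + 1 + (b i + 1)) (pv N M s q (w.length + 1) (v * q + (s + i))) =
          G (a + 1 + (b i + 1)) (sv N M s q w.length v i) := by
        have h2 := R.hi (a + 1 + (b i + 1)) (by have := haiL i; have := hdpos i; omega)
          (pv N M s q (w.length + 1) (v * q + (s + i))) (sv N M s q w.length v i)
        rw [hKai i, pos_window hs hMs hq w i i hwN hv, sub_self, norm_zero] at h2
        exact sub_eq_zero.1 (norm_le_zero_iff.1 h2)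
      simp only
      rw [h1, hstor]
    · intro i j hij
      simp only
      rw [← smul_sub, norm_smul, Real.norm_of_nonneg (by positivity), ← hstor i j]
      have hκ : a + 1 + (b i + 1) ≤ L := by have := haiL i; have := hdpos i; omega
      have h1 := R.lo _ hκ (pv N M s q (w.length + 1) (v * q + (s + j)))
        (sv N M s q w.length v j)
      have h2 := R.hi _ hκ (pv N M s q (w.length + 1) (v * q + (s + j)))
        (sv N M s q w.length v j)
      rw [hKai i, hnorm i j hij] at h1 h2
      have hql : (0 : ℝ) < (q : ℝ) ^ w.length := by positivity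
      constructor
      · calc m * Real.sqrt 2 * δ = (q : ℝ) ^ w.length *
              (m * (Real.sqrt 2 * (δ / (q : ℝ) ^ w.length))) := by (clear * - hq0 hδ; field_simp)
          _ ≤ _ := mul_le_mul_of_nonneg_left h1 hql.le
      · calc _ ≤ (q : ℝ) ^ w.length * (Real.sqrt 2 * (δ / (q : ℝ) ^ w.length)) :=
              mul_le_mul_of_nonneg_left h2 hql.le
          _ = _ := by (clear * - hq0 hδ; field_simp)
    · intro i u hu
      have hv' : v * q + u < q ^ (w ++ [i]).length := by
        rw [List.length_append, List.length_singleton, pow_succ]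
        have : (v + 1) * q ≤ q ^ w.length * q := Nat.mul_le_mul_right _ hv
        nlinarith only [hu, this]
      have h1 := IH (w ++ [i]) (v * q + u) (a + 1 + (b i + 1)) (by simp; omega) hv' (hb2 i)
        (haiL i)
      rw [List.length_append, List.length_singleton, Lam_succ s q δ _ v hu] at h1
      simp only
      rw [smul_smul, smul_smul, ← pow_succ']
      exact h1

end Vale.Agent.P208

/-! ## UCov -/


/-! P208: angle condition, covering condition and bounds for the positions of the `u`-layer. -/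

namespace Vale.Agent.P208

open scoped RealInnerProductSpace

variable {N M s q : ℕ} {δ : ℝ}

/-! ### the space -/

theorem EU_norm_sq (x : EU N M) :
    ‖x‖ ^ 2 = x none ^ 2 + ∑ l : Fin N, ∑ i : Fin M, x (some (l, i)) ^ 2 := by
  rw [EuclideanSpace.norm_sq_eq]
  simp only [Real.norm_eq_abs, sq_abs]
  rw [Fintype.sum_option, Fintype.sum_prod_type]

theorem EU_inner (x y : EU N M) :
    ⟪x, y⟫ = ∑ o, x o * y o := by
  rw [PiLp.inner_apply]
  refine Finset.sum_congr rfl fun o _ => ?_
  simp [mul_comm]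

theorem gpos_apply_none (δ lam : ℝ) (W : ℕ → Fin M) (θ β : ℕ → ℝ) (p : Strand N M s q) :
    gpos δ lam W θ β p none = lam * p.x := rfl

theorem gpos_apply_some (δ lam : ℝ) (W : ℕ → Fin M) (θ β : ℕ → ℝ) (p : Strand N M s q) (l : Fin N)
    (i : Fin M) :
    gpos δ lam W θ β p (some (l, i)) = lam *
        ((if (l : ℕ) < p.lv ∧ W l = i then
            θ l * (δ / (q : ℝ) ^ (l : ℕ) * chi s q ((q : ℝ) ^ (l : ℕ) * p.x)) else 0) +
          (if (l : ℕ) = p.lv ∧ i = p.j then β l * (δ / (q : ℝ) ^ (l : ℕ)) else 0)) := rfl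

/-! ### the trapezoid -/

theorem chi_eq (s q : ℕ) (y : ℝ) : chi s q y = min 1 ((q : ℝ) / s * |y - round y|) := by
  unfold chi
  rw [abs_sub_round_eq_min, mul_min_of_nonneg _ _ (by positivity)]
  congr 1
  congr 1
  · ring
  · ring

theorem chi_nonneg (s q : ℕ) (y : ℝ) : 0 ≤ chi s q y := by
  rw [chi_eq]
  exact le_min zero_le_one (by positivity)

theorem chi_le_one (s q : ℕ) (y : ℝ) : chi s q y ≤ 1 := min_le_left _ _

theorem chi_int (s q : ℕ) (k : ℕ) : chi s q (k : ℝ) = 0 := by
  rw [chi_eq]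
  simp only [round_natCast, Int.cast_natCast, sub_self, abs_zero, mul_zero, zero_le_one, inf_of_le_right]

theorem abs_sub_round_lip (y y' : ℝ) : |y - round y| ≤ |y' - round y'| + |y - y'| := by
  have h1 := round_le y (round y')
  have h2 : |y - (round y' : ℝ)| ≤ |y' - round y'| + |y - y'| := by
    have : y - (round y' : ℝ) = (y' - round y') + (y - y') := by ring
    rw [this]
    exact abs_add_le _ _
  exact h1.trans h2

theorem chi_lip (s q : ℕ) (y y' : ℝ) :
    |chi s q y - chi s q y'| ≤ (q : ℝ) / s * |y - y'| := by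
  have h : ∀ y y' : ℝ, chi s q y ≤ chi s q y' + (q : ℝ) / s * |y - y'| := by
    intro y y'
    have h0 : (0 : ℝ) ≤ (q : ℝ) / s := by positivity
    have h1 := mul_le_mul_of_nonneg_left (abs_sub_round_lip y y') h0
    rw [chi_eq, chi_eq]
    have h2 : 0 ≤ (q : ℝ) / s * |y - y'| := by positivity
    rcases le_total 1 ((q : ℝ) / s * |y' - round y'|) with h3 | h3
    · rw [min_eq_left h3]
      exact (min_le_left _ _).trans (by linarith only [h2])
    · rw [min_eq_right h3]
      refine (min_le_right _ _).trans ?_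
      linarith only [h1]
  rw [abs_le]
  have a1 := h y y'
  have a2 := h y' y
  rw [abs_sub_comm y' y] at a2
  constructor <;> linarith only [a1, a2]

/-! ### parameters -/

theorem UPar.qpos (hU : UPar N M s q δ) : (0 : ℝ) < q := by
  have := hU.hq3
  have h2 : 0 < q := by omega
  exact_mod_cast h2

theorem UPar.spos (hU : UPar N M s q δ) : (0 : ℝ) < s := by exact_mod_cast hU.hs

theorem UPar.q_div_s (hU : UPar N M s q δ) : (q : ℝ) / s ≤ 3 := by
  rw [div_le_iff₀ hU.spos]
  have h1 := hU.hq
  have h2 := hU.hMs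
  exact_mod_cast (by omega : q ≤ 3 * s)

theorem UPar.one_le_q (hU : UPar N M s q δ) : (1 : ℝ) ≤ q := by
  have h1 := hU.hq3
  exact_mod_cast (by omega : 1 ≤ q)

theorem UPar.one_le_pow (hU : UPar N M s q δ) (l : ℕ) : (1 : ℝ) ≤ (q : ℝ) ^ l :=
  one_le_pow₀ hU.one_le_q

theorem UPar.div_pow_le (hU : UPar N M s q δ) (l : ℕ) : δ / (q : ℝ) ^ l ≤ δ :=
  div_le_self hU.hδ.le (hU.one_le_pow l)

/-! ### the path points -/

/-- the point of the path at `x` -/
noncomputable def pfull (N s q : ℕ) (δ : ℝ) (lam : ℝ) (W : ℕ → Fin M) (θ : ℕ → ℝ)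
    (x : ℝ) : EU N M :=
  WithLp.toLp 2 fun o => match o with
    | none => lam * x
    | some (l, i) => lam * (if W l = i then
            θ l * (δ / (q : ℝ) ^ (l : ℕ) * chi s q ((q : ℝ) ^ (l : ℕ) * x)) else 0)

theorem pfull_none (lam : ℝ) (W : ℕ → Fin M) (θ : ℕ → ℝ) (x : ℝ) :
    pfull N s q δ lam W θ x none = lam * x := rfl

theorem pfull_some (lam : ℝ) (W : ℕ → Fin M) (θ : ℕ → ℝ) (x : ℝ) (l : Fin N) (i : Fin M) :
    pfull N s q δ lam W θ x (some (l, i)) = lam * (if W l = i then
            θ l * (δ / (q : ℝ) ^ (l : ℕ) * chi s q ((q : ℝ) ^ (l : ℕ) * x)) else 0) := rfl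

theorem pfull_lip (hU : UPar N M s q δ) (lam : ℝ) (W : ℕ → Fin M) {θ : ℕ → ℝ}
    (hθ : ∀ l, 0 ≤ θ l ∧ θ l ≤ 1) (x x' : ℝ) :
    ‖pfull N s q δ lam W θ x - pfull N s q δ lam W θ x'‖ ≤ 2 * |lam * (x - x')| := by
  have hq := hU.qpos
  have hδ := hU.hδ
  refine abs_le_of_sq_le_sq' ?_ (by (clear * -; positivity)) |>.2
  rw [EU_norm_sq, mul_pow, sq_abs]
  have h1 : ∀ (l : Fin N) (i : Fin M), (pfull N s q δ lam W θ x - pfull N s q δ lam W θ x')
      (some (l, i)) ^ 2 ≤ if W l = i then 9 * δ ^ 2 * (lam * (x - x')) ^ 2 else 0 := by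
    intro l i
    rw [PiLp.sub_apply, pfull_some, pfull_some]
    by_cases h : W l = i
    · simp only [h, if_true]
      have hql : (0 : ℝ) < (q : ℝ) ^ (l : ℕ) := by positivity
      have e : lam * (θ l * (δ / (q : ℝ) ^ (l : ℕ) * chi s q ((q : ℝ) ^ (l : ℕ) * x))) -
          lam * (θ l * (δ / (q : ℝ) ^ (l : ℕ) * chi s q ((q : ℝ) ^ (l : ℕ) * x'))) =
          lam * θ l * (δ / (q : ℝ) ^ (l : ℕ)) *
            (chi s q ((q : ℝ) ^ (l : ℕ) * x) - chi s q ((q : ℝ) ^ (l : ℕ) * x')) := by ring
      rw [e]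
      have h2 := chi_lip s q ((q : ℝ) ^ (l : ℕ) * x) ((q : ℝ) ^ (l : ℕ) * x')
      rw [← mul_sub, abs_mul, abs_of_pos hql] at h2
      have h3 : |chi s q ((q : ℝ) ^ (l : ℕ) * x) - chi s q ((q : ℝ) ^ (l : ℕ) * x')| ≤
          3 * ((q : ℝ) ^ (l : ℕ) * |x - x'|) :=
        h2.trans (mul_le_mul_of_nonneg_right hU.q_div_s (by (clear * - hq; positivity)))
      have h4 : |lam * θ l * (δ / (q : ℝ) ^ (l : ℕ)) *
            (chi s q ((q : ℝ) ^ (l : ℕ) * x) - chi s q ((q : ℝ) ^ (l : ℕ) * x'))| ≤
          3 * δ * |lam * (x - x')| := by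
        rw [abs_mul, abs_mul, abs_mul, abs_of_nonneg (hθ l).1,
          abs_of_pos (div_pos hδ hql), abs_mul lam]
        calc |lam| * θ l * (δ / (q : ℝ) ^ (l : ℕ)) *
            |chi s q ((q : ℝ) ^ (l : ℕ) * x) - chi s q ((q : ℝ) ^ (l : ℕ) * x')|
            ≤ |lam| * 1 * (δ / (q : ℝ) ^ (l : ℕ)) * (3 * ((q : ℝ) ^ (l : ℕ) * |x - x'|)) := by
              refine mul_le_mul ?_ h3 (abs_nonneg _) (by positivity)
              exact mul_le_mul_of_nonneg_right
                (mul_le_mul_of_nonneg_left (hθ l).2 (abs_nonneg _)) (by positivity)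
          _ = 3 * δ * (|lam| * |x - x'|) := by field_simp
      have h5 := pow_le_pow_left₀ (abs_nonneg _) h4 2
      have e6 : (3 * δ * |lam * (x - x')|) ^ 2 = 9 * δ ^ 2 * (lam * (x - x')) ^ 2 := by
        rw [mul_pow, sq_abs]
        ring
      rw [sq_abs, e6] at h5
      exact h5
    · simp only [h, if_false]
      norm_num
  have h2 : ∑ l : Fin N, ∑ i : Fin M, (pfull N s q δ lam W θ x - pfull N s q δ lam W θ x')
      (some (l, i)) ^ 2 ≤ ∑ l : Fin N, 9 * δ ^ 2 * (lam * (x - x')) ^ 2 := by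
    refine Finset.sum_le_sum fun l _ => ?_
    refine (Finset.sum_le_sum fun i _ => h1 l i).trans (le_of_eq ?_)
    rw [Finset.sum_ite_eq Finset.univ (W l) (fun _ => 9 * δ ^ 2 * (lam * (x - x')) ^ 2)]
    simp only [Finset.mem_univ, ↓reduceIte]
  rw [Finset.sum_const, Finset.card_univ, Fintype.card_fin, nsmul_eq_mul] at h2
  rw [PiLp.sub_apply, pfull_none, pfull_none, ← mul_sub]
  have h3 := hU.hN
  nlinarith only [h2, h3]


/-! ### strands and path points -/

theorem Strand.x_storage (hU : UPar N M s q δ) (p : Strand N M s q) (h : p.lv < N) :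
    ∃ k < q ^ p.lv, p.v = (k * q + (s + p.j)) * q ^ (N - (p.lv + 1)) ∧
      (q : ℝ) ^ (p.lv + 1) * p.x = ((k * q + (s + p.j) : ℕ) : ℝ) := by
  rcases p.ok with ⟨h1, _⟩ | ⟨_, k, hk, hv⟩
  · omega
  · refine ⟨k, hk, hv, ?_⟩
    have hq := hU.qpos
    unfold Strand.x
    rw [hv]
    have e : (q : ℝ) ^ N = (q : ℝ) ^ (p.lv + 1) * (q : ℝ) ^ (N - (p.lv + 1)) := by
      rw [← pow_add]
      congr 1
      omega
    rw [e]
    push_cast
    have h3 : (q : ℝ) ^ (N - (p.lv + 1)) ≠ 0 := by positivity
    have h4 : (q : ℝ) ^ (p.lv + 1) ≠ 0 := by positivity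
    field_simp

theorem chi_above (hU : UPar N M s q δ) (p : Strand N M s q) (h : p.lv < N) {l : ℕ}
    (hl : p.lv < l) : chi s q ((q : ℝ) ^ l * p.x) = 0 := by
  obtain ⟨k, _, _, hx⟩ := p.x_storage hU h
  have e : (q : ℝ) ^ l * p.x =
      ((q ^ (l - (p.lv + 1)) * (k * q + (s + p.j)) : ℕ) : ℝ) := by
    have e2 : l = (l - (p.lv + 1)) + (p.lv + 1) := by omega
    conv_lhs => rw [e2]
    rw [pow_add, mul_assoc, hx]
    push_cast
    ring
  rw [e, chi_int]

theorem gpos_path (lam : ℝ) (W : ℕ → Fin M) (θ β : ℕ → ℝ) (p : Strand N M s q)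
    (h : p.lv = N) : gpos δ lam W θ β p = pfull N s q δ lam W θ p.x := by
  ext o
  match o with
  | none => rfl
  | some (l, i) =>
    rw [gpos_apply_some, pfull_some]
    have h1 : (l : ℕ) < p.lv := by rw [h]; exact l.2
    have h2 : ¬ (l : ℕ) = p.lv := h1.ne
    simp only [h1, true_and, h2, false_and, ↓reduceIte, add_zero, mul_ite, mul_zero]

theorem gpos_storage (hU : UPar N M s q δ) (lam : ℝ) (W : ℕ → Fin M) {θ β : ℕ → ℝ}
    (hθ : ∀ l, 0 ≤ θ l ∧ θ l ≤ 1) (hβ : ∀ l, 0 ≤ β l ∧ β l ≤ 1) (p : Strand N M s q)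
    (h : p.lv < N) :
    ‖gpos δ lam W θ β p - pfull N s q δ lam W θ p.x‖ ≤ 2 * (|lam| * (δ / (q : ℝ) ^ p.lv)) := by
  have hq := hU.qpos
  have hδ := hU.hδ
  refine abs_le_of_sq_le_sq' ?_ (by (clear * - hδ hq; positivity)) |>.2
  rw [EU_norm_sq]
  have h0 : (gpos δ lam W θ β p - pfull N s q δ lam W θ p.x) none = 0 := by
    rw [PiLp.sub_apply, gpos_apply_none, pfull_none, sub_self]
  rw [h0]
  have hD : 0 ≤ δ / (q : ℝ) ^ p.lv := by positivity
  have h1 : ∀ (l : Fin N) (i : Fin M), (gpos δ lam W θ β p - pfull N s q δ lam W θ p.x)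
      (some (l, i)) ^ 2 ≤ if (l : ℕ) = p.lv then
        2 * (|lam| * (δ / (q : ℝ) ^ p.lv)) ^ 2 *
          ((if p.j = i then 1 else 0) + (if W l = i then 1 else 0)) else 0 := by
    intro l i
    rw [PiLp.sub_apply, gpos_apply_some, pfull_some]
    rcases lt_trichotomy (l : ℕ) p.lv with hl | hl | hl
    · have h2 : ¬ (l : ℕ) = p.lv := hl.ne
      simp only [hl, true_and, h2, false_and, ↓reduceIte, add_zero, mul_ite, mul_zero, sub_self, ne_eq, OfNat.ofNat_ne_zero, not_false_eq_true, zero_pow, Std.le_refl]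
    · simp only [hl, lt_irrefl, false_and, if_false, true_and, if_true, zero_add]
      rw [← mul_sub, mul_pow, mul_pow, sq_abs]
      have hc0 := chi_nonneg s q ((q : ℝ) ^ p.lv * p.x)
      have hc1 := chi_le_one s q ((q : ℝ) ^ p.lv * p.x)
      set D := δ / (q : ℝ) ^ p.lv with hDdef
      set c := chi s q ((q : ℝ) ^ p.lv * p.x) with hcdef
      have hA : ∀ P : Prop, [Decidable P] → 0 ≤ (if P then β p.lv * D else 0) ∧
          (if P then β p.lv * D else 0) ≤ D * (if P then 1 else 0) := by
        intro P _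
        by_cases hP : P
        · simp only [hP, if_true, mul_one]
          exact ⟨mul_nonneg (hβ _).1 hD, mul_le_of_le_one_left hD (hβ _).2⟩
        · simp [hP]
      have hB : ∀ P : Prop, [Decidable P] → 0 ≤ (if P then θ p.lv * (D * c) else 0) ∧
          (if P then θ p.lv * (D * c) else 0) ≤ D * (if P then 1 else 0) := by
        intro P _
        by_cases hP : P
        · simp only [hP, if_true, mul_one]
          refine ⟨mul_nonneg (hθ _).1 (mul_nonneg hD hc0), ?_⟩
          calc θ p.lv * (D * c) ≤ 1 * (D * 1) :=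
                mul_le_mul (hθ _).2 (mul_le_mul_of_nonneg_left hc1 hD)
                  (mul_nonneg hD hc0) zero_le_one
            _ = D := by ring
        · simp [hP]
      obtain ⟨a1, a2⟩ := hA (i = p.j)
      obtain ⟨b1, b2⟩ := hB (W p.lv = i)
      have e1 : (if i = p.j then (1 : ℝ) else 0) = if p.j = i then 1 else 0 := by
        by_cases h : i = p.j
        · simp [h]
        · simp [h, Ne.symm h]
      rw [e1] at a2
      set A := (if i = p.j then β p.lv * D else 0) with hAdef
      set B := (if W p.lv = i then θ p.lv * (D * c) else 0) with hBdef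
      have i1 : (if p.j = i then (1 : ℝ) else 0) ^ 2 = if p.j = i then 1 else 0 := by
        split_ifs <;> norm_num
      have i2 : (if W p.lv = i then (1 : ℝ) else 0) ^ 2 = if W p.lv = i then 1 else 0 := by
        split_ifs <;> norm_num
      have hA2 : A ^ 2 ≤ D ^ 2 * (if p.j = i then 1 else 0) := by
        calc A ^ 2 ≤ (D * (if p.j = i then 1 else 0)) ^ 2 := pow_le_pow_left₀ a1 a2 2
          _ = _ := by rw [mul_pow, i1]
      have hB2 : B ^ 2 ≤ D ^ 2 * (if W p.lv = i then 1 else 0) := by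
        calc B ^ 2 ≤ (D * (if W p.lv = i then 1 else 0)) ^ 2 := pow_le_pow_left₀ b1 b2 2
          _ = _ := by rw [mul_pow, i2]
      have h3 : (A - B) ^ 2 ≤ 2 * (A ^ 2 + B ^ 2) := by nlinarith only [sq_nonneg (A + B)]
      have h4 : lam ^ 2 * (A - B) ^ 2 ≤ lam ^ 2 * (2 * (D ^ 2 * (if p.j = i then 1 else 0) +
          D ^ 2 * (if W p.lv = i then 1 else 0))) :=
        mul_le_mul_of_nonneg_left (h3.trans (by linarith only [hA2, hB2])) (sq_nonneg _)
      refine h4.trans (le_of_eq ?_)
      ring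
    · have h2 : ¬ (l : ℕ) = p.lv := hl.ne'
      have h3 : ¬ (l : ℕ) < p.lv := not_lt.2 hl.le
      rw [chi_above hU p h hl]
      simp [h2, h3]
  have h2 : ∑ l : Fin N, ∑ i : Fin M, (gpos δ lam W θ β p - pfull N s q δ lam W θ p.x)
      (some (l, i)) ^ 2 ≤ ∑ l : Fin N, (if (l : ℕ) = p.lv then
        2 * (|lam| * (δ / (q : ℝ) ^ p.lv)) ^ 2 * 2 else 0) := by
    refine Finset.sum_le_sum fun l _ => ?_
    refine (Finset.sum_le_sum fun i _ => h1 l i).trans (le_of_eq ?_)
    by_cases hl : (l : ℕ) = p.lv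
    · simp only [hl, if_true]
      rw [← Finset.mul_sum, Finset.sum_add_distrib, Finset.sum_ite_eq, Finset.sum_ite_eq]
      simp only [Finset.mem_univ, ↓reduceIte, mul_eq_mul_left_iff, mul_eq_zero, OfNat.ofNat_ne_zero, ne_eq, not_false_eq_true, pow_eq_zero_iff, abs_eq_zero, div_eq_zero_iff, pow_eq_zero_iff', Nat.cast_eq_zero, false_or]
      norm_num
    · simp only [hl, ↓reduceIte, Finset.sum_const_zero]
  have h3 : ∑ l : Fin N, (if (l : ℕ) = p.lv then
        2 * (|lam| * (δ / (q : ℝ) ^ p.lv)) ^ 2 * 2 else 0) =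
        2 * (|lam| * (δ / (q : ℝ) ^ p.lv)) ^ 2 * 2 := by
    rw [Finset.sum_eq_single (⟨p.lv, h⟩ : Fin N)]
    · simp
    · intro b _ hb
      rw [if_neg]
      intro hb'
      exact hb (Fin.ext hb')
    · simp only [Finset.mem_univ, not_true_eq_false, ↓reduceIte, mul_eq_zero, OfNat.ofNat_ne_zero, ne_eq, not_false_eq_true, pow_eq_zero_iff, abs_eq_zero, div_eq_zero_iff, pow_eq_zero_iff', Nat.cast_eq_zero, false_or, or_false, IsEmpty.forall_iff]
  rw [h3] at h2
  have e : (2 * (|lam| * (δ / (q : ℝ) ^ p.lv))) ^ 2 =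
      2 * (|lam| * (δ / (q : ℝ) ^ p.lv)) ^ 2 * 2 := by ring
  rw [e]
  linarith only [h2]

/-- two storage strands that are close to each other horizontally coincide -/
theorem Strand.eq_of_close (hU : UPar N M s q δ) {p p' : Strand N M s q} (h : p.lv ≤ p'.lv)
    (h' : p'.lv < N) (hx : (q : ℝ) ^ (p'.lv + 1) * |p.x - p'.x| < 1) : p = p' := by
  have hq := hU.qpos
  obtain ⟨k, _, hv, hkx⟩ := p.x_storage hU (h.trans_lt h')
  obtain ⟨k', _, hv', hkx'⟩ := p'.x_storage hU h'
  have e1 : (q : ℝ) ^ (p'.lv + 1) * p.x =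
      ((q ^ (p'.lv - p.lv) * (k * q + (s + p.j)) : ℕ) : ℝ) := by
    have e2 : p'.lv + 1 = (p'.lv - p.lv) + (p.lv + 1) := by omega
    rw [e2, pow_add, mul_assoc, hkx]
    push_cast
    ring
  have h3 : (q : ℝ) ^ (p'.lv + 1) * |p.x - p'.x| =
      |((q ^ (p'.lv - p.lv) * (k * q + (s + p.j)) : ℕ) : ℝ) -
        ((k' * q + (s + p'.j) : ℕ) : ℝ)| := by
    have hpq : (0 : ℝ) < (q : ℝ) ^ (p'.lv + 1) := by (clear * - hq; positivity)
    rw [← e1, ← hkx', ← mul_sub, abs_mul, abs_of_pos hpq]
  rw [h3] at hx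
  have h4 : q ^ (p'.lv - p.lv) * (k * q + (s + p.j)) = k' * q + (s + p'.j) := by
    have h5 : |((q ^ (p'.lv - p.lv) * (k * q + (s + p.j)) : ℕ) : ℤ) -
        ((k' * q + (s + p'.j) : ℕ) : ℤ)| < 1 := by
      exact_mod_cast hx
    have h6 := Int.abs_lt_one_iff.1 h5
    have h7 := sub_eq_zero.1 h6
    exact_mod_cast h7
  have hs := hU.hs
  have hqe := hU.hq
  have hj := p.j.2
  have hj' := p'.j.2
  have hlv : p.lv = p'.lv := by
    by_contra hne
    have h5 : p'.lv - p.lv = (p'.lv - p.lv - 1) + 1 := by (clear * - h hne; omega)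
    rw [h5, pow_succ] at h4
    have h6 : (k' * q + (s + (p'.j : ℕ))) % q = 0 := by
      rw [← h4]
      have : q ^ (p'.lv - p.lv - 1) * q * (k * q + (s + (p.j : ℕ))) =
        q * (q ^ (p'.lv - p.lv - 1) * (k * q + (s + (p.j : ℕ)))) := by ring
      rw [this]
      exact Nat.mul_mod_right _ _
    rw [Nat.add_comm, Nat.add_mul_mod_self_right, Nat.mod_eq_of_lt (by omega)] at h6
    omega
  have h5 : k * q + (s + (p.j : ℕ)) = k' * q + (s + p'.j) := by
    rw [hlv, Nat.sub_self, pow_zero, one_mul] at h4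
    exact h4
  have h6 : (p.j : ℕ) = p'.j := by
    have h7 : (k * q + (s + (p.j : ℕ))) % q = (k' * q + (s + (p'.j : ℕ))) % q := by rw [h5]
    rw [Nat.add_comm, Nat.add_mul_mod_self_right, Nat.mod_eq_of_lt (by omega),
      Nat.add_comm (k' * q), Nat.add_mul_mod_self_right, Nat.mod_eq_of_lt (by omega)] at h7
    omega
  have hvv : p.v = p'.v := by rw [hv, hv', h5, hlv]
  cases p
  cases p'
  simp only at hlv h6 hvv
  subst hlv
  subst hvv
  have := Fin.ext h6
  subst this
  rfl

/-! ### U2 -/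

/-- U2: the covering condition for general positions -/
theorem cov_gpos (hU : UPar N M s q δ) {lam : ℝ} (h0 : 0 ≤ lam) (_h1 : lam ≤ 1)
    (W : ℕ → Fin M) {θ β : ℕ → ℝ} (hθ : ∀ l, 0 ≤ θ l ∧ θ l ≤ 1) (hβ : ∀ l, 0 ≤ β l ∧ β l ≤ 1)
    (z : EU N M) {R : ℝ} (hR : 0 < R) :
    ∃ cls : Strand N M s q → Fin covC, ∀ p p', ‖gpos δ lam W θ β p - z‖ ≤ R →
      ‖gpos δ lam W θ β p' - z‖ ≤ R → cls p = cls p' →
      ‖gpos δ lam W θ β p - gpos δ lam W θ β p'‖ ≤ R / 300 := by
  classical
  have hq := hU.qpos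
  have hδ := hU.hδ
  have hcoord : ∀ p : Strand N M s q, ‖gpos δ lam W θ β p - z‖ ≤ R →
      |lam * p.x - z none| ≤ R := by
    intro p hp
    have h1 := PiLp.norm_apply_le (gpos δ lam W θ β p - z) none
    rw [PiLp.sub_apply, gpos_apply_none, Real.norm_eq_abs] at h1
    exact h1.trans hp
  let near : Strand N M s q → Prop := fun p =>
    ‖gpos δ lam W θ β p - pfull N s q δ lam W θ p.x‖ ≤ R / 1000
  let idx : Strand N M s q → ℕ := fun p => ⌊(lam * p.x - z none + R) * (1500 / R)⌋₊
  refine ⟨fun p => if near p then ⟨min (idx p) 9000, by unfold covC; omega⟩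
    else ⟨9999, by unfold covC; omega⟩, fun p p' hp hp' hcls => ?_⟩
  have hc := hcoord p hp
  have hc' := hcoord p' hp'
  by_cases hn : near p <;> by_cases hn' : near p'
  · -- both near
    simp only [hn, hn', if_true, Fin.mk.injEq] at hcls
    have hb : ∀ p : Strand N M s q, |lam * p.x - z none| ≤ R → idx p ≤ 3000 := by
      intro p hp
      have h2 : (lam * p.x - z none + R) * (1500 / R) ≤ 3000 := by
        have h3 : lam * p.x - z none + R ≤ 2 * R := by linarith only [(abs_le.1 hp).2]
        calc (lam * p.x - z none + R) * (1500 / R) ≤ 2 * R * (1500 / R) :=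
              mul_le_mul_of_nonneg_right h3 (by positivity)
          _ = 3000 := by field_simp; norm_num
      have h4 : idx p ≤ ⌊(3000 : ℝ)⌋₊ := Nat.floor_le_floor h2
      have h5 : ⌊(3000 : ℝ)⌋₊ = 3000 := by
        have := Nat.floor_natCast (R := ℝ) 3000
        exact_mod_cast this
      omega
    have hb1 := hb p hc
    have hb2 := hb p' hc'
    have hidx : idx p = idx p' := by omega
    have hfl : ∀ p : Strand N M s q, |lam * p.x - z none| ≤ R →
        (idx p : ℝ) ≤ (lam * p.x - z none + R) * (1500 / R) ∧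
        (lam * p.x - z none + R) * (1500 / R) < idx p + 1 := by
      intro p hp
      have h2 : 0 ≤ (lam * p.x - z none + R) * (1500 / R) := by
        have h3 : 0 ≤ lam * p.x - z none + R := by linarith only [(abs_le.1 hp).1]
        (clear * - h3 hR; positivity)
      exact ⟨Nat.floor_le h2, Nat.lt_floor_add_one _⟩
    obtain ⟨f1, f2⟩ := hfl p hc
    obtain ⟨f3, f4⟩ := hfl p' hc'
    rw [hidx] at f1 f2
    have hx : |lam * (p.x - p'.x)| ≤ R / 1500 := by
      have e : lam * (p.x - p'.x) * (1500 / R) =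
        (lam * p.x - z none + R) * (1500 / R) - (lam * p'.x - z none + R) * (1500 / R) := by ring
      have h2 : |lam * (p.x - p'.x) * (1500 / R)| ≤ 1 := by
        rw [e, abs_le]
        constructor <;> linarith only [f1, f4, f2, f3]
      rw [abs_mul, abs_of_pos (by positivity : (0 : ℝ) < 1500 / R)] at h2
      rw [mul_div_assoc', div_le_one hR] at h2
      rw [le_div_iff₀ (by norm_num)]
      exact h2
    have hl := pfull_lip hU lam W hθ p.x p'.x
    have e : gpos δ lam W θ β p - gpos δ lam W θ β p' =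
        (gpos δ lam W θ β p - pfull N s q δ lam W θ p.x) +
        (pfull N s q δ lam W θ p.x - pfull N s q δ lam W θ p'.x) -
        (gpos δ lam W θ β p' - pfull N s q δ lam W θ p'.x) := by abel
    rw [e]
    have hn1 : ‖gpos δ lam W θ β p - pfull N s q δ lam W θ p.x‖ ≤ R / 1000 := hn
    have hn2 : ‖gpos δ lam W θ β p' - pfull N s q δ lam W θ p'.x‖ ≤ R / 1000 := hn'
    calc _ ≤ ‖(gpos δ lam W θ β p - pfull N s q δ lam W θ p.x) +
        (pfull N s q δ lam W θ p.x - pfull N s q δ lam W θ p'.x)‖ +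
        ‖gpos δ lam W θ β p' - pfull N s q δ lam W θ p'.x‖ := norm_sub_le _ _
      _ ≤ (R / 1000 + 2 * (R / 1500)) + R / 1000 := by
          refine add_le_add ((norm_add_le _ _).trans (add_le_add hn1 ?_)) hn2
          linarith only [hx, hl]
      _ = R / 300 := by ring
  · exfalso
    simp only [hn, hn', if_true, if_false, Fin.mk.injEq] at hcls
    omega
  · exfalso
    simp only [hn, hn', if_true, if_false, Fin.mk.injEq] at hcls
    omega
  · -- both far: they coincide
    have hfar : ∀ p : Strand N M s q, ¬ near p → p.lv < N ∧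
        R / 1000 < 2 * (lam * (δ / (q : ℝ) ^ p.lv)) := by
      intro p hp
      have hlv : p.lv < N := by
        rcases p.ok with ⟨h2, _⟩ | ⟨h2, _⟩
        · exfalso
          apply hp
          show ‖gpos δ lam W θ β p - pfull N s q δ lam W θ p.x‖ ≤ R / 1000
          rw [gpos_path lam W θ β p h2, sub_self, norm_zero]
          positivity
        · exact h2
      refine ⟨hlv, ?_⟩
      have h2 := gpos_storage hU lam W hθ hβ p hlv
      rw [abs_of_nonneg h0] at h2
      have h3 : R / 1000 < ‖gpos δ lam W θ β p - pfull N s q δ lam W θ p.x‖ := not_le.1 hp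
      linarith only [hp, h2]
    obtain ⟨hlv, hf⟩ := hfar p hn
    obtain ⟨hlv', hf'⟩ := hfar p' hn'
    have hlam : 0 < lam := by
      rcases h0.lt_or_eq with h | h
      · exact h
      · exfalso
        rw [← h] at hf
        have : 0 < R / 1000 := by positivity
        linarith only [hR, hf]
    have hclose : ∀ p p' : Strand N M s q, |lam * p.x - z none| ≤ R →
        |lam * p'.x - z none| ≤ R → R / 1000 < 2 * (lam * (δ / (q : ℝ) ^ p'.lv)) →
        (q : ℝ) ^ (p'.lv + 1) * |p.x - p'.x| < 1 := by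
      intro p p' hc hc' hf'
      have h2 : lam * |p.x - p'.x| ≤ 2 * R := by
        have e : lam * |p.x - p'.x| = |(lam * p.x - z none) - (lam * p'.x - z none)| := by
          rw [← abs_of_pos hlam, ← abs_mul, abs_of_pos hlam]
          congr 1
          ring
        rw [e]
        have := abs_sub (lam * p.x - z none) (lam * p'.x - z none)
        linarith only [hc, hc', this]
      have h3 : lam * |p.x - p'.x| < lam * (4000 * (δ / (q : ℝ) ^ p'.lv)) := by linarith only [hf', h2]
      have h4 : |p.x - p'.x| < 4000 * (δ / (q : ℝ) ^ p'.lv) := lt_of_mul_lt_mul_left h3 h0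
      have h5 : (q : ℝ) ^ (p'.lv + 1) * |p.x - p'.x| <
          (q : ℝ) ^ (p'.lv + 1) * (4000 * (δ / (q : ℝ) ^ p'.lv)) :=
        mul_lt_mul_of_pos_left h4 (by (clear * - hq; positivity))
      refine h5.trans_le ?_
      have h6 : (q : ℝ) ^ (p'.lv + 1) * (4000 * (δ / (q : ℝ) ^ p'.lv)) = 4000 * q * δ := by
        rw [pow_succ]
        (clear * - hq hδ; field_simp)
      rw [h6]
      have h7 := hU.hδq
      rw [le_div_iff₀ (by (clear * - hq; positivity))] at h7
      linarith only [h7]
    have heq : p = p' := by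
      rcases le_total p.lv p'.lv with h | h
      · exact Strand.eq_of_close hU h hlv' (hclose p p' hc hc' hf')
      · exact (Strand.eq_of_close hU h hlv (hclose p' p hc' hc hf)).symm
    rw [heq, sub_self, norm_zero]
    positivity

/-! ### U1 -/

theorem inner_nonneg_of_coord (x y : EU N M) (h : ∀ o, 0 ≤ x o * y o) : 0 ≤ ⟪x, y⟫ := by
  rw [EU_inner]
  exact Finset.sum_nonneg fun o _ => h o

theorem St.pos_none_st [NeZero M] (w : List (Fin M)) (b : Bool) (p : Strand N M s q) :
    St.pos δ (.st w b) p none = p.x := by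
  show (1 : ℝ) * p.x = p.x
  rw [one_mul]

theorem St.pos_some_st [NeZero M] (w : List (Fin M)) (b : Bool) (p : Strand N M s q) (l : Fin N)
    (i : Fin M) :
    St.pos δ (.st w b) p (some (l, i)) =
      (if (l : ℕ) < p.lv ∧ w.getD l 0 = i then
          (if (l : ℕ) < w.length then 1 else 0) *
            (δ / (q : ℝ) ^ (l : ℕ) * chi s q ((q : ℝ) ^ (l : ℕ) * p.x)) else 0) +
        (if (l : ℕ) = p.lv ∧ i = p.j then
          (if (l : ℕ) < w.length then 1 else if (l : ℕ) = w.length ∧ b = true then 1 else 0) *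
            (δ / (q : ℝ) ^ (l : ℕ)) else 0) := by
  unfold St.pos
  rw [gpos_apply_some]
  exact one_mul _

theorem St.pos_coll [NeZero M] (p : Strand N M s q) : St.pos δ (.coll) p = 0 := by
  ext o
  match o with
  | none =>
    show (0 : ℝ) * p.x = 0
    rw [zero_mul]
  | some (l, i) =>
    unfold St.pos
    rw [gpos_apply_some]
    simp only [lam, zero_mul, PiLp.zero_apply]

theorem St.pos_lt [NeZero M] {w : List (Fin M)} {b : Bool} (p : Strand N M s q) {l : Fin N}
    (h : (l : ℕ) < w.length) (i : Fin M) :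
    St.pos δ (.st w b) p (some (l, i)) =
      (if (l : ℕ) < p.lv ∧ w.getD l 0 = i then
            (δ / (q : ℝ) ^ (l : ℕ) * chi s q ((q : ℝ) ^ (l : ℕ) * p.x)) else 0) +
        (if (l : ℕ) = p.lv ∧ i = p.j then δ / (q : ℝ) ^ (l : ℕ) else 0) := by
  rw [St.pos_some_st]
  simp only [h, if_true, one_mul]

theorem St.pos_ge_false [NeZero M] {w : List (Fin M)} (p : Strand N M s q) {l : Fin N}
    (h : w.length ≤ (l : ℕ)) (i : Fin M) :
    St.pos δ (.st w false) p (some (l, i)) = 0 := by
  rw [St.pos_some_st]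
  simp only [List.getD_eq_getElem?_getD, not_lt.2 h, not_false_eq_true, getElem?_neg, Option.getD_none, ↓reduceIte, zero_mul, ite_self, Bool.false_eq_true, and_false, add_zero]

theorem St.pos_eq_true [NeZero M] {w : List (Fin M)} (p : Strand N M s q) {l : Fin N}
    (h : (l : ℕ) = w.length) (i : Fin M) :
    St.pos δ (.st w true) p (some (l, i)) =
      if (l : ℕ) = p.lv ∧ i = p.j then δ / (q : ℝ) ^ (l : ℕ) else 0 := by
  rw [St.pos_some_st]
  simp only [h, List.getD_eq_getElem?_getD, lt_self_iff_false, not_false_eq_true, getElem?_neg, Option.getD_none, ↓reduceIte, zero_mul, ite_self, and_self, one_mul, zero_add]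

theorem St.pos_gt [NeZero M] {w : List (Fin M)} {b : Bool} (p : Strand N M s q) {l : Fin N}
    (h : w.length < (l : ℕ)) (i : Fin M) :
    St.pos δ (.st w b) p (some (l, i)) = 0 := by
  rw [St.pos_some_st]
  simp only [List.getD_eq_getElem?_getD, not_lt.2 h.le, not_false_eq_true, getElem?_neg, Option.getD_none, ↓reduceIte, zero_mul, ite_self, h.ne', false_and, add_zero]

theorem getD_append_lt {α : Type*} (w : List α) (i d : α) {l : ℕ} (h : l < w.length) :
    (w ++ [i]).getD l d = w.getD l d := by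
  rw [List.getD_eq_getElem?_getD, List.getD_eq_getElem?_getD, List.getElem?_append_left h]

theorem getD_append_eq {α : Type*} (w : List α) (i d : α) {l : ℕ} (h : l = w.length) :
    (w ++ [i]).getD l d = i := by
  rw [List.getD_eq_getElem?_getD, h]
  simp only [List.length_append, List.length_cons, List.length_nil, zero_add, lt_add_iff_pos_right, Order.lt_one_iff, getElem?_pos, Std.le_refl, List.getElem_append_right, tsub_self, List.getElem_cons_zero, Option.getD_some]

theorem up_coord [NeZero M] (w : List (Fin M)) (p p' : Strand N M s q) (o) :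
    0 ≤ (St.pos δ (.st w false) p - St.pos δ (.st w false) p') o *
      (St.pos δ (.st w true) p - St.pos δ (.st w true) p') o := by
  simp only [PiLp.sub_apply]
  match o with
  | none =>
    simp only [St.pos_none_st]
    exact mul_self_nonneg _
  | some (l, i) =>
    rcases lt_or_ge (l : ℕ) w.length with h | h
    · simp only [St.pos_lt _ h]
      exact mul_self_nonneg _
    · simp only [St.pos_ge_false _ h]
      simp

theorem enter_coord [NeZero M] (hU : UPar N M s q δ) (w : List (Fin M)) (i : Fin M)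
    (p p' : Strand N M s q) (o) :
    0 ≤ (St.pos δ (.st w true) p - St.pos δ (.st w true) p') o *
      (St.pos δ (.st (w ++ [i]) false) p - St.pos δ (.st (w ++ [i]) false) p') o := by
  simp only [PiLp.sub_apply]
  match o with
  | none =>
    simp only [St.pos_none_st]
    exact mul_self_nonneg _
  | some (l, i') =>
    rcases lt_trichotomy (l : ℕ) w.length with h | h | h
    · have h' : (l : ℕ) < (w ++ [i]).length := by
        rw [List.length_append]
        omega
      simp only [St.pos_lt _ h, St.pos_lt _ h', getD_append_lt w i 0 h]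
      exact mul_self_nonneg _
    · have h' : (l : ℕ) < (w ++ [i]).length := by
        rw [List.length_append, h]
        simp only [List.length_cons, List.length_nil, zero_add, lt_add_iff_pos_right, Order.lt_one_iff]
      simp only [St.pos_eq_true _ h, St.pos_lt _ h', getD_append_eq w i 0 h]
      have hq := hU.qpos
      have hδ := hU.hδ
      have hc : 0 < δ / (q : ℝ) ^ (l : ℕ) := by (clear * - hδ hq; positivity)
      have key : ∀ p : Strand N M s q,
          ((if (l : ℕ) = p.lv ∧ i' = p.j then δ / (q : ℝ) ^ (l : ℕ) else 0) =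
            δ / (q : ℝ) ^ (l : ℕ) ∧
          (if (l : ℕ) < p.lv ∧ i = i' then
            (δ / (q : ℝ) ^ (l : ℕ) * chi s q ((q : ℝ) ^ (l : ℕ) * p.x)) else 0) = 0) ∨
          ((if (l : ℕ) = p.lv ∧ i' = p.j then δ / (q : ℝ) ^ (l : ℕ) else 0) = 0 ∧
          0 ≤ (if (l : ℕ) < p.lv ∧ i = i' then
            (δ / (q : ℝ) ^ (l : ℕ) * chi s q ((q : ℝ) ^ (l : ℕ) * p.x)) else 0) ∧
          (if (l : ℕ) < p.lv ∧ i = i' then
            (δ / (q : ℝ) ^ (l : ℕ) * chi s q ((q : ℝ) ^ (l : ℕ) * p.x)) else 0) ≤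
            δ / (q : ℝ) ^ (l : ℕ)) := by
        intro p
        by_cases h1 : (l : ℕ) = p.lv ∧ i' = p.j
        · left
          have h2 : ¬ ((l : ℕ) < p.lv ∧ i = i') := fun h3 => h3.1.ne h1.1
          rw [if_pos h1, if_neg h2]
          exact ⟨rfl, rfl⟩
        · right
          rw [if_neg h1]
          have hc0 := chi_nonneg s q ((q : ℝ) ^ (l : ℕ) * p.x)
          have hc1 := chi_le_one s q ((q : ℝ) ^ (l : ℕ) * p.x)
          by_cases h2 : (l : ℕ) < p.lv ∧ i = i'
          · rw [if_pos h2]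
            exact ⟨rfl, mul_nonneg hc.le hc0, mul_le_of_le_one_right hc.le hc1⟩
          · rw [if_neg h2]
            exact ⟨rfl, le_rfl, hc.le⟩
      rcases key p with ⟨a1, a2⟩ | ⟨a1, a2, a3⟩ <;> rcases key p' with ⟨b1, b2⟩ | ⟨b1, b2, b3⟩
      · rw [a1, a2, b1, b2]
        simp
      · rw [a1, a2, b1]
        refine mul_nonneg (by linarith only [hc]) (by linarith only [b3])
      · rw [a1, b1, b2]
        refine mul_nonneg_of_nonpos_of_nonpos (by linarith only [hc]) (by linarith only [a3])
      · rw [a1, b1]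
        simp only [sub_self, add_zero, zero_mul, Std.le_refl]
    · simp only [St.pos_gt _ h]
      simp

/-- U1: the angle condition -/
theorem inner_step [NeZero M] (hU : UPar N M s q δ) {h : ℕ} {S S' : St M}
    (hS : St.Step N h S S') (p p' : Strand N M s q) :
    0 ≤ ⟪S.pos δ p - S.pos δ p', S'.pos δ p - S'.pos δ p'⟫ := by
  cases hS with
  | up w _ => exact inner_nonneg_of_coord _ _ (up_coord w p p')
  | down w _ =>
    rw [real_inner_comm]
    exact inner_nonneg_of_coord _ _ (up_coord w p p')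
  | enter w i _ => exact inner_nonneg_of_coord _ _ (enter_coord hU w i p p')
  | leave w i _ =>
    rw [real_inner_comm]
    exact inner_nonneg_of_coord _ _ (enter_coord hU w i p p')
  | start => simp [St.pos_coll]
  | stop => simp [St.pos_coll]

/-! ### U3 -/

theorem gpos_smul (lam c : ℝ) (W : ℕ → Fin M) (θ β : ℕ → ℝ) (p : Strand N M s q) :
    c • gpos δ lam W θ β p = gpos δ (c * lam) W θ β p := by
  ext o
  rw [PiLp.smul_apply, smul_eq_mul]
  match o with
  | none => rw [gpos_apply_none, gpos_apply_none, mul_assoc]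
  | some (l, i) => rw [gpos_apply_some, gpos_apply_some, mul_assoc]

theorem gpos_combo {W W' W'' : ℕ → Fin M} {θ β θ' β' : ℕ → ℝ}
    (hW : ∀ l, θ l = 0 ∨ W l = W'' l) (hW' : ∀ l, θ' l = 0 ∨ W' l = W'' l) (a b : ℝ)
    (hab : a + b = 1) (p : Strand N M s q) :
    a • gpos δ 1 W θ β p + b • gpos δ 1 W' θ' β' p =
      gpos δ 1 W'' (fun l => a * θ l + b * θ' l) (fun l => a * β l + b * β' l) p := by
  ext o
  rw [PiLp.add_apply, PiLp.smul_apply, PiLp.smul_apply, smul_eq_mul, smul_eq_mul]
  match o with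
  | none =>
    rw [gpos_apply_none, gpos_apply_none, gpos_apply_none, ← add_mul, hab, one_mul]
  | some (l, i) =>
    rw [gpos_apply_some, gpos_apply_some, gpos_apply_some, one_mul, one_mul, one_mul]
    have key : ∀ (V : ℕ → Fin M) (ϑ : ℕ → ℝ), (∀ l, ϑ l = 0 ∨ V l = W'' l) → ∀ X : ℝ,
        (if (l : ℕ) < p.lv ∧ V l = i then ϑ l * X else 0) =
        (if (l : ℕ) < p.lv ∧ W'' l = i then ϑ l * X else 0) := by
      intro V ϑ h X
      rcases h l with h | h
      · rw [h]
        simp
      · rw [h]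
    rw [key W θ hW, key W' θ' hW']
    split_ifs <;> ring

theorem St.θ_mem (S : St M) (l : ℕ) : 0 ≤ S.θ l ∧ S.θ l ≤ 1 := by
  cases S with
  | coll => simp [St.θ]
  | st w b =>
    simp only [St.θ]
    split_ifs <;> norm_num

theorem St.β_mem (S : St M) (l : ℕ) : 0 ≤ S.β l ∧ S.β l ≤ 1 := by
  cases S with
  | coll => simp [St.β]
  | st w b =>
    simp only [St.β]
    split_ifs <;> norm_num

theorem St.lam_mem (S : St M) : 0 ≤ S.lam ∧ S.lam ≤ 1 := by
  cases S with
  | coll => simp [St.lam]
  | st w b => simp [St.lam]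

theorem interp_st [NeZero M] {τ : ℝ} (h0 : 0 ≤ τ) (h1 : τ ≤ 1) (w w' w'' : List (Fin M))
    (b b' : Bool)
    (hw : ∀ l, l < w.length → w.getD l 0 = w''.getD l 0)
    (hw' : ∀ l, l < w'.length → w'.getD l 0 = w''.getD l 0) :
    ∃ (lam : ℝ) (W : ℕ → Fin M) (θ β : ℕ → ℝ), 0 ≤ lam ∧ lam ≤ 1 ∧
      (∀ l, 0 ≤ θ l ∧ θ l ≤ 1) ∧ (∀ l, 0 ≤ β l ∧ β l ≤ 1) ∧
      ∀ p : Strand N M s q, (1 - τ) • St.pos δ (.st w b) p + τ • St.pos δ (.st w' b') p =
        gpos δ lam W θ β p := by
  refine ⟨1, fun l => w''.getD l 0, fun l => (1 - τ) * (St.st w b).θ l + τ * (St.st w' b').θ l,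
    fun l => (1 - τ) * (St.st w b).β l + τ * (St.st w' b').β l, zero_le_one, le_rfl,
    fun l => ?_, fun l => ?_, fun p => ?_⟩
  · have a1 := (St.st w b).θ_mem l
    have a2 := (St.st w' b').θ_mem l
    have h2 : 0 ≤ 1 - τ := by linarith
    constructor
    · exact add_nonneg (mul_nonneg h2 a1.1) (mul_nonneg h0 a2.1)
    · have := mul_le_mul_of_nonneg_left a1.2 h2
      have := mul_le_mul_of_nonneg_left a2.2 h0
      simp only
      linarith
  · have a1 := (St.st w b).β_mem l
    have a2 := (St.st w' b').β_mem l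
    have h2 : 0 ≤ 1 - τ := by linarith
    constructor
    · exact add_nonneg (mul_nonneg h2 a1.1) (mul_nonneg h0 a2.1)
    · have := mul_le_mul_of_nonneg_left a1.2 h2
      have := mul_le_mul_of_nonneg_left a2.2 h0
      simp only
      linarith
  · unfold St.pos
    refine gpos_combo (fun l => ?_) (fun l => ?_) (1 - τ) τ (by ring) p
    · by_cases h : l < w.length
      · exact Or.inr (hw l h)
      · left
        simp [St.θ, h]
    · by_cases h : l < w'.length
      · exact Or.inr (hw' l h)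
      · left
        simp [St.θ, h]

/-- U3: interpolated positions are general positions -/
theorem interp_step [NeZero M] {h : ℕ} {S S' : St M} (hS : St.Step N h S S') {τ : ℝ}
    (h0 : 0 ≤ τ) (h1 : τ ≤ 1) :
    ∃ (lam : ℝ) (W : ℕ → Fin M) (θ β : ℕ → ℝ), 0 ≤ lam ∧ lam ≤ 1 ∧
      (∀ l, 0 ≤ θ l ∧ θ l ≤ 1) ∧ (∀ l, 0 ≤ β l ∧ β l ≤ 1) ∧
      ∀ p : Strand N M s q, (1 - τ) • S.pos δ p + τ • S'.pos δ p = gpos δ lam W θ β p := by
  cases hS with
  | up w _ => exact interp_st h0 h1 w w w _ _ (fun _ _ => rfl) (fun _ _ => rfl)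
  | down w _ => exact interp_st h0 h1 w w w _ _ (fun _ _ => rfl) (fun _ _ => rfl)
  | enter w i _ =>
    exact interp_st h0 h1 w (w ++ [i]) (w ++ [i]) _ _
      (fun l hl => (getD_append_lt w i 0 hl).symm) (fun _ _ => rfl)
  | leave w i _ =>
    exact interp_st h0 h1 (w ++ [i]) w (w ++ [i]) _ _ (fun _ _ => rfl)
      (fun l hl => (getD_append_lt w i 0 hl).symm)
  | start =>
    refine ⟨τ * 1, (St.st ([] : List (Fin M)) false).W, (St.st ([] : List (Fin M)) false).θ,
      (St.st ([] : List (Fin M)) false).β, by linarith, by linarith, fun l => St.θ_mem _ l,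
      fun l => St.β_mem _ l, fun p => ?_⟩
    rw [St.pos_coll, smul_zero, zero_add]
    exact gpos_smul 1 τ _ _ _ p
  | stop =>
    refine ⟨(1 - τ) * 1, (St.st ([] : List (Fin M)) false).W, (St.st ([] : List (Fin M)) false).θ,
      (St.st ([] : List (Fin M)) false).β, by linarith, by linarith, fun l => St.θ_mem _ l,
      fun l => St.β_mem _ l, fun p => ?_⟩
    rw [St.pos_coll, smul_zero, add_zero]
    exact gpos_smul 1 (1 - τ) _ _ _ p

/-! ### U4 -/

theorem Strand.x_nonneg (p : Strand N M s q) : 0 ≤ p.x := by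
  unfold Strand.x
  positivity

theorem Strand.v_le_pow (hU : UPar N M s q δ) (p : Strand N M s q) : p.v ≤ q ^ N := by
  rcases p.ok with ⟨_, h⟩ | ⟨h, k, hk, hv⟩
  · exact h
  · rw [hv]
    have hqe := hU.hq
    have hj := p.j.2
    have hs := hU.hs
    have h1 : k * q + (s + (p.j : ℕ)) ≤ q ^ p.lv * q := by
      have h2 : (k + 1) * q ≤ q ^ p.lv * q := Nat.mul_le_mul_right q hk
      have h3 : (k + 1) * q = k * q + q := by ring
      omega
    calc (k * q + (s + (p.j : ℕ))) * q ^ (N - (p.lv + 1))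
        ≤ q ^ p.lv * q * q ^ (N - (p.lv + 1)) := Nat.mul_le_mul_right _ h1
      _ = q ^ N := by
          rw [← pow_succ, ← pow_add]
          congr 1
          omega

theorem Strand.x_le_one (hU : UPar N M s q δ) (p : Strand N M s q) : p.x ≤ 1 := by
  unfold Strand.x
  have hq := hU.qpos
  rw [div_le_one (by positivity)]
  exact_mod_cast p.v_le_pow hU

theorem norm_gpos_le (hU : UPar N M s q δ) {lam : ℝ} (h0 : 0 ≤ lam) (h1 : lam ≤ 1)
    (W : ℕ → Fin M) {θ β : ℕ → ℝ} (hθ : ∀ l, 0 ≤ θ l ∧ θ l ≤ 1) (hβ : ∀ l, 0 ≤ β l ∧ β l ≤ 1)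
    (p : Strand N M s q) : ‖gpos δ lam W θ β p‖ ≤ 3 := by
  have hq := hU.qpos
  have hδ := hU.hδ
  refine abs_le_of_sq_le_sq' ?_ (by norm_num) |>.2
  rw [EU_norm_sq, gpos_apply_none]
  have hx0 := p.x_nonneg
  have hx1 := p.x_le_one hU
  have hx2 : (lam * p.x) ^ 2 ≤ 1 := by
    have h2 : 0 ≤ lam * p.x := mul_nonneg h0 hx0
    have h3 : lam * p.x ≤ 1 := mul_le_one₀ h1 hx0 hx1
    nlinarith only [h3, h2]
  have h2 : ∀ (l : Fin N), ∑ i : Fin M, gpos δ lam W θ β p (some (l, i)) ^ 2 ≤ δ ^ 2 := by
    intro l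
    have hc : 0 ≤ δ / (q : ℝ) ^ (l : ℕ) := by positivity
    have hcδ : δ / (q : ℝ) ^ (l : ℕ) ≤ δ := hU.div_pow_le l
    have hc0 := chi_nonneg s q ((q : ℝ) ^ (l : ℕ) * p.x)
    have hc1 := chi_le_one s q ((q : ℝ) ^ (l : ℕ) * p.x)
    have hone : ∀ X : ℝ, 0 ≤ X → X ≤ δ → (lam * X) ^ 2 ≤ δ ^ 2 := by
      intro X hX0 hX1
      refine pow_le_pow_left₀ (mul_nonneg h0 hX0) ?_ 2
      calc lam * X ≤ 1 * X := mul_le_mul_of_nonneg_right h1 hX0
        _ ≤ δ := by linarith only [hX1]
    have hth : ∀ {t X : ℝ}, 0 ≤ t ∧ t ≤ 1 → 0 ≤ X → X ≤ δ → 0 ≤ t * X ∧ t * X ≤ δ := by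
      intro t X ht hX0 hX1
      exact ⟨mul_nonneg ht.1 hX0, (mul_le_of_le_one_left hX0 ht.2).trans hX1⟩
    rcases lt_trichotomy (l : ℕ) p.lv with hl | hl | hl
    · have hne : ¬ (l : ℕ) = p.lv := hl.ne
      have e : ∀ i : Fin M, gpos δ lam W θ β p (some (l, i)) ^ 2 = if W l = i then
          (lam * (θ l * (δ / (q : ℝ) ^ (l : ℕ) * chi s q ((q : ℝ) ^ (l : ℕ) * p.x)))) ^ 2
          else 0 := by
        intro i
        rw [gpos_apply_some]
        by_cases h : W l = i
        · simp [hl, hne, h]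
        · simp [hl, hne, h]
      rw [Finset.sum_congr rfl fun i _ => e i, Finset.sum_ite_eq]
      simp only [Finset.mem_univ, if_true]
      have h3 := hth (hθ l) (mul_nonneg hc hc0) ((mul_le_of_le_one_right hc hc1).trans hcδ)
      exact hone _ h3.1 h3.2
    · have e : ∀ i : Fin M, gpos δ lam W θ β p (some (l, i)) ^ 2 = if p.j = i then
          (lam * (β l * (δ / (q : ℝ) ^ (l : ℕ)))) ^ 2 else 0 := by
        intro i
        rw [gpos_apply_some]
        by_cases h : p.j = i
        · simp [hl, h]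
        · have h' : ¬ i = p.j := fun h'' => h h''.symm
          simp [hl, h, h']
      rw [Finset.sum_congr rfl fun i _ => e i, Finset.sum_ite_eq]
      simp only [Finset.mem_univ, if_true]
      have h3 := hth (hβ l) hc hcδ
      exact hone _ h3.1 h3.2
    · have hne : ¬ (l : ℕ) = p.lv := hl.ne'
      have hnlt : ¬ (l : ℕ) < p.lv := not_lt.2 hl.le
      have e : ∀ i : Fin M, gpos δ lam W θ β p (some (l, i)) ^ 2 = 0 := by
        intro i
        rw [gpos_apply_some]
        simp [hne, hnlt]
      rw [Finset.sum_congr rfl fun i _ => e i, Finset.sum_const_zero]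
      positivity
  have h3 : ∑ l : Fin N, ∑ i : Fin M, gpos δ lam W θ β p (some (l, i)) ^ 2 ≤
      ∑ _l : Fin N, δ ^ 2 := Finset.sum_le_sum fun l _ => h2 l
  rw [Finset.sum_const, Finset.card_univ, Fintype.card_fin, nsmul_eq_mul] at h3
  have h4 := hU.hN
  linarith

/-- U4: the norm bound -/
theorem norm_pos_le [NeZero M] (hU : UPar N M s q δ) (S : St M) (p : Strand N M s q) :
    ‖S.pos δ p‖ ≤ 3 :=
  norm_gpos_le hU S.lam_mem.1 S.lam_mem.2 _ (fun l => S.θ_mem l) (fun l => S.β_mem l) p

end Vale.Agent.P208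

/-! ## UMovie -/


/-! P208: the particular movie and the contradiction. -/

namespace Vale.Agent.P208

open scoped RealInnerProductSpace

variable {N M s q : ℕ} [NeZero M] {δ : ℝ}

/-- the geometric facts about the positions (proved in `UCov`) -/
structure UFacts (N M s q : ℕ) [NeZero M] (δ : ℝ) : Prop where
  inner : ∀ {h : ℕ} {S S' : St M}, St.Step N h S S' → ∀ p p' : Strand N M s q,
    0 ≤ ⟪S.pos δ p - S.pos δ p', S'.pos δ p - S'.pos δ p'⟫
  cov : ∀ {lam : ℝ}, 0 ≤ lam → lam ≤ 1 → ∀ (W : ℕ → Fin M) {θ β : ℕ → ℝ},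
    (∀ l, 0 ≤ θ l ∧ θ l ≤ 1) → (∀ l, 0 ≤ β l ∧ β l ≤ 1) → ∀ (z : EU N M) {R : ℝ}, 0 < R →
    ∃ cls : Strand N M s q → Fin covC, ∀ p p', ‖gpos δ lam W θ β p - z‖ ≤ R →
      ‖gpos δ lam W θ β p' - z‖ ≤ R → cls p = cls p' →
      ‖gpos δ lam W θ β p - gpos δ lam W θ β p'‖ ≤ R / 300
  interp : ∀ {h : ℕ} {S S' : St M}, St.Step N h S S' → ∀ {τ : ℝ}, 0 ≤ τ → τ ≤ 1 →
    ∃ (lam : ℝ) (W : ℕ → Fin M) (θ β : ℕ → ℝ), 0 ≤ lam ∧ lam ≤ 1 ∧
      (∀ l, 0 ≤ θ l ∧ θ l ≤ 1) ∧ (∀ l, 0 ≤ β l ∧ β l ≤ 1) ∧
      ∀ p : Strand N M s q, (1 - τ) • S.pos δ p + τ • S'.pos δ p = gpos δ lam W θ β p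
  bound : ∀ (S : St M) (p : Strand N M s q), ‖S.pos δ p‖ ≤ 3

/-- the list of states of the movie -/
def states (N M : ℕ) : List (St M) := .coll :: (dfs M N [] ++ [.coll])

/-- the states of the movie as a function -/
def Kst (N M : ℕ) (κ : ℕ) : St M := (states N M).getD κ .coll

omit [NeZero M] in
theorem seg_states : Seg (Kst N M) 0 (states N M) := by
  intro i hi
  unfold Kst
  rw [zero_add, List.getD_eq_getElem _ _ hi, List.getElem?_eq_getElem hi]

omit [NeZero M] in
theorem chain_states : (states N M).IsChain (Rel N (2 * N)) := by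
  unfold states
  have h1 : (dfs M N []).IsChain (Rel N (2 * N)) :=
    (chain_dfs N [] (by simp)).imp (fun S S' h => h.mono (by omega))
  refine List.IsChain.cons (List.IsChain.append h1 (List.IsChain.singleton _) ?_) ?_
  · intro x hx y hy
    rw [dfs_getLast?] at hx
    obtain rfl : St.st [] false = x := by simpa using hx
    obtain rfl : St.coll = y := by simpa using hy
    exact Rel.of_step .stop le_rfl
  · intro y hy
    rw [List.head?_append, dfs_head?] at hy
    obtain rfl : St.st [] false = y := by simpa using hy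
    exact Rel.of_step .start le_rfl

omit [NeZero M] in
theorem states_length_pos : 0 < (states N M).length := by
  simp only [states, List.length_cons, List.length_append, List.length_nil, zero_add, lt_add_iff_pos_left, add_pos_iff, Order.lt_two_iff, zero_le, or_true]

omit [NeZero M] in
theorem step_states {κ : ℕ} (hκ : κ < (states N M).length - 1) :
    St.Step N (hgt N (Kst N M κ) (Kst N M (κ + 1))) (Kst N M κ) (Kst N M (κ + 1)) := by
  have h := (seg_states (N := N) (M := M)).chain chain_states (b := κ) (by omega)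
  rw [zero_add] at h
  exact h.1

theorem pos_coll (p : Strand N M s q) : (St.coll : St M).pos δ p = 0 := by
  unfold St.pos
  ext o
  rcases o with _ | ⟨l, i⟩
  · rw [gpos_none]
    simp [St.lam]
  · rw [gpos_some]
    simp only [St.lam, zero_mul, PiLp.zero_apply]

theorem pos_base (hq : 0 < q) (S : St M) : S.pos δ (pv N M s q 0 0) = 0 := by
  have hx : (pv N M s q 0 0).x = 0 := by
    rw [pv_x hq (Nat.zero_le _) (Nat.zero_le _)]
    simp
  have hchi : chi s q 0 = 0 := by
    have := chi_nat s q 0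
    rwa [Nat.cast_zero] at this
  unfold St.pos
  ext o
  rcases o with _ | ⟨l, i⟩
  · rw [gpos_none, hx]
    simp
  · rw [gpos_some, hx, pv_lv, mul_zero, hchi]
    have hl : ¬ (l : ℕ) = N := by
      have := l.2
      omega
    simp [hl]

omit [NeZero M] in
theorem finite_strand (hU : UPar N M s q δ) : Finite (Strand N M s q) := by
  let f : Strand N M s q → Fin (N + 1) × Fin M × Fin (q ^ N + 1) := fun p =>
    (⟨p.lv, by
      rcases p.ok with ⟨h, _⟩ | ⟨h, _⟩
      · omega
      · omega⟩, p.j, ⟨p.v, Nat.lt_succ_of_le (p.v_le_pow hU)⟩)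
  refine Finite.of_injective f ?_
  rintro ⟨lv, j, v, ok⟩ ⟨lv', j', v', ok'⟩ h
  simp only [f, Prod.mk.injEq, Fin.mk.injEq] at h
  obtain ⟨rfl, rfl, rfl⟩ := h
  rfl

/-- The particular movie. -/
noncomputable def umovie (hU : UPar N M s q δ) (hF : UFacts N M s q δ) :
    Movie (EU N M) (Strand N M s q) where
  L := (states N M).length - 1
  c κ p := (Kst N M κ).pos δ p
  ht κ := hgt N (Kst N M κ) (Kst N M (κ + 1))
  p0 := pv N M s q 0 0
  zero p := pos_coll p
  last p := by
    have h : Kst N M ((states N M).length - 1) = .coll := by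
      unfold Kst states
      simp [List.getD_eq_getElem?_getD]
    rw [h]
    exact pos_coll p
  base κ := pos_base (by have := hU.hq3; omega) _
  bound κ p := hF.bound _ p
  inner_nonneg κ hκ p p' := hF.inner (step_states hκ) p p'
  cov κ hκ τ h0 h1 z R hR := by
    obtain ⟨lam, W, θ, β, hl0, hl1, hθ, hβ, hp⟩ := hF.interp (step_states hκ) h0 h1
    obtain ⟨cls, hcls⟩ := hF.cov hl0 hl1 W hθ hβ z hR
    refine ⟨cls, fun p p' => ?_⟩
    rw [hp, hp]
    exact hcls p p'

/-- The particular movie is not realized in a packed space. -/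
theorem umovie_not_realized (hU : UPar N M s q δ) (hF : UFacts N M s q δ)
    {F : Type} [NormedAddCommGroup F] [InnerProductSpace ℝ F] {m : ℝ} (hm : 0 < m) (hm1 : m ≤ 1)
    (hsM : 16 * (M : ℝ) / m ^ 2 ≤ s) (hpack : Packed F M m δ)
    (hbig : 1 < (N : ℝ) * (2 * q * δ ^ 2 / s)) : ¬ (umovie hU hF).Realized F m := by
  rintro ⟨G, hb, hkl⟩
  have hq0 : 0 < q := by have := hU.hq3; omega
  have R : Rd N M s q δ m (Kst N M) ((states N M).length - 1) G :=
    { step := fun κ hκ => step_states hκ
      lo := fun κ hκ p p' => (hb κ hκ p p').1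
      hi := fun κ hκ p p' => (hb κ hκ p p').2
      kl := fun κ hκ p hp => hkl κ hκ p hp }
  have hseg : Seg (Kst N M) 1 (dfs M N []) := by
    have h := (seg_states (N := N) (M := M)).tail
    rw [zero_add] at h
    exact h.left
  have h1 := R.read hU.hs hU.hMs hU.hq hU.hδ N [] 0 1 (by simp) (by simp) hseg (by
    have : (states N M).length = (dfs M N []).length + 2 := by simp [states]
    omega)
  have h2 := key_lemma hm hm1 hU.hδ hU.hs hU.hq hsM hpack N _ _ _ h1
  rw [List.length_nil, Lam_zero] at h2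
  have h3 := sq_nonneg ‖(q : ℝ) ^ 0 • G 1 (pv N M s q 0 (0 + 1)) -
    (q : ℝ) ^ 0 • G 1 (pv N M s q 0 0)‖
  (clear hU hF m hm hm1 hsM hpack hb hkl hq0 R hseg h1; linarith)

end Vale.Agent.P208

/-! ## Params -/


/-! P208: choice of the parameters of the `u`-layer. -/

namespace Vale.Agent.P208

theorem exists_params (M₀ : ℕ) {m : ℝ} (_hm : 0 < m) : ∃ (M s q N : ℕ) (δ : ℝ),
    UPar N M s q δ ∧ M₀ ≤ M ∧ 16 * (M : ℝ) / m ^ 2 ≤ s ∧
      1 < (N : ℝ) * (2 * q * δ ^ 2 / s) := by
  obtain ⟨M, hM0, hM1⟩ : ∃ M : ℕ, M₀ ≤ M ∧ 1 ≤ M :=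
    ⟨max M₀ 1, le_max_left _ _, le_max_right _ _⟩
  obtain ⟨s, hs1, hs2, hs3⟩ : ∃ s : ℕ, M ≤ s ∧ 16 * (M : ℝ) / m ^ 2 ≤ s ∧ 1500 ≤ s := by
    refine ⟨max (max M ⌈16 * (M : ℝ) / m ^ 2⌉₊) 1500, ?_, ?_, le_max_right _ _⟩
    · exact (le_max_left _ _).trans (le_max_left _ _)
    · refine (Nat.le_ceil _).trans ?_
      exact_mod_cast (le_max_right _ _).trans (le_max_left _ _)
  obtain ⟨q, hq⟩ : ∃ q : ℕ, 2 * s + M = q := ⟨_, rfl⟩
  have hs0 : (0 : ℝ) < s := by
    have : 0 < s := by omega
    exact_mod_cast this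
  have hq3 : 3000 ≤ q := by omega
  have hq3' : (3000 : ℝ) ≤ q := by exact_mod_cast hq3
  have hq0 : (0 : ℝ) < q := by linarith only [hq3']
  have hqs : 2 * (s : ℝ) ≤ q := by
    have : 2 * s ≤ q := by omega
    exact_mod_cast this
  obtain ⟨δ, hδ⟩ : ∃ δ : ℝ, δ = 1 / (4000 * q) := ⟨_, rfl⟩
  have hδ0 : 0 < δ := by rw [hδ]; positivity
  have hδ1 : δ ≤ 1 / 4 := by
    rw [hδ]
    exact one_div_le_one_div_of_le (by norm_num) (by linarith only [hq3'])
  have hd : 0 < δ ^ 2 := by positivity
  have hc : 0 < 2 * (q : ℝ) * δ ^ 2 := by positivity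
  obtain ⟨N, hN⟩ : ∃ N : ℕ, N = ⌊(s : ℝ) / (2 * q * δ ^ 2)⌋₊ + 1 := ⟨_, rfl⟩
  have hN1 : (s : ℝ) / (2 * q * δ ^ 2) < N := by
    rw [hN]; push_cast; exact Nat.lt_floor_add_one _
  have hN2 : (N : ℝ) ≤ (s : ℝ) / (2 * q * δ ^ 2) + 1 := by
    rw [hN]; push_cast
    have : (⌊(s : ℝ) / (2 * q * δ ^ 2)⌋₊ : ℝ) ≤ (s : ℝ) / (2 * q * δ ^ 2) :=
      Nat.floor_le (by positivity)
    linarith only [this]
  refine ⟨M, s, q, N, δ, ⟨hM1, by omega, hs1, hq, hq3, hδ0, hδ.le, ?_⟩, hM0, hs2, ?_⟩
  · have h1 : (N : ℝ) * δ ^ 2 ≤ s / (2 * q) + δ ^ 2 := by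
      have h2 := mul_le_mul_of_nonneg_right hN2 hd.le
      have h3 : ((s : ℝ) / (2 * q * δ ^ 2) + 1) * δ ^ 2 = s / (2 * q) + δ ^ 2 := by
        (clear * - hδ0 hq3 hs3; field_simp)
      linarith only [h2, h3]
    have h2 : (s : ℝ) / (2 * q) ≤ 1 / 4 := by
      rw [div_le_div_iff₀ (by positivity) (by norm_num)]
      linarith only [hqs]
    have h3 : δ ^ 2 ≤ (1 / 4) ^ 2 := pow_le_pow_left₀ hδ0.le hδ1 2
    nlinarith only [h1, h2, h3]
  · rw [div_lt_iff₀ hc] at hN1
    rw [mul_div_assoc', lt_div_iff₀ hs0]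
    linarith only [hN1]

end Vale.Agent.P208
end
end

section

section

/-! P208: the assembly: bad movies exist, hence the negative answer. -/

namespace Vale.Agent.P208

theorem ufacts {N M s q : ℕ} [NeZero M] {δ : ℝ} (hU : UPar N M s q δ) : UFacts N M s q δ where
  inner := fun hS p p' => inner_step hU hS p p'
  cov := fun h0 h1 W _ _ hθ hβ z _ hR => cov_gpos hU h0 h1 W hθ hβ z hR
  interp := fun hS _ h0 h1 => interp_step hS h0 h1
  bound := fun S p => norm_pos_le hU S p

theorem badMovie (k : ℕ) {m : ℝ} (hm : 0 < m) (hm1 : m ≤ 1) : BadMovie k m := by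
  obtain ⟨M₀, hM₀⟩ := exists_packed (EuclideanSpace ℝ (Fin k)) hm
  obtain ⟨M, s, q, N, δ, hU, hM, hs, hbig⟩ := exists_params M₀ hm
  haveI : NeZero M := ⟨hU.hM.ne'⟩
  exact ⟨EU N M, inferInstance, inferInstance, inferInstance, Strand N M s q, finite_strand hU,
    umovie hU (ufacts hU),
    umovie_not_realized hU (ufacts hU) hm hm1 hs (hM₀ M hM δ hU.hδ) hbig⟩

/-- **The negative answer.** -/
theorem final : ∃ X : Set (lp (fun _ : ℕ => ℝ) 2), (∃ lam : ℕ, DoublingWith lam X) ∧
    ∀ k : ℕ, ¬ BiLipEmbeds X k :=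
  final_of_bad_movies fun k _ hm hm1 => badMovie k hm hm1

end Vale.Agent.P208
end
end

section

section

/-! P208: proof of the final statement. -/

namespace Vale.Agent.P208

theorem exists_compact_counterexample :
    ∃ X : Set (lp (fun _ : ℕ => ℝ) 2), IsCompact X ∧ (∃ lam : ℕ, Doubling lam X) ∧
      ∀ (k : ℕ) (D : ℝ), ¬ Embeds X k D := by
  have hbad := fun (k : ℕ) (c : ℝ) (hc : 0 < c) =>
    exists_bad_set k c hc fun _ h0 h1 => badMovie k h0 h1
  obtain ⟨X, hX, ⟨lam, hd⟩, hne⟩ := glue_compact (69 * covC) hbad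
  refine ⟨X, hX, ⟨lam * lam, hd.strict⟩, fun k D hemb => hne k ?_⟩
  obtain ⟨f, a, ha, hf⟩ := hemb
  exact ⟨fun x => f x, a, D, ha, fun x y => hf x x.2 y y.2⟩

theorem exists_finite_counterexamples :
    ∃ lam : ℕ, ∀ (k : ℕ) (D : ℝ), ∃ X : Set (lp (fun _ : ℕ => ℝ) 2), X.Finite ∧
      Doubling lam X ∧ ¬ Embeds X k D := by
  have hbad := fun (k : ℕ) (c : ℝ) (hc : 0 < c) =>
    exists_bad_set k c hc fun _ h0 h1 => badMovie k h0 h1
  refine ⟨69 * covC * (69 * covC) * (69 * covC * (69 * covC)), fun k D => ?_⟩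
  obtain ⟨X, hX, hd, hne⟩ := finite_version (69 * covC) hbad k D
  refine ⟨X, hX, hd.strict, fun hemb => hne ?_⟩
  obtain ⟨f, a, ha, hf⟩ := hemb
  exact ⟨fun x => f x, a, ha, fun x y => hf x x.2 y y.2⟩

end Vale.Agent.P208
end
end
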